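import Vale.Agent.P050.R2.H545.Trans

/-!
The inequality of the hub law for graphs with a 2-colouring.
-/

set_option linter.unusedSectionVars false

namespace Vale.Agent.P050.R2.H545

open Finset Vale.Agent.P050.Lev Vale.Agent.P050.H148 Vale.Agent.P050.R2.H901

variable {V : Type} [Fintype V] [DecidableEq V] {H : SimpleGraph V} {s : V → Bool}

/-- the degree -/
noncomputable def dG (H : SimpleGraph V) (a : V) : ℕ := Nat.card {b : V // H.Adj a b}

/-- number of vertices touching the block of `a` -/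
noncomputable def qG (H : SimpleGraph V) (b0 a : V) : ℕ :=
  Nat.card {b : V // b ≠ b0 ∧ ¬ H.Adj a b ∧ ∃ v b', H.Adj a b' ∧ H.Adj b' v ∧ H.Adj b v}

/-- the cost of the blocks -/
noncomputable def KG (H : SimpleGraph V) (b0 : V) (F : Finset V) (D : ℕ) : ℕ :=
  ∑ a ∈ F, dG H a * (1 + qG H b0 a + D * (dG H a - 1))

/-- number of non-neighbours of `b0` -/
noncomputable def wG (H : SimpleGraph V) (s : V → Bool) (b0 : V) : ℕ :=
  Nat.card {a : V // s a = false ∧ ¬ H.Adj b0 a}

/-- number of vertices of degree at least `D` -/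
noncomputable def nG (H : SimpleGraph V) (s : V → Bool) (b0 : V) (D : ℕ) : ℕ :=
  Nat.card {b : V // ¬ s b = false ∧ b ≠ b0 ∧ D ≤ dG H b}

/-- number of free vertices of degree at least `D` -/
noncomputable def fG (H : SimpleGraph V) (s : V → Bool) (b0 : V) (F : Finset V) (D : ℕ) : ℕ :=
  Nat.card {b : V // ¬ s b = false ∧ b ≠ b0 ∧ D ≤ dG H b ∧
    ∀ a ∈ F, ∀ b' v, H.Adj a b' → ¬ (H.Adj b v ∧ H.Adj b' v)}

/-- conditions on the set of centres of blocks -/
structure GBlocks (H : SimpleGraph V) (s : V → Bool) (b0 : V) (F : Finset V) (D : ℕ) : Prop where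
  off : ∀ a ∈ F, s a = false ∧ ¬ H.Adj b0 a
  deg : ∀ a ∈ F, ∀ b, H.Adj a b → dG H b ≤ D
  arms : ∀ a ∈ F, ∀ b b' v, H.Adj a b → H.Adj a b' → b ≠ b' → H.Adj b v → H.Adj b' v → v = a
  apart : ∀ a ∈ F, ∀ a' ∈ F, a ≠ a' → ∀ b b' v, H.Adj a b → H.Adj a' b' →
    ¬ (H.Adj b v ∧ H.Adj b' v)

theorem wG_eq (b0 : BT s) :
    wG H s b0.1 + (NN H s b0).card = Fintype.card (AT s) := by
  classical
  have h1 : wG H s b0.1 = (univ.filter fun a : AT s => ¬ a ∈ NN H s b0).card := by
    refine (card_sub _ (fun v => s v = false ∧ ¬ H.Adj b0.1 v) _ (fun a => ?_)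
      fun _ hv => hv.1).symm
    rw [mem_NN]
    exact ⟨fun h => ⟨a.2, h⟩, fun h => h.2⟩
  rw [h1]
  have h2 := Finset.card_filter_add_card_filter_not (s := (univ : Finset (AT s)))
    (fun a => a ∈ NN H s b0)
  rw [Finset.filter_mem_eq_inter, Finset.univ_inter, Finset.card_univ] at h2
  omega

theorem est (hcore : CoreStmt) (hs : ∀ u v, H.Adj u v → s u ≠ s v) {b0 : V}
    (hb0 : ¬ s b0 = false) (hne : ∃ v, H.Adj b0 v) {F : Finset V} {D : ℕ} (hD : 1 ≤ D)
    (hB : GBlocks H s b0 F D) {U : Type} [Fintype U] {m : Bool → U → ℝ} {W : U → U → ℝ}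
    (m0 : ∀ b x, 0 ≤ m b x) (m1 : ∀ b, ∑ x, m b x = 1) (hW : ∀ x y, 0 ≤ W x y)
    (hp : 0 < kernelMean m W)
    (hW1 : ∀ v, s v = false → v ∉ F → ¬ H.Adj b0 v → ∀ x y, W x y ≤ 1) :
    0 < kernelDensity H s m W ∧
    ((Nat.card H.edgeSet : ℝ) + wG H s b0 - F.card) * Real.log (kernelMean m W) +
      ((fG H s b0 F D : ℝ) - KG H b0 F D) * gg (m false) (m true) W (D - 1) ≤
      Real.log (kernelDensity H s m W) := by
  classical
  set b1 : BT s := ⟨b0, hb0⟩ with hb1
  set F' : Finset (AT s) := F.subtype (fun v => s v = false) with hF'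
  have hmem : ∀ a : AT s, a ∈ F' ↔ a.1 ∈ F := fun a => by rw [hF', Finset.mem_subtype]
  have hcard : F'.card = F.card := by
    rw [hF', Finset.card_subtype, Finset.filter_true_of_mem fun a ha => (hB.off a ha).1]
  have hbl : Blocks (NN H s) b1 F' D := by
    refine ⟨?_, ?_, ?_, ?_, ?_⟩
    · obtain ⟨v, hv⟩ := hne
      exact ⟨⟨v, other_false hs hv hb0⟩, mem_NN.2 hv⟩
    · intro a ha h
      exact (hB.off a.1 ((hmem a).1 ha)).2 (mem_NN.1 h)
    · intro a ha b h
      rw [card_NN hs]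
      exact hB.deg a.1 ((hmem a).1 ha) b.1 (mem_NN.1 h).symm
    · intro a ha b b' h1 h2 h3 v h4 h5
      exact Subtype.ext (hB.arms a.1 ((hmem a).1 ha) b.1 b'.1 v.1 (mem_NN.1 h1).symm
        (mem_NN.1 h2).symm (fun h => h3 (Subtype.ext h)) (mem_NN.1 h4) (mem_NN.1 h5))
    · intro a ha a' ha' h1 b b' h2 h3
      rw [disj_NN hs]
      intro v
      exact hB.apart a.1 ((hmem a).1 ha) a'.1 ((hmem a').1 ha') (fun h => h1 (Subtype.ext h))
        b.1 b'.1 v (mem_NN.1 h2).symm (mem_NN.1 h3).symm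
  have key := hcore (AT s) (BT s) U U (m false) (m true) W (NN H s) b1 F' D (m0 false) (m1 false)
    (m0 true) (m1 true) hW (by rw [pp_eq]; exact hp) hD hbl (fun v h1 h2 => hW1 v.1 v.2
      (fun h => h1 ((hmem v).2 h)) (fun h => h2 (mem_NN.2 h)))
  rw [tt_eq, pp_eq] at key
  have e1 : (∑ b, ((NN H s b).card : ℝ)) = (Nat.card H.edgeSet : ℝ) := by
    rw [← sum_card_NN hs]
    push_cast
    rfl
  have e2 : (Fintype.card (AT s) : ℝ) = wG H s b0 + (NN H s b1).card := by
    rw [← wG_eq (H := H) b1]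
    push_cast
    rfl
  have e3 : nf (NN H s) b1 F' D = fG H s b0 F D := by
    rw [nf_eq hs]
    unfold fG dG
    refine Nat.card_congr (Equiv.subtypeEquivRight fun b => ?_)
    refine and_congr Iff.rfl (and_congr Iff.rfl (and_congr Iff.rfl ?_))
    constructor
    · intro h a ha
      exact h ⟨a, (hB.off a ha).1⟩ ((hmem _).2 ha)
    · intro h a ha
      exact h a.1 ((hmem a).1 ha)
  have e4 : KK (NN H s) b1 F' D = KG H b0 F D := by
    unfold KK KG
    rw [← Finset.sum_subtype_of_mem (p := fun v => s v = false)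
      (fun a => dG H a * (1 + qG H b0 a + D * (dG H a - 1))) (fun a ha => (hB.off a ha).1)]
    refine Finset.sum_congr rfl fun a _ => ?_
    rw [rr_eq hs, qq_eq hs]
    rfl
  rw [e1, e2, e3, e4, hcard] at key
  refine ⟨key.1, le_trans (le_of_eq ?_) key.2⟩
  ring

theorem empty_blocks (b0 : V) (D : ℕ) : GBlocks H s b0 ∅ D :=
  ⟨by simp, by simp, by simp, by simp⟩

theorem KG_empty (b0 : V) (D : ℕ) : KG H b0 ∅ D = 0 := rfl

theorem fG_empty (b0 : V) (D : ℕ) : fG H s b0 ∅ D = nG H s b0 D := by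
  unfold fG nG
  refine Nat.card_congr (Equiv.subtypeEquivRight fun b => ?_)
  simp

theorem card_le_wG {b0 : V} {F : Finset V} {D : ℕ} (hB : GBlocks H s b0 F D) :
    F.card ≤ wG H s b0 := by
  classical
  unfold wG
  rw [Nat.card_eq_fintype_card, Fintype.card_subtype]
  exact Finset.card_le_card fun a ha => by simp [(hB.off a ha).1, (hB.off a ha).2]

theorem edge_pos {b0 : V} (hne : ∃ v, H.Adj b0 v) : 1 ≤ Nat.card H.edgeSet := by
  obtain ⟨v, hv⟩ := hne
  have : Nonempty H.edgeSet := ⟨⟨s(b0, v), hv⟩⟩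
  exact Nat.card_pos

/-- the two estimates together -/
theorem mix (hcore : CoreStmt) (hg : GNonneg) (hs : ∀ u v, H.Adj u v → s u ≠ s v) {b0 : V}
    (hb0 : ¬ s b0 = false) (hne : ∃ v, H.Adj b0 v) {F : Finset V} {D : ℕ} (hD : 1 ≤ D)
    (hB : GBlocks H s b0 F D) {U : Type} [Fintype U] {m : Bool → U → ℝ} {W : U → U → ℝ}
    (m0 : ∀ b x, 0 ≤ m b x) (m1 : ∀ b, ∑ x, m b x = 1) (hW : ∀ x y, 0 ≤ W x y)
    (hp : 0 < kernelMean m W) (hW1 : ∀ x y, W x y ≤ 1) :
    0 < kernelDensity H s m W ∧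
    ((Nat.card H.edgeSet : ℝ) + wG H s b0) * Real.log (kernelMean m W) ≤
      Real.log (kernelDensity H s m W) ∧
    (((nG H s b0 D : ℝ) + KG H b0 F D) * ((Nat.card H.edgeSet : ℝ) + wG H s b0) -
      nG H s b0 D * F.card) * Real.log (kernelMean m W) ≤
      ((nG H s b0 D : ℝ) + KG H b0 F D) * Real.log (kernelDensity H s m W) := by
  obtain ⟨hpos, h1⟩ := est hcore hs hb0 hne hD hB m0 m1 hW hp fun _ _ _ _ => hW1
  obtain ⟨_, h2⟩ := est hcore hs hb0 hne hD (empty_blocks b0 D) m0 m1 hW hp fun _ _ _ _ => hW1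
  rw [fG_empty, KG_empty] at h2
  have h3 := hg U U (m false) (m true) W (D - 1) (m0 false) (m1 false) (m0 true) (m1 true) hW
    (by rw [pp_eq]; exact hp)
  simp only [Finset.card_empty, Nat.cast_zero, sub_zero] at h2
  have hn : (0 : ℝ) ≤ nG H s b0 D := Nat.cast_nonneg _
  have hK : (0 : ℝ) ≤ KG H b0 F D := Nat.cast_nonneg _
  have hf : (0 : ℝ) ≤ fG H s b0 F D := Nat.cast_nonneg _
  refine ⟨hpos, ?_, ?_⟩
  · nlinarith [mul_nonneg hn h3]
  · have h4 := mul_le_mul_of_nonneg_left h1 hn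
    have h5 := mul_le_mul_of_nonneg_left h2 hK
    have h6 := mul_nonneg (mul_nonneg hn hf) h3
    nlinarith

/-- **(1)** for the side `false`. -/
theorem near_false (hcore : CoreStmt) (hg : GNonneg) (hs : ∀ u v, H.Adj u v → s u ≠ s v) {b0 : V}
    (hb0 : ¬ s b0 = false) (hne : ∃ v, H.Adj b0 v) {F : Finset V} {D : ℕ} (hD : 1 ≤ D)
    (hB : GBlocks H s b0 F D) :
    NearSid H s ((nG H s b0 D + KG H b0 F D) * (Nat.card H.edgeSet + wG H s b0) -
      nG H s b0 D * F.card) (nG H s b0 D + KG H b0 F D) := by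
  refine ⟨hs, ?_⟩
  intro U _ m W m0 m1 hW hW1
  have hp0 : 0 ≤ kernelMean m W := kp_nonneg m0 hW
  have ht0 : 0 ≤ kernelDensity H s m W := kd_nonneg m0 hW
  have hw := card_le_wG hB
  have he := edge_pos hne
  have hle : nG H s b0 D * F.card ≤
      (nG H s b0 D + KG H b0 F D) * (Nat.card H.edgeSet + wG H s b0) :=
    Nat.mul_le_mul (Nat.le_add_right _ _) (hw.trans (Nat.le_add_left _ _))
  rcases hp0.eq_or_lt with hp | hp
  · rcases Nat.eq_zero_or_pos (nG H s b0 D + KG H b0 F D) with h0 | h0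
    · rw [h0, zero_mul, Nat.zero_sub, pow_zero, pow_zero]
    · have h1 : nG H s b0 D * F.card <
          (nG H s b0 D + KG H b0 F D) * (Nat.card H.edgeSet + wG H s b0) := by
        calc nG H s b0 D * F.card ≤ (nG H s b0 D + KG H b0 F D) * wG H s b0 :=
              Nat.mul_le_mul (Nat.le_add_right _ _) hw
          _ < _ := Nat.mul_lt_mul_of_pos_left (by omega) h0
      rw [← hp, zero_pow (by omega)]
      exact pow_nonneg ht0 _
  · obtain ⟨hpos, -, h1⟩ := mix hcore hg hs hb0 hne hD hB m0 m1 hW hp hW1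
    have h8 : (((nG H s b0 D + KG H b0 F D) * (Nat.card H.edgeSet + wG H s b0) -
        nG H s b0 D * F.card : ℕ) : ℝ) * Real.log (kernelMean m W) ≤
        ((nG H s b0 D + KG H b0 F D : ℕ) : ℝ) * Real.log (kernelDensity H s m W) := by
      rw [Nat.cast_sub hle]
      push_cast
      exact h1
    rw [← Real.log_pow, ← Real.log_pow] at h8
    exact (Real.log_le_log_iff (pow_pos hp _) (pow_pos hpos _)).1 h8

/-- **(2)** for the side `false`. -/
theorem sid_false (hcore : CoreStmt) (hg : GNonneg) (hs : ∀ u v, H.Adj u v → s u ≠ s v) {b0 : V}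
    (hb0 : ¬ s b0 = false) (hne : ∃ v, H.Adj b0 v) {F : Finset V} {D : ℕ} (hD : 1 ≤ D)
    (hB : GBlocks H s b0 F D) (hw : wG H s b0 ≤ F.card) (hK : KG H b0 F D ≤ fG H s b0 F D) :
    GSid H s := by
  classical
  have hE : ∀ e ∈ sideEdges H s, s e.1 = false ∧ s e.2 = true := by
    intro e he
    unfold sideEdges at he
    exact (Finset.mem_filter.1 he).2.2
  refine ⟨hs, hE, ?_⟩
  intro U _ m W m0 m1 hW
  change kernelMean m W ^ (sideEdges H s).card ≤ kernelDensity H s m W
  rw [card_sideEdges H s hs]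
  have hp0 : 0 ≤ kernelMean m W := kp_nonneg m0 hW
  have ht0 : 0 ≤ kernelDensity H s m W := kd_nonneg m0 hW
  have he := edge_pos hne
  have hw' := card_le_wG hB
  rcases hp0.eq_or_lt with hp | hp
  · rw [← hp, zero_pow (by omega)]
    exact ht0
  · have hall : ∀ v, s v = false → ¬ H.Adj b0 v → v ∈ F := by
      intro v h1 h2
      have h3 : (univ.filter fun a => s a = false ∧ ¬ H.Adj b0 a) = F := by
        symm
        refine Finset.eq_of_subset_of_card_le (fun a ha => by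
          simp [(hB.off a ha).1, (hB.off a ha).2]) ?_
        have h4 : wG H s b0 = (univ.filter fun a => s a = false ∧ ¬ H.Adj b0 a).card := by
          unfold wG
          rw [Nat.card_eq_fintype_card, Fintype.card_subtype]
        rw [← h4]
        exact hw
      rw [← h3]
      simp [h1, h2]
    obtain ⟨hpos, h1⟩ := est hcore hs hb0 hne hD hB m0 m1 hW hp
      fun v h1 h2 h3 => absurd (hall v h1 h3) h2
    have h3 := hg U U (m false) (m true) W (D - 1) (m0 false) (m1 false) (m0 true) (m1 true) hW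
      (by rw [pp_eq]; exact hp)
    have h4 : (wG H s b0 : ℝ) = F.card := by exact_mod_cast le_antisymm hw hw'
    have h5 : (0 : ℝ) ≤ (fG H s b0 F D : ℝ) - KG H b0 F D := by
      have : (KG H b0 F D : ℝ) ≤ fG H s b0 F D := by exact_mod_cast hK
      linarith
    have h6 := mul_nonneg h5 h3
    have h7 : (Nat.card H.edgeSet : ℝ) * Real.log (kernelMean m W) ≤
        Real.log (kernelDensity H s m W) := by
      rw [h4] at h1
      have h8 : (Nat.card H.edgeSet : ℝ) + F.card - F.card = Nat.card H.edgeSet := by ring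
      rw [h8] at h1
      linarith
    rw [← Real.log_pow] at h7
    exact (Real.log_le_log_iff (pow_pos hp _) hpos).1 h7

end Vale.Agent.P050.R2.H545
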