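import Vale.Agent.P050.R2.H545.Trans2

/-!
The inequalities for graphs with a 2-colouring, acyclic arms.
-/

set_option linter.unusedSectionVars false

namespace Vale.Agent.P050.R2.H545

open Finset Vale.Agent.P050.Lev Vale.Agent.P050.H148 Vale.Agent.P050.R2.H901

variable {V : Type} [Fintype V] [DecidableEq V] {H : SimpleGraph V} {s : V → Bool}

/-- **(1)** for the side `false`. -/
theorem near_false2 (hcore : CoreStmt2) (hg : GNonneg) (hs : ∀ u v, H.Adj u v → s u ≠ s v)
    {b0 : V} (hb0 : ¬ s b0 = false) (hne : ∃ v, H.Adj b0 v) {F : Finset V} {D : ℕ} (hD : 1 ≤ D)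
    (hB : GBlocks2 H s b0 F D) {k : ℕ} (hk : KG H b0 F D ≤ gG H s b0 F D + k) :
    NearSid H s ((gG H s b0 ∅ D + k) * (Nat.card H.edgeSet + wG H s b0) -
      gG H s b0 ∅ D * F.card) (gG H s b0 ∅ D + k) := by
  refine ⟨hs, ?_⟩
  intro U _ m W m0 m1 hW hW1
  have hp0 : 0 ≤ kernelMean m W := kp_nonneg m0 hW
  have ht0 : 0 ≤ kernelDensity H s m W := kd_nonneg m0 hW
  have hw := card_le_wG2 hB
  have he := edge_pos hne
  have hle : gG H s b0 ∅ D * F.card ≤
      (gG H s b0 ∅ D + k) * (Nat.card H.edgeSet + wG H s b0) :=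
    Nat.mul_le_mul (Nat.le_add_right _ _) (hw.trans (Nat.le_add_left _ _))
  rcases hp0.eq_or_lt with hp | hp
  · rcases Nat.eq_zero_or_pos (gG H s b0 ∅ D + k) with h0 | h0
    · rw [h0, zero_mul, Nat.zero_sub, pow_zero, pow_zero]
    · have h1 : gG H s b0 ∅ D * F.card <
          (gG H s b0 ∅ D + k) * (Nat.card H.edgeSet + wG H s b0) := by
        calc gG H s b0 ∅ D * F.card ≤ (gG H s b0 ∅ D + k) * wG H s b0 :=
              Nat.mul_le_mul (Nat.le_add_right _ _) hw
          _ < _ := Nat.mul_lt_mul_of_pos_left (by omega) h0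
      rw [← hp, zero_pow (by omega)]
      exact pow_nonneg ht0 _
  · obtain ⟨hpos, -, h1, -⟩ := mix2 hcore hg hs hb0 hne hD hB m0 m1 hW hp hW1 hk
    have h8 : (((gG H s b0 ∅ D + k) * (Nat.card H.edgeSet + wG H s b0) -
        gG H s b0 ∅ D * F.card : ℕ) : ℝ) * Real.log (kernelMean m W) ≤
        ((gG H s b0 ∅ D + k : ℕ) : ℝ) * Real.log (kernelDensity H s m W) := by
      rw [Nat.cast_sub hle]
      push_cast
      exact h1
    rw [← Real.log_pow, ← Real.log_pow] at h8
    exact (Real.log_le_log_iff (pow_pos hp _) (pow_pos hpos _)).1 h8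

/-- **(2)** for the side `false`, kernels with values in `[0, 1]`. -/
theorem free_false2 (hcore : CoreStmt2) (hg : GNonneg) (hs : ∀ u v, H.Adj u v → s u ≠ s v)
    {b0 : V} (hb0 : ¬ s b0 = false) (hne : ∃ v, H.Adj b0 v) {F : Finset V} {D : ℕ} (hD : 1 ≤ D)
    (hB : GBlocks2 H s b0 F D) (hk : KG H b0 F D ≤ gG H s b0 F D) :
    NearSid H s (Nat.card H.edgeSet + wG H s b0 - F.card) 1 := by
  refine ⟨hs, ?_⟩
  intro U _ m W m0 m1 hW hW1
  have hp0 : 0 ≤ kernelMean m W := kp_nonneg m0 hW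
  have ht0 : 0 ≤ kernelDensity H s m W := kd_nonneg m0 hW
  have hw := card_le_wG2 hB
  have he := edge_pos hne
  have hle : F.card ≤ Nat.card H.edgeSet + wG H s b0 := hw.trans (Nat.le_add_left _ _)
  rcases hp0.eq_or_lt with hp | hp
  · rw [← hp, zero_pow (by omega)]
    exact pow_nonneg ht0 _
  · obtain ⟨hpos, -, -, h1⟩ := mix2 hcore hg hs hb0 hne hD hB m0 m1 hW hp hW1 (k := 0) (by omega)
    have h8 : ((Nat.card H.edgeSet + wG H s b0 - F.card : ℕ) : ℝ) *
        Real.log (kernelMean m W) ≤ ((1 : ℕ) : ℝ) * Real.log (kernelDensity H s m W) := by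
      rw [Nat.cast_sub hle]
      push_cast
      rw [one_mul]
      exact h1 rfl
    rw [← Real.log_pow, ← Real.log_pow] at h8
    exact (Real.log_le_log_iff (pow_pos hp _) (pow_pos hpos _)).1 h8

/-- **(2)** for the side `false`. -/
theorem sid_false2 (hcore : CoreStmt2) (hg : GNonneg) (hs : ∀ u v, H.Adj u v → s u ≠ s v)
    {b0 : V} (hb0 : ¬ s b0 = false) (hne : ∃ v, H.Adj b0 v) {F : Finset V} {D : ℕ} (hD : 1 ≤ D)
    (hB : GBlocks2 H s b0 F D) (hw : wG H s b0 ≤ F.card) (hK : KG H b0 F D ≤ gG H s b0 F D) :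
    GSid H s := by
  classical
  have hE : ∀ e ∈ sideEdges H s, s e.1 = false ∧ s e.2 = true := by
    intro e he
    unfold sideEdges at he
    exact (Finset.mem_filter.1 he).2.2
  refine ⟨hs, hE, ?_⟩
  intro U _ m W m0 m1 hW
  change kernelMean m W ^ (sideEdges H s).card ≤ kernelDensity H s m W
  rw [card_sideEdges H s hs]
  have hp0 : 0 ≤ kernelMean m W := kp_nonneg m0 hW
  have ht0 : 0 ≤ kernelDensity H s m W := kd_nonneg m0 hW
  have he := edge_pos hne
  have hw' := card_le_wG2 hB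
  rcases hp0.eq_or_lt with hp | hp
  · rw [← hp, zero_pow (by omega)]
    exact ht0
  · have hall : ∀ v, s v = false → ¬ H.Adj b0 v → v ∈ F := by
      intro v h1 h2
      have h3 : (univ.filter fun a => s a = false ∧ ¬ H.Adj b0 a) = F := by
        symm
        refine Finset.eq_of_subset_of_card_le (fun a ha => by
          simp [(hB.off a ha).1, (hB.off a ha).2]) ?_
        have h4 : wG H s b0 = (univ.filter fun a => s a = false ∧ ¬ H.Adj b0 a).card := by
          unfold wG
          rw [Nat.card_eq_fintype_card, Fintype.card_subtype]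
        rw [← h4]
        exact hw
      rw [← h3]
      simp [h1, h2]
    obtain ⟨hpos, h1⟩ := est2 hcore hs hb0 hne hD hB m0 m1 hW hp
      fun v h1 h2 h3 => absurd (hall v h1 h3) h2
    have h3 := hg U U (m false) (m true) W (D - 1) (m0 false) (m1 false) (m0 true) (m1 true) hW
      (by rw [pp_eq]; exact hp)
    have h4 : (wG H s b0 : ℝ) = F.card := by exact_mod_cast le_antisymm hw hw'
    have h5 : (0 : ℝ) ≤ (gG H s b0 F D : ℝ) - KG H b0 F D := by
      have : (KG H b0 F D : ℝ) ≤ gG H s b0 F D := by exact_mod_cast hK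
      linarith
    have h6 := mul_nonneg h5 h3
    have h7 : (Nat.card H.edgeSet : ℝ) * Real.log (kernelMean m W) ≤
        Real.log (kernelDensity H s m W) := by
      rw [h4] at h1
      have h8 : (Nat.card H.edgeSet : ℝ) + F.card - F.card = Nat.card H.edgeSet := by ring
      rw [h8] at h1
      linarith
    rw [← Real.log_pow] at h7
    exact (Real.log_le_log_iff (pow_pos hp _) hpos).1 h7

end Vale.Agent.P050.R2.H545
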