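import Vale.Agent.P050.R2.H545.Fin3

/-!
Maximum degree three.
-/

set_option linter.unusedSectionVars false

namespace Vale.Agent.P050.R2.H545

open Finset Vale.Agent.P050.Lev Vale.Agent.P050.H148 Vale.Agent.P050.R2.H901

variable {V : Type} [Fintype V] [DecidableEq V] {H : SimpleGraph V} {s : V → Bool}

/-- the arms at `a` form a cube without a vertex -/
def Bad (H : SimpleGraph V) (a : V) : Prop :=
  ∃ b₁ b₂ b₃ x₁ x₂ x₃ : V, H.Adj a b₁ ∧ H.Adj a b₂ ∧ H.Adj a b₃ ∧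
    H.Adj b₁ x₂ ∧ H.Adj b₁ x₃ ∧ H.Adj b₂ x₁ ∧ H.Adj b₂ x₃ ∧ H.Adj b₃ x₁ ∧ H.Adj b₃ x₂ ∧
    ¬ H.Adj b₁ x₁ ∧ ¬ H.Adj b₂ x₂ ∧ ¬ H.Adj b₃ x₃

theorem nb_eq_three {a b₁ b₂ b₃ : V} (hd : dG H a ≤ 3) (h1 : H.Adj a b₁) (h2 : H.Adj a b₂)
    (h3 : H.Adj a b₃) (h12 : b₁ ≠ b₂) (h13 : b₁ ≠ b₃) (h23 : b₂ ≠ b₃) {b : V}
    (hb : H.Adj a b) : b = b₁ ∨ b = b₂ ∨ b = b₃ := by
  classical
  have h4 : ({b₁, b₂, b₃} : Finset V) = nb H a := by
    refine Finset.eq_of_subset_of_card_le ?_ ?_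
    · intro x hx
      simp only [Finset.mem_insert, Finset.mem_singleton] at hx
      rcases hx with rfl | rfl | rfl <;> exact mem_nb.2 ‹_›
    · rw [card_nb, Finset.card_eq_three.2 ⟨b₁, b₂, b₃, h12, h13, h23, rfl⟩]
      exact hd
  have h5 := mem_nb.2 hb
  rw [← h4] at h5
  simpa using h5

/-- three vertices in a linear order -/
theorem acyc_of_order {a b₁ b₂ b₃ : V} (hall : ∀ b, H.Adj a b → b = b₁ ∨ b = b₂ ∨ b = b₃)
    (h1 : H.Adj a b₁) (h2 : H.Adj a b₂) (h3 : H.Adj a b₃) (h12 : b₁ ≠ b₂) (h13 : b₁ ≠ b₃)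
    (h23 : b₂ ≠ b₃)
    (h : (∀ v, H.Adj b₃ v → H.Adj b₂ v → H.Adj b₁ v) ∨
      (∀ v, H.Adj b₃ v → H.Adj b₁ v → H.Adj b₂ v)) : AcycG H a := by
  classical
  obtain ⟨f, f1, f2, f3⟩ : ∃ f : V → ℕ, f b₁ = 0 ∧ f b₂ = 1 ∧ f b₃ = 2 :=
    ⟨fun b => if b = b₁ then 0 else if b = b₂ then 1 else 2, by simp, by simp [h12.symm],
      by simp [h13.symm, h23.symm]⟩
  refine ⟨f, ?_, ?_⟩
  · intro b b' hb hb' e
    rcases hall b hb with h4 | h4 | h4 <;> rcases hall b' hb' with h5 | h5 | h5 <;>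
      rw [h4, h5] at e ⊢ <;> simp only [f1, f2, f3] at e <;> omega
  · rintro b hb ⟨c, hc, hlt⟩
    rcases hall b hb with h4 | h4 | h4
    · rw [h4, f1] at hlt
      exact absurd hlt (Nat.not_lt_zero _)
    · -- second
      subst h4
      refine ⟨b₁, h1, by rw [f1, f2]; exact Nat.one_pos, ?_⟩
      intro b'' hb'' hlt' v _ hv
      rcases hall b'' hb'' with h5 | h5 | h5
      · rwa [← h5]
      · rw [h5] at hlt'
        exact absurd hlt' (lt_irrefl _)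
      · rw [h5, f2, f3] at hlt'
        omega
    · subst h4
      rcases h with h | h
      · refine ⟨b₁, h1, by rw [f1, f3]; omega, ?_⟩
        intro b'' hb'' hlt' v hv hv'
        rcases hall b'' hb'' with h5 | h5 | h5
        · rwa [← h5]
        · exact h v hv (h5 ▸ hv')
        · rw [h5] at hlt'
          exact absurd hlt' (lt_irrefl _)
      · refine ⟨b₂, h2, by rw [f2, f3]; omega, ?_⟩
        intro b'' hb'' hlt' v hv hv'
        rcases hall b'' hb'' with h5 | h5 | h5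
        · exact h v hv (h5 ▸ hv')
        · rwa [← h5]
        · rw [h5] at hlt'
          exact absurd hlt' (lt_irrefl _)

theorem acyc_or_bad {a : V} (hd : dG H a ≤ 3) : AcycG H a ∨ Bad H a := by
  classical
  rcases Nat.lt_or_ge (dG H a) 3 with h | h
  · exact Or.inl (acycG_of_two (by omega))
  have h3 : (nb H a).card = 3 := by
    rw [card_nb]
    omega
  obtain ⟨b₁, b₂, b₃, h12, h13, h23, e⟩ := Finset.card_eq_three.1 h3
  have hb1 : H.Adj a b₁ := mem_nb.1 (by rw [e]; simp)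
  have hb2 : H.Adj a b₂ := mem_nb.1 (by rw [e]; simp)
  have hb3 : H.Adj a b₃ := mem_nb.1 (by rw [e]; simp)
  have hall : ∀ b, H.Adj a b → b = b₁ ∨ b = b₂ ∨ b = b₃ := fun b hb =>
    nb_eq_three hd hb1 hb2 hb3 h12 h13 h23 hb
  by_cases c1 : ∀ v, H.Adj b₃ v → H.Adj b₂ v → H.Adj b₁ v
  · exact Or.inl (acyc_of_order hall hb1 hb2 hb3 h12 h13 h23 (Or.inl c1))
  by_cases c2 : ∀ v, H.Adj b₃ v → H.Adj b₁ v → H.Adj b₂ v
  · exact Or.inl (acyc_of_order hall hb1 hb2 hb3 h12 h13 h23 (Or.inr c2))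
  by_cases c3 : ∀ v, H.Adj b₂ v → H.Adj b₁ v → H.Adj b₃ v
  · refine Or.inl (acyc_of_order (b₁ := b₁) (b₂ := b₃) (b₃ := b₂) (fun b hb => ?_) hb1 hb3 hb2
      h13 h12 h23.symm (Or.inr c3))
    rcases hall b hb with h | h | h
    · exact Or.inl h
    · exact Or.inr (Or.inr h)
    · exact Or.inr (Or.inl h)
  push Not at c1 c2 c3
  obtain ⟨x₁, k1, k2, k3⟩ := c1
  obtain ⟨x₂, k4, k5, k6⟩ := c2
  obtain ⟨x₃, k7, k8, k9⟩ := c3
  exact Or.inr ⟨b₁, b₂, b₃, x₁, x₂, x₃, hb1, hb2, hb3, k5, k8, k2, k7, k1, k4, k3, k6, k9⟩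

/-- the cube -/
def Cube (H : SimpleGraph V) : Prop :=
  ∃ a c : Fin 4 → V, Function.Injective a ∧ Function.Injective c ∧
    ∀ i j, i ≠ j → H.Adj (a i) (c j)

/-- the data of a bad vertex -/
structure BD (H : SimpleGraph V) (a b₁ b₂ b₃ x₁ x₂ x₃ : V) : Prop where
  a1 : H.Adj a b₁
  a2 : H.Adj a b₂
  a3 : H.Adj a b₃
  h12 : H.Adj b₁ x₂
  h13 : H.Adj b₁ x₃
  h21 : H.Adj b₂ x₁
  h23 : H.Adj b₂ x₃
  h31 : H.Adj b₃ x₁
  h32 : H.Adj b₃ x₂
  n1 : ¬ H.Adj b₁ x₁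
  n2 : ¬ H.Adj b₂ x₂
  n3 : ¬ H.Adj b₃ x₃

namespace BD

variable {a b₁ b₂ b₃ x₁ x₂ x₃ : V}

theorem swap23 (h : BD H a b₁ b₂ b₃ x₁ x₂ x₃) : BD H a b₁ b₃ b₂ x₁ x₃ x₂ :=
  ⟨h.a1, h.a3, h.a2, h.h13, h.h12, h.h31, h.h32, h.h21, h.h23, h.n1, h.n3, h.n2⟩

theorem swap12 (h : BD H a b₁ b₂ b₃ x₁ x₂ x₃) : BD H a b₂ b₁ b₃ x₂ x₁ x₃ :=
  ⟨h.a2, h.a1, h.a3, h.h21, h.h23, h.h12, h.h13, h.h32, h.h31, h.n2, h.n1, h.n3⟩

theorem b12 (h : BD H a b₁ b₂ b₃ x₁ x₂ x₃) : b₁ ≠ b₂ := fun e => h.n1 (e ▸ h.h21)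
theorem b13 (h : BD H a b₁ b₂ b₃ x₁ x₂ x₃) : b₁ ≠ b₃ := fun e => h.n1 (e ▸ h.h31)
theorem b23 (h : BD H a b₁ b₂ b₃ x₁ x₂ x₃) : b₂ ≠ b₃ := fun e => h.n2 (e ▸ h.h32)
theorem x12 (h : BD H a b₁ b₂ b₃ x₁ x₂ x₃) : x₁ ≠ x₂ := fun e => h.n1 (e ▸ h.h12)
theorem x13 (h : BD H a b₁ b₂ b₃ x₁ x₂ x₃) : x₁ ≠ x₃ := fun e => h.n1 (e ▸ h.h13)
theorem x23 (h : BD H a b₁ b₂ b₃ x₁ x₂ x₃) : x₂ ≠ x₃ := fun e => h.n2 (e ▸ h.h23)
theorem ax1 (h : BD H a b₁ b₂ b₃ x₁ x₂ x₃) : a ≠ x₁ := fun e => h.n1 (e ▸ h.a1.symm)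
theorem ax2 (h : BD H a b₁ b₂ b₃ x₁ x₂ x₃) : a ≠ x₂ := fun e => h.n2 (e ▸ h.a2.symm)
theorem ax3 (h : BD H a b₁ b₂ b₃ x₁ x₂ x₃) : a ≠ x₃ := fun e => h.n3 (e ▸ h.a3.symm)

theorem na (h : BD H a b₁ b₂ b₃ x₁ x₂ x₃) (hd : ∀ v, dG H v ≤ 3) {b : V} (hb : H.Adj a b) :
    b = b₁ ∨ b = b₂ ∨ b = b₃ :=
  nb_eq_three (hd a) h.a1 h.a2 h.a3 h.b12 h.b13 h.b23 hb

theorem nb1 (h : BD H a b₁ b₂ b₃ x₁ x₂ x₃) (hd : ∀ v, dG H v ≤ 3) {v : V} (hv : H.Adj b₁ v) :
    v = a ∨ v = x₂ ∨ v = x₃ :=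
  nb_eq_three (hd b₁) h.a1.symm h.h12 h.h13 h.ax2 h.ax3 h.x23 hv

/-- the common neighbours of two arms -/
theorem common12 (h : BD H a b₁ b₂ b₃ x₁ x₂ x₃) (hd : ∀ v, dG H v ≤ 3) {v : V}
    (h1 : H.Adj b₁ v) (h2 : H.Adj b₂ v) : v = a ∨ v = x₃ := by
  rcases h.nb1 hd h1 with h3 | h3 | h3
  · exact Or.inl h3
  · exact absurd (h3 ▸ h2) h.n2
  · exact Or.inr h3

end BD

/-- two common neighbours -/
def Tw (H : SimpleGraph V) (a y : V) : Prop :=
  a ≠ y ∧ ∃ b b', b ≠ b' ∧ H.Adj a b ∧ H.Adj a b' ∧ H.Adj y b ∧ H.Adj y b'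

/-- two arms of a bad vertex, in standard position -/
theorem Bad.norm {a b b' : V} (h : Bad H a) (hd : ∀ v, dG H v ≤ 3) (hne : b ≠ b')
    (hb : H.Adj a b) (hb' : H.Adj a b') : ∃ b₃ x₁ x₂ x₃, BD H a b b' b₃ x₁ x₂ x₃ := by
  obtain ⟨c₁, c₂, c₃, x₁, x₂, x₃, k1, k2, k3, k4, k5, k6, k7, k8, k9, k10, k11, k12⟩ := h
  have B : BD H a c₁ c₂ c₃ x₁ x₂ x₃ := ⟨k1, k2, k3, k4, k5, k6, k7, k8, k9, k10, k11, k12⟩
  rcases B.na hd hb with h1 | h1 | h1 <;> rcases B.na hd hb' with h2 | h2 | h2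
  · exact absurd (h1.trans h2.symm) hne
  · subst h1 h2; exact ⟨_, _, _, _, B⟩
  · subst h1 h2; exact ⟨_, _, _, _, B.swap23⟩
  · subst h1 h2; exact ⟨_, _, _, _, B.swap12⟩
  · exact absurd (h1.trans h2.symm) hne
  · subst h1 h2; exact ⟨_, _, _, _, B.swap12.swap23⟩
  · subst h1 h2; exact ⟨_, _, _, _, B.swap23.swap12⟩
  · subst h1 h2; exact ⟨_, _, _, _, B.swap23.swap12.swap23⟩
  · exact absurd (h1.trans h2.symm) hne

/-- the partner of two arms -/
theorem Bad.partner {a b b' y y' : V} (h : Bad H a) (hd : ∀ v, dG H v ≤ 3) (hne : b ≠ b')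
    (hb : H.Adj a b) (hb' : H.Adj a b') (h1 : H.Adj b y) (h2 : H.Adj b' y) (h3 : H.Adj b y')
    (h4 : H.Adj b' y') (hy : y ≠ a) (hy' : y' ≠ a) : y = y' := by
  obtain ⟨b₃, x₁, x₂, x₃, B⟩ := h.norm hd hne hb hb'
  rcases B.common12 hd h1 h2 with h5 | h5
  · exact absurd h5 hy
  · rcases B.common12 hd h3 h4 with h6 | h6
    · exact absurd h6 hy'
    · exact h5.trans h6.symm

theorem cube_of_bad {a y : V} (ha : Bad H a) (hy : Bad H y) (hd : ∀ v, dG H v ≤ 3)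
    (h : Tw H a y) : Cube H := by
  obtain ⟨hay, b, b', hne, h1, h2, h3, h4⟩ := h
  obtain ⟨b₃, x₁, x₂, x₃, B⟩ := ha.norm hd hne h1 h2
  obtain ⟨c, z₁, z₂, z₃, C⟩ := hy.norm hd hne h3 h4
  have e3 : y = x₃ := by
    rcases B.common12 hd h3.symm h4.symm with h5 | h5
    · exact absurd h5.symm hay
    · exact h5
  -- the third neighbour of `y`
  have hc3 : c ≠ b₃ := fun e => B.n3 (e3 ▸ e ▸ C.a3.symm)
  have hca : ¬ H.Adj a c := by
    intro h5
    rcases B.na hd h5 with h6 | h6 | h6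
    · exact C.b13 h6.symm
    · exact C.b23 h6.symm
    · exact hc3 h6
  have e2 : H.Adj c x₂ := by
    rcases B.nb1 hd C.h12 with h5 | h5 | h5
    · exact absurd (h5 ▸ C.h32).symm hca
    · rw [← h5]; exact C.h32
    · exact absurd (h5.trans e3.symm).symm C.ax2
  have e1 : H.Adj c x₁ := by
    rcases B.swap12.nb1 hd C.h21 with h5 | h5 | h5
    · exact absurd (h5 ▸ C.h31).symm hca
    · rw [← h5]; exact C.h31
    · exact absurd (h5.trans e3.symm).symm C.ax1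
  subst e3
  refine ⟨![a, x₁, x₂, y], ![c, b, b', b₃], ?_, ?_, ?_⟩
  · intro i j h
    fin_cases i <;> fin_cases j <;> first
      | rfl
      | (exfalso; simp at h; first
          | exact B.ax1 h | exact B.ax1 h.symm | exact B.ax2 h | exact B.ax2 h.symm
          | exact B.ax3 h | exact B.ax3 h.symm | exact B.x12 h | exact B.x12 h.symm
          | exact B.x13 h | exact B.x13 h.symm | exact B.x23 h | exact B.x23 h.symm)
  · intro i j h
    fin_cases i <;> fin_cases j <;> first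
      | rfl
      | (exfalso; simp at h; first
          | exact C.b13 h | exact C.b13 h.symm | exact C.b23 h | exact C.b23 h.symm
          | exact hc3 h | exact hc3 h.symm | exact B.b12 h | exact B.b12 h.symm
          | exact B.b13 h | exact B.b13 h.symm | exact B.b23 h | exact B.b23 h.symm)
  · intro i j hij
    fin_cases i <;> fin_cases j <;> first
      | exact absurd rfl hij
      | exact B.a1 | exact B.a2 | exact B.a3 | exact e1.symm | exact e2.symm | exact C.a3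
      | exact B.h12.symm | exact B.h13.symm | exact B.h21.symm | exact B.h23.symm
      | exact B.h31.symm | exact B.h32.symm

/-- a bad vertex has three partners -/
theorem three_partners {a : V} (h : Bad H a) : ∃ T : Finset V, T.card = 3 ∧ ∀ y ∈ T, Tw H a y := by
  obtain ⟨b₁, b₂, b₃, x₁, x₂, x₃, k1, k2, k3, k4, k5, k6, k7, k8, k9, k10, k11, k12⟩ := h
  have B : BD H a b₁ b₂ b₃ x₁ x₂ x₃ := ⟨k1, k2, k3, k4, k5, k6, k7, k8, k9, k10, k11, k12⟩
  refine ⟨{x₁, x₂, x₃}, Finset.card_eq_three.2 ⟨x₁, x₂, x₃, B.x12, B.x13, B.x23, rfl⟩, ?_⟩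
  intro y hy
  simp only [Finset.mem_insert, Finset.mem_singleton] at hy
  rcases hy with rfl | rfl | rfl
  · exact ⟨B.ax1, b₂, b₃, B.b23, k2, k3, k6.symm, k8.symm⟩
  · exact ⟨B.ax2, b₁, b₃, B.b13, k1, k3, k4.symm, k9.symm⟩
  · exact ⟨B.ax3, b₁, b₂, B.b12, k1, k2, k5.symm, k7.symm⟩

/-- a vertex is a partner of at most three bad vertices -/
theorem partners_le (hd : ∀ v, dG H v ≤ 3) (S : Finset V) (hS : ∀ a ∈ S, Bad H a) (y : V)
    [DecidablePred fun a => Tw H a y] : (S.filter fun a => Tw H a y).card ≤ 3 := by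
  classical
  have hex : ∀ a ∈ S.filter fun a => Tw H a y, ∃ b b', b ≠ b' ∧ H.Adj a b ∧ H.Adj a b' ∧
      H.Adj y b ∧ H.Adj y b' := fun a ha => (Finset.mem_filter.1 ha).2.2
  choose! f g h1 h2 h3 h4 h5 using hex
  have h6 : ((nb H y).powersetCard 2).card ≤ 3 := by
    rw [Finset.card_powersetCard, card_nb]
    have := hd y
    interval_cases dG H y <;> decide
  refine (Finset.card_le_card_of_injOn (fun a => {f a, g a}) ?_ ?_).trans h6
  · intro a ha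
    rw [Finset.mem_coe, Finset.mem_powersetCard]
    refine ⟨?_, Finset.card_pair (h1 a ha)⟩
    intro x hx
    simp only [Finset.mem_insert, Finset.mem_singleton] at hx
    rcases hx with rfl | rfl
    · exact mem_nb.2 (h4 a ha)
    · exact mem_nb.2 (h5 a ha)
  · intro a ha a' ha' he
    have hb : Bad H a := hS a (Finset.mem_filter.1 ha).1
    have hay : y ≠ a := (Finset.mem_filter.1 ha).2.1.symm
    have hay' : a' ≠ y := (Finset.mem_filter.1 ha').2.1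
    have he' : ({f a, g a} : Finset V) = {f a', g a'} := he
    have k1 : H.Adj a' (f a) := by
      have : f a ∈ ({f a', g a'} : Finset V) := he' ▸ by simp
      simp only [Finset.mem_insert, Finset.mem_singleton] at this
      rcases this with h | h <;> rw [h]
      · exact h2 a' ha'
      · exact h3 a' ha'
    have k2 : H.Adj a' (g a) := by
      have : g a ∈ ({f a', g a'} : Finset V) := he' ▸ by simp
      simp only [Finset.mem_insert, Finset.mem_singleton] at this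
      rcases this with h | h <;> rw [h]
      · exact h2 a' ha'
      · exact h3 a' ha'
    by_contra hne
    exact hay' (hb.partner hd (h1 a ha) (h2 a ha) (h3 a ha) (h4 a ha).symm (h5 a ha).symm
      k1.symm k2.symm hay (fun h => hne h.symm)).symm

theorem good_many (hs : ∀ u v, H.Adj u v → s u ≠ s v) (hd : ∀ v, dG H v ≤ 3) (hQ : ¬ Cube H)
    (b0 : V) : ∃ S : Finset V, (∀ a ∈ S, (s a = false ∧ ¬ H.Adj b0 a) ∧ AcycG H a) ∧
      wG H s b0 ≤ 2 * S.card + 3 := by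
  classical
  set A1 : Finset V := univ.filter fun a => s a = false with hA1
  set B := A1.filter (Bad H) with hB
  set G := A1.filter fun a => ¬ Bad H a with hG
  have hBG : B.card ≤ G.card := by
    have h1 := Finset.card_mul_le_card_mul (s := B) (t := G) (m := 3) (n := 3) (Tw H) ?_ ?_
    · omega
    · intro a ha
      obtain ⟨ha1, hbad⟩ := Finset.mem_filter.1 ha
      obtain ⟨T, hT3, hT⟩ := three_partners hbad
      rw [← hT3]
      refine Finset.card_le_card fun y hy => ?_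
      have htw := hT y hy
      rw [Finset.mem_bipartiteAbove]
      refine ⟨?_, htw⟩
      rw [hG, Finset.mem_filter, hA1, Finset.mem_filter]
      refine ⟨⟨Finset.mem_univ _, ?_⟩, fun hy' => hQ (cube_of_bad hbad hy' hd htw)⟩
      obtain ⟨-, b, b', -, h2, -, h3, -⟩ := htw
      exact other_false hs h3.symm (other_true hs h2 (Finset.mem_filter.1 ha1).2)
    · intro y _
      exact partners_le hd B (fun a ha => (Finset.mem_filter.1 ha).2) y
  refine ⟨G.filter fun a => ¬ H.Adj b0 a, ?_, ?_⟩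
  · intro a ha
    obtain ⟨h1, h2⟩ := Finset.mem_filter.1 ha
    obtain ⟨h3, h4⟩ := Finset.mem_filter.1 h1
    exact ⟨⟨(Finset.mem_filter.1 h3).2, h2⟩, (acyc_or_bad (hd a)).resolve_right h4⟩
  · have h1 : wG H s b0 = (A1.filter fun a => ¬ H.Adj b0 a).card := by
      unfold wG
      rw [Nat.card_eq_fintype_card, Fintype.card_subtype, hA1, Finset.filter_filter]
    have h2 : (A1.filter fun a => ¬ H.Adj b0 a).card ≤
        B.card + (G.filter fun a => ¬ H.Adj b0 a).card := by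
      refine (Finset.card_le_card fun a ha => ?_).trans (Finset.card_union_le _ _)
      obtain ⟨h3, h4⟩ := Finset.mem_filter.1 ha
      rw [Finset.mem_union]
      by_cases h5 : Bad H a
      · exact Or.inl (Finset.mem_filter.2 ⟨h3, h5⟩)
      · exact Or.inr (Finset.mem_filter.2 ⟨Finset.mem_filter.2 ⟨h3, h5⟩, h4⟩)
    have h3 := Finset.card_filter_add_card_filter_not (s := G) (fun a => H.Adj b0 a)
    have h4 : (G.filter fun a => H.Adj b0 a).card ≤ 3 := by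
      refine (Finset.card_le_card fun a ha => ?_).trans ((card_nb b0).le.trans (hd b0))
      exact mem_nb.2 (Finset.mem_filter.1 ha).2
    omega

/-- **maximum degree three** for the side `false` -/
theorem cubic_false (hcore : CoreStmt2) (hg : GNonneg) (hs : ∀ u v, H.Adj u v → s u ≠ s v)
    {b0 : V} (hb0 : ¬ s b0 = false) (hne : ∃ v, H.Adj b0 v) (hd : ∀ v, dG H v ≤ 3)
    (hQ : ¬ Cube H) :
    NearSid H s (972 * (Nat.card H.edgeSet + wG H s b0) - (wG H s b0 - 3)) 972 := by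
  obtain ⟨S, hS, hw⟩ := good_many hs hd hQ b0
  have h := acyc_false3 hcore hg hs hb0 hne (D := 3) (by norm_num)
    (fun v _ => le_trans (by
      unfold dH dG
      exact Nat.card_le_card_of_injective
        (fun u : {u : V // u ≠ b0 ∧ H.Adj v u} => (⟨u.1, u.2.2⟩ : {u : V // H.Adj v u}))
        fun u u' e => Subtype.ext (Subtype.mk.inj e)) (hd v)) hS
  refine ⟨hs, ?_⟩
  intro U _ m W m0 m1 hW hW1
  have h1 := h.2 U m W m0 m1 hW hW1
  have hp0 : 0 ≤ kernelMean m W := kp_nonneg m0 hW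
  have hp1 : kernelMean m W ≤ 1 := kp_le_one m0 m1 hW1
  have h2 := pow_le_pow_left₀ (pow_nonneg hp0 _) h1 2
  rw [← pow_mul, ← pow_mul] at h2
  calc kernelMean m W ^ (972 * (Nat.card H.edgeSet + wG H s b0) - (wG H s b0 - 3))
      ≤ kernelMean m W ^ ((2 * 3 ^ 5 * (Nat.card H.edgeSet + wG H s b0) - S.card) * 2) :=
        pow_le_pow_of_le_one hp0 hp1 (by omega)
    _ ≤ kernelDensity H s m W ^ (2 * 3 ^ 5 * 2) := h2
    _ = _ := by norm_num

/-- **maximum degree three** -/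
theorem cubic_fin (hcore : CoreStmt2) (hg : GNonneg) (hs : ∀ u v, H.Adj u v → s u ≠ s v)
    {σ : Bool} {b₀ : V} (hb₀ : s b₀ ≠ σ) (hne : ∃ v, H.Adj b₀ v)
    (hd : ∀ v, Nat.card {u : V // H.Adj v u} ≤ 3)
    (hQ : ¬ ∃ a c : Fin 4 → V, Function.Injective a ∧ Function.Injective c ∧
      ∀ i j, i ≠ j → H.Adj (a i) (c j)) {e w : ℕ} (he : Nat.card H.edgeSet = e)
    (hw : Nat.card {a : V // s a = σ ∧ ¬ H.Adj b₀ a} = w) :
    NearSid H s (972 * (e + w) - (w - 3)) 972 := by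
  subst he hw
  cases σ
  · exact cubic_false hcore hg hs hb₀ hne hd hQ
  · have h1 := cubic_false (s := fun v => !s v) (b0 := b₀) hcore hg (flip_hs hs)
      (by cases h : s b₀ <;> simp_all) hne hd hQ
    have h2 := Vale.Agent.P050.H148.NearSid.flip h1
    rwa [not_not_fun, wG_flip] at h2

end Vale.Agent.P050.R2.H545
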