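import Vale.Agent.P050.R2.H545.Girth

/-!
Both sides, explicit statements.
-/

set_option linter.unusedSectionVars false

namespace Vale.Agent.P050.R2.H545

open Finset Vale.Agent.P050 Vale.Agent.P050.Lev Vale.Agent.P050.H148 Vale.Agent.P050.R2.H901

section flip

variable {V : Type} [Fintype V] [DecidableEq V] {H : SimpleGraph V} {s : V → Bool}

theorem not_not_fun (s : V → Bool) : (fun v => !(fun v => !s v) v) = s := by
  funext v
  simp

theorem flip_hs (hs : ∀ u v, H.Adj u v → s u ≠ s v) :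
    ∀ u v, H.Adj u v → (fun v => !s v) u ≠ (fun v => !s v) v := by
  intro u v h h2
  exact hs u v h (by simpa using h2)

theorem nG_flip (b0 : V) (D : ℕ) : nG H (fun v => !s v) b0 D =
    Nat.card {b : V // s b ≠ true ∧ b ≠ b0 ∧ D ≤ Nat.card {v : V // H.Adj b v}} := by
  unfold nG dG
  refine Nat.card_congr (Equiv.subtypeEquivRight fun b => and_congr (by simp) Iff.rfl)

theorem fG_flip (b0 : V) (F : Finset V) (D : ℕ) : fG H (fun v => !s v) b0 F D =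
    Nat.card {b : V // s b ≠ true ∧ b ≠ b0 ∧ D ≤ Nat.card {v : V // H.Adj b v} ∧
      ∀ a ∈ F, ∀ b' v, H.Adj a b' → ¬ (H.Adj b v ∧ H.Adj b' v)} := by
  unfold fG dG
  refine Nat.card_congr (Equiv.subtypeEquivRight fun b => and_congr (by simp) Iff.rfl)

theorem wG_flip (b0 : V) : wG H (fun v => !s v) b0 =
    Nat.card {a : V // s a = true ∧ ¬ H.Adj b0 a} := by
  unfold wG
  refine Nat.card_congr (Equiv.subtypeEquivRight fun b => and_congr (by simp) Iff.rfl)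

end flip

section main

variable {V : Type} [Fintype V] [DecidableEq V] {H : SimpleGraph V} {s : V → Bool}

/-- **(1)** -/
theorem near_fin (hcore : CoreStmt) (hg : GNonneg) (hs : ∀ u v, H.Adj u v → s u ≠ s v)
    {σ : Bool} {b₀ : V} (hb₀ : s b₀ ≠ σ) (hne : ∃ v, H.Adj b₀ v) (F : Finset V) {D : ℕ}
    (hD : 1 ≤ D) (hF : ∀ a ∈ F, s a = σ ∧ ¬ H.Adj b₀ a)
    (hdeg : ∀ a ∈ F, ∀ b, H.Adj a b → Nat.card {v : V // H.Adj b v} ≤ D)
    (harms : ∀ a ∈ F, ∀ b b' v, H.Adj a b → H.Adj a b' → b ≠ b' → H.Adj b v → H.Adj b' v →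
      v = a)
    (hapart : ∀ a ∈ F, ∀ a' ∈ F, a ≠ a' → ∀ b b' v, H.Adj a b → H.Adj a' b' →
      ¬ (H.Adj b v ∧ H.Adj b' v)) {e w n K : ℕ} (he : Nat.card H.edgeSet = e)
    (hw : Nat.card {a : V // s a = σ ∧ ¬ H.Adj b₀ a} = w)
    (hn : Nat.card {b : V // s b ≠ σ ∧ b ≠ b₀ ∧ D ≤ Nat.card {v : V // H.Adj b v}} = n)
    (hK : ∑ a ∈ F, Nat.card {b : V // H.Adj a b} * (1 +
      Nat.card {b : V // b ≠ b₀ ∧ ¬ H.Adj a b ∧ ∃ v b', H.Adj a b' ∧ H.Adj b' v ∧ H.Adj b v} +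
      D * (Nat.card {b : V // H.Adj a b} - 1)) = K) :
    NearSid H s ((n + K) * (e + w) - n * F.card) (n + K) := by
  subst he hw hn hK
  cases σ
  · exact near_false hcore hg hs hb₀ hne hD ⟨hF, hdeg, harms, hapart⟩
  · have h1 := near_false (s := fun v => !s v) (b0 := b₀) hcore hg (flip_hs hs)
      (by cases h : s b₀ <;> simp_all) hne hD
      ⟨fun a ha => ⟨by simp [(hF a ha).1], (hF a ha).2⟩, hdeg, harms, hapart⟩
    have h2 := NearSid.flip h1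
    rw [not_not_fun, nG_flip, wG_flip] at h2
    exact h2

/-- **(2)** -/
theorem sid_fin (hcore : CoreStmt) (hg : GNonneg) (hs : ∀ u v, H.Adj u v → s u ≠ s v)
    {σ : Bool} {b₀ : V} (hb₀ : s b₀ ≠ σ) (hne : ∃ v, H.Adj b₀ v) (F : Finset V) {D : ℕ}
    (hD : 1 ≤ D) (hF : ∀ a, a ∈ F ↔ s a = σ ∧ ¬ H.Adj b₀ a)
    (hdeg : ∀ a ∈ F, ∀ b, H.Adj a b → Nat.card {v : V // H.Adj b v} ≤ D)
    (harms : ∀ a ∈ F, ∀ b b' v, H.Adj a b → H.Adj a b' → b ≠ b' → H.Adj b v → H.Adj b' v →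
      v = a)
    (hapart : ∀ a ∈ F, ∀ a' ∈ F, a ≠ a' → ∀ b b' v, H.Adj a b → H.Adj a' b' →
      ¬ (H.Adj b v ∧ H.Adj b' v))
    (hK : ∑ a ∈ F, Nat.card {b : V // H.Adj a b} * (1 +
      Nat.card {b : V // b ≠ b₀ ∧ ¬ H.Adj a b ∧ ∃ v b', H.Adj a b' ∧ H.Adj b' v ∧ H.Adj b v} +
      D * (Nat.card {b : V // H.Adj a b} - 1)) ≤
      Nat.card {b : V // s b ≠ σ ∧ b ≠ b₀ ∧ D ≤ Nat.card {v : V // H.Adj b v} ∧
      ∀ a ∈ F, ∀ b' v, H.Adj a b' → ¬ (H.Adj b v ∧ H.Adj b' v)}) :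
    GSid H s := by
  classical
  have hcard : ∀ σ, (∀ a, a ∈ F ↔ s a = σ ∧ ¬ H.Adj b₀ a) →
      Nat.card {a : V // s a = σ ∧ ¬ H.Adj b₀ a} ≤ F.card := by
    intro σ hF
    rw [Nat.card_eq_fintype_card, Fintype.card_subtype]
    exact Finset.card_le_card fun a ha => (hF a).2 (Finset.mem_filter.1 ha).2
  cases σ
  · exact sid_false hcore hg hs hb₀ hne hD ⟨fun a ha => (hF a).1 ha, hdeg, harms, hapart⟩
      (hcard false hF) hK
  · have h1 := sid_false (s := fun v => !s v) (b0 := b₀) hcore hg (flip_hs hs)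
      (by cases h : s b₀ <;> simp_all) hne hD
      ⟨fun a ha => ⟨by simp [((hF a).1 ha).1], ((hF a).1 ha).2⟩, hdeg, harms, hapart⟩
      (by rw [wG_flip]; exact hcard true hF) (by rw [fG_flip]; exact hK)
    have h2 := Tmpl.GSid.flip h1
    rwa [not_not_fun] at h2

/-- **(3)** -/
theorem girth_fin (hcore : CoreStmt) (hg : GNonneg) (hs : ∀ u v, H.Adj u v → s u ≠ s v)
    {σ : Bool} {b₀ : V} (hb₀ : s b₀ ≠ σ) (hne : ∃ v, H.Adj b₀ v) {D : ℕ} (hD : 2 ≤ D)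
    (hd : ∀ v, Nat.card {u : V // H.Adj v u} ≤ D)
    (h4 : ∀ a a' b b', a ≠ a' → b ≠ b' → H.Adj a b → H.Adj a b' → H.Adj a' b → ¬ H.Adj a' b')
    {e w : ℕ} (he : Nat.card H.edgeSet = e)
    (hw : Nat.card {a : V // s a = σ ∧ ¬ H.Adj b₀ a} = w) :
    NearSid H s (D ^ 10 * (e + w) - w) (D ^ 10) := by
  subst he hw
  cases σ
  · exact girth_false hcore hg hs hb₀ hne hD hd h4
  · have h1 := girth_false (s := fun v => !s v) (b0 := b₀) hcore hg (flip_hs hs)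
      (by cases h : s b₀ <;> simp_all) hne hD hd h4
    have h2 := NearSid.flip h1
    rw [not_not_fun, wG_flip] at h2
    exact h2

end main

end Vale.Agent.P050.R2.H545
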