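import Vale.Agent.P050.R2.H545.Girth2
import Vale.Agent.P050.R2.H545.Fin

/-!
Both sides, explicit statements, acyclic arms.
-/

set_option linter.unusedSectionVars false

namespace Vale.Agent.P050.R2.H545

open Finset Vale.Agent.P050 Vale.Agent.P050.Lev Vale.Agent.P050.H148 Vale.Agent.P050.R2.H901

variable {V : Type} [Fintype V] [DecidableEq V] {H : SimpleGraph V} {s : V → Bool}

theorem gG_sum (b0 : V) (F R : Finset V) (D : ℕ)
    (hR : ∀ b, b ∈ R ↔ ¬ s b = false ∧ b ≠ b0 ∧ ∀ a ∈ F, ¬ H.Adj a b) :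
    gG H s b0 F D = ∑ b ∈ R, (Nat.card {v : V // H.Adj b v ∧ ∀ a ∈ F, ∀ b', H.Adj a b' →
      ¬ H.Adj b' v} + 1 - D) := by
  classical
  unfold gG
  refine Finset.sum_congr ?_ fun _ _ => rfl
  ext b
  rw [hR, Finset.mem_filter]
  simp

theorem gG_empty_sum (b0 : V) (R : Finset V) (D : ℕ)
    (hR : ∀ b, b ∈ R ↔ ¬ s b = false ∧ b ≠ b0) :
    gG H s b0 ∅ D = ∑ b ∈ R, (Nat.card {v : V // H.Adj b v} + 1 - D) := by
  rw [gG_sum b0 ∅ R D fun b => by rw [hR]; simp]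
  refine Finset.sum_congr rfl fun b _ => ?_
  congr 2
  exact Nat.card_congr (Equiv.subtypeEquivRight fun v => by simp)

section main

/-- **(1)** -/
theorem near_fin2 (hcore : CoreStmt2) (hg : GNonneg) (hs : ∀ u v, H.Adj u v → s u ≠ s v)
    {σ : Bool} {b₀ : V} (hb₀ : s b₀ ≠ σ) (hne : ∃ v, H.Adj b₀ v) (F : Finset V) {D : ℕ}
    (hD : 1 ≤ D) (hF : ∀ a ∈ F, s a = σ ∧ ¬ H.Adj b₀ a)
    (hdeg : ∀ a ∈ F, ∀ b, H.Adj a b → Nat.card {v : V // H.Adj b v} ≤ D)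
    (harms : ∀ a ∈ F, AcycG H a)
    (hapart : ∀ a ∈ F, ∀ a' ∈ F, a ≠ a' → ∀ b b' v, H.Adj a b → H.Adj a' b' →
      ¬ (H.Adj b v ∧ H.Adj b' v)) {e w n K g : ℕ} (he : Nat.card H.edgeSet = e)
    (hw : Nat.card {a : V // s a = σ ∧ ¬ H.Adj b₀ a} = w) (R R' : Finset V)
    (hR : ∀ b, b ∈ R ↔ s b ≠ σ ∧ b ≠ b₀)
    (hn : ∑ b ∈ R, (Nat.card {v : V // H.Adj b v} + 1 - D) = n)
    (hR' : ∀ b, b ∈ R' ↔ s b ≠ σ ∧ b ≠ b₀ ∧ ∀ a ∈ F, ¬ H.Adj a b)
    (hgF : ∑ b ∈ R', (Nat.card {v : V // H.Adj b v ∧ ∀ a ∈ F, ∀ b', H.Adj a b' →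
      ¬ H.Adj b' v} + 1 - D) = g)
    (hK : ∑ a ∈ F, Nat.card {b : V // H.Adj a b} * (1 +
      Nat.card {b : V // b ≠ b₀ ∧ ¬ H.Adj a b ∧ ∃ v b', H.Adj a b' ∧ H.Adj b' v ∧ H.Adj b v} +
      D * (Nat.card {b : V // H.Adj a b} - 1)) = K) :
    NearSid H s ((n + (K - g)) * (e + w) - n * F.card) (n + (K - g)) ∧
    (K ≤ g → NearSid H s (e + w - F.card) 1 ∧ (w ≤ F.card → GSid H s)) := by
  subst he hw
  cases σ
  · have h0 : gG H s b₀ ∅ D = n := (gG_empty_sum b₀ R D hR).trans hn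
    have h1 : gG H s b₀ F D = g := (gG_sum b₀ F R' D hR').trans hgF
    have h2 : KG H b₀ F D = K := hK
    have hB : GBlocks2 H s b₀ F D := ⟨hF, hdeg, harms, hapart⟩
    rw [← h0, ← h1, ← h2]
    refine ⟨near_false2 hcore hg hs hb₀ hne hD hB (by omega), fun hle => ⟨?_, fun hw => ?_⟩⟩
    · exact free_false2 hcore hg hs hb₀ hne hD hB hle
    · exact sid_false2 hcore hg hs hb₀ hne hD hB hw hle
  · have hb : ¬ (fun v => !s v) b₀ = false := by cases h : s b₀ <;> simp_all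
    have h0 : gG H (fun v => !s v) b₀ ∅ D = n :=
      (gG_empty_sum b₀ R D fun b => by rw [hR]; simp).trans hn
    have h1 : gG H (fun v => !s v) b₀ F D = g :=
      (gG_sum b₀ F R' D fun b => by rw [hR']; simp).trans hgF
    have h2 : KG H b₀ F D = K := hK
    have hB : GBlocks2 H (fun v => !s v) b₀ F D :=
      ⟨fun a ha => ⟨by simp [(hF a ha).1], (hF a ha).2⟩, hdeg, harms, hapart⟩
    rw [← h0, ← h1, ← h2]
    refine ⟨?_, fun hle => ⟨?_, fun hw => ?_⟩⟩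
    · have h3 := NearSid.flip (near_false2 hcore hg (flip_hs hs) hb hne hD hB
        (k := KG H b₀ F D - gG H (fun v => !s v) b₀ F D) (by omega))
      rwa [not_not_fun, wG_flip] at h3
    · have h3 := NearSid.flip (free_false2 hcore hg (flip_hs hs) hb hne hD hB hle)
      rwa [not_not_fun, wG_flip] at h3
    · have h3 := Tmpl.GSid.flip (sid_false2 hcore hg (flip_hs hs) hb hne hD hB
        (by rw [wG_flip]; exact hw) hle)
      rwa [not_not_fun] at h3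

/-- **(3)** -/
theorem acyc_fin2 (hcore : CoreStmt2) (hg : GNonneg) (hs : ∀ u v, H.Adj u v → s u ≠ s v)
    {σ : Bool} {b₀ : V} (hb₀ : s b₀ ≠ σ) (hne : ∃ v, H.Adj b₀ v) {D : ℕ} (hD : 2 ≤ D)
    (hd : ∀ v, Nat.card {u : V // H.Adj v u} ≤ D) (S : Finset V)
    (hS : ∀ a ∈ S, (s a = σ ∧ ¬ H.Adj b₀ a) ∧ AcycG H a)
    {e w : ℕ} (he : Nat.card H.edgeSet = e)
    (hw : Nat.card {a : V // s a = σ ∧ ¬ H.Adj b₀ a} = w) :
    NearSid H s (2 * D ^ 5 * (e + w) - S.card) (2 * D ^ 5) := by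
  subst he hw
  cases σ
  · exact acyc_false hcore hg hs hb₀ hne hD hd hS
  · have h1 := acyc_false (s := fun v => !s v) (b0 := b₀) hcore hg (flip_hs hs)
      (by cases h : s b₀ <;> simp_all) hne hD hd (S := S)
      fun a ha => ⟨⟨by simp [(hS a ha).1.1], (hS a ha).1.2⟩, (hS a ha).2⟩
    have h2 := NearSid.flip h1
    rwa [not_not_fun, wG_flip] at h2

/-- **(3)**, no 4-cycles -/
theorem girth_fin2 (hcore : CoreStmt2) (hg : GNonneg) (hs : ∀ u v, H.Adj u v → s u ≠ s v)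
    {σ : Bool} {b₀ : V} (hb₀ : s b₀ ≠ σ) (hne : ∃ v, H.Adj b₀ v) {D : ℕ} (hD : 2 ≤ D)
    (hd : ∀ v, Nat.card {u : V // H.Adj v u} ≤ D)
    (h4 : ∀ a a' b b', a ≠ a' → b ≠ b' → H.Adj a b → H.Adj a b' → H.Adj a' b → ¬ H.Adj a' b')
    {e w : ℕ} (he : Nat.card H.edgeSet = e)
    (hw : Nat.card {a : V // s a = σ ∧ ¬ H.Adj b₀ a} = w) :
    NearSid H s (2 * D ^ 5 * (e + w) - w) (2 * D ^ 5) := by
  classical
  have h1 := acyc_fin2 hcore hg hs hb₀ hne hD hd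
    (univ.filter fun a => s a = σ ∧ ¬ H.Adj b₀ a) (fun a ha =>
      ⟨(Finset.mem_filter.1 ha).2, acycG_of_c4 fun a' b b' => h4 a a' b b'⟩) he hw
  have h2 : (univ.filter fun a => s a = σ ∧ ¬ H.Adj b₀ a).card = w := by
    rw [← hw, Nat.card_eq_fintype_card, Fintype.card_subtype]
  rwa [h2] at h1

end main

end Vale.Agent.P050.R2.H545
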