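import Vale.Agent.P050.R2.H545.Robust3
import Vale.Agent.P050.R2.H545.Fin2

/-!
Both sides, explicit statements: robust form; bounded degrees outside `b₀`.
-/

set_option linter.unusedSectionVars false

namespace Vale.Agent.P050.R2.H545

open Finset Vale.Agent.P050 Vale.Agent.P050.Lev Vale.Agent.P050.H148 Vale.Agent.P050.R2.H901

variable {V : Type} [Fintype V] [DecidableEq V] {H : SimpleGraph V} {s : V → Bool}

/-- **robust form** -/
theorem robust_fin3 (hcore : CoreStmt2) (hg : GNonneg) (hs : ∀ u v, H.Adj u v → s u ≠ s v)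
    {σ : Bool} {b₀ : V} (hb₀ : s b₀ ≠ σ) (hne : ∃ v, H.Adj b₀ v) (F : Finset V) {D : ℕ}
    (hD : 2 ≤ D) (hF : ∀ a ∈ F, s a = σ ∧ ¬ H.Adj b₀ a)
    (hdF : ∀ a ∈ F, Nat.card {u : V // H.Adj a u} ≤ D)
    (hdeg : ∀ a ∈ F, ∀ b, H.Adj a b → Nat.card {v : V // H.Adj b v} ≤ D)
    (hdV : ∀ a ∈ F, ∀ b v, H.Adj a b → H.Adj b v → Nat.card {u : V // u ≠ b₀ ∧ H.Adj v u} ≤ D)
    (harms : ∀ a ∈ F, AcycG H a)
    (hapart : ∀ a ∈ F, ∀ a' ∈ F, a ≠ a' → ∀ b b' v, H.Adj a b → H.Adj a' b' →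
      ¬ (H.Adj b v ∧ H.Adj b' v)) {e w : ℕ} (he : Nat.card H.edgeSet = e)
    (hw : Nat.card {a : V // s a = σ ∧ ¬ H.Adj b₀ a} = w) (R : Finset V)
    (hR : ∀ b, b ∈ R ↔ s b ≠ σ ∧ b ≠ b₀)
    (hm : D ^ 4 * F.card ≤ ∑ b ∈ R, (Nat.card {v : V // H.Adj b v} + 1 - D)) :
    NearSid H s (e + w - F.card) 1 ∧ (w ≤ F.card → GSid H s) := by
  subst he hw
  cases σ
  · have hB : GBlocks2 H s b₀ F D := ⟨hF, hdeg, harms, hapart⟩
    have hle : KG H b₀ F D ≤ gG H s b₀ F D := robust_le hs hb₀ hD hF hdeg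
      (fun a ha => by rw [← dG_eq_dH (hF a ha).2]; exact hdF a ha) hdV
      (by rw [gG_empty_sum b₀ R D hR]; exact hm)
    exact ⟨free_false2 hcore hg hs hb₀ hne (by omega) hB hle,
      fun hw => sid_false2 hcore hg hs hb₀ hne (by omega) hB hw hle⟩
  · have hb : ¬ (fun v => !s v) b₀ = false := by cases h : s b₀ <;> simp_all
    have hF' : ∀ a ∈ F, (fun v => !s v) a = false ∧ ¬ H.Adj b₀ a :=
      fun a ha => ⟨by simp [(hF a ha).1], (hF a ha).2⟩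
    have hB : GBlocks2 H (fun v => !s v) b₀ F D := ⟨hF', hdeg, harms, hapart⟩
    have hle : KG H b₀ F D ≤ gG H (fun v => !s v) b₀ F D := robust_le (flip_hs hs) hb hD hF' hdeg
      (fun a ha => by rw [← dG_eq_dH (hF a ha).2]; exact hdF a ha) hdV
      (by rw [gG_empty_sum b₀ R D fun b => by rw [hR]; simp]; exact hm)
    refine ⟨?_, fun hw => ?_⟩
    · have h3 := NearSid.flip (free_false2 hcore hg (flip_hs hs) hb hne (by omega) hB hle)
      rwa [not_not_fun, wG_flip] at h3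
    · have h3 := Tmpl.GSid.flip (sid_false2 hcore hg (flip_hs hs) hb hne (by omega) hB
        (by rw [wG_flip]; exact hw) hle)
      rwa [not_not_fun] at h3

/-- **bounded degrees outside `b₀`** -/
theorem acyc_fin3 (hcore : CoreStmt2) (hg : GNonneg) (hs : ∀ u v, H.Adj u v → s u ≠ s v)
    {σ : Bool} {b₀ : V} (hb₀ : s b₀ ≠ σ) (hne : ∃ v, H.Adj b₀ v) {D : ℕ} (hD : 2 ≤ D)
    (hd : ∀ v, v ≠ b₀ → Nat.card {u : V // u ≠ b₀ ∧ H.Adj v u} ≤ D) (S : Finset V)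
    (hS : ∀ a ∈ S, (s a = σ ∧ ¬ H.Adj b₀ a) ∧ AcycG H a)
    {e w : ℕ} (he : Nat.card H.edgeSet = e)
    (hw : Nat.card {a : V // s a = σ ∧ ¬ H.Adj b₀ a} = w) :
    NearSid H s (2 * D ^ 5 * (e + w) - S.card) (2 * D ^ 5) := by
  subst he hw
  cases σ
  · exact acyc_false3 hcore hg hs hb₀ hne hD hd hS
  · have h1 := acyc_false3 (s := fun v => !s v) (b0 := b₀) hcore hg (flip_hs hs)
      (by cases h : s b₀ <;> simp_all) hne hD hd (S := S)
      fun a ha => ⟨⟨by simp [(hS a ha).1.1], (hS a ha).1.2⟩, (hS a ha).2⟩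
    have h2 := NearSid.flip h1
    rwa [not_not_fun, wG_flip] at h2

end Vale.Agent.P050.R2.H545
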