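import Vale.Agent.P050.R2.H545.Cubic
import Vale.Agent.P050.R2.H901.Asm5

/-!
The second law in the language of graphs.
-/

set_option linter.unusedSectionVars false

namespace Vale.Agent.P050.R2.H545

open Finset Vale.Agent.P050 Vale.Agent.P050.Lev Vale.Agent.P050.H148 Vale.Agent.P050.R2.H901

variable {V : Type} [Fintype V] [DecidableEq V] {H : SimpleGraph V} {s : V → Bool} {b0 : V}

/-- conditions on the classes of `F` -/
structure GB5 (H : SimpleGraph V) (s : V → Bool) (b0 : V) (F : Finset V) (cl : V → ℕ) (M : ℕ) :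
    Prop where
  off : ∀ a ∈ F, s a = false ∧ ¬ H.Adj b0 a
  cls : ∀ b, ∀ a ∈ F, ∀ a' ∈ F, H.Adj b a → H.Adj b a' → cl a = cl a'
  size : ∀ a ∈ F, Nat.card {v : V // (v ∈ F ∧ cl v = cl a) ∨
    ∃ b, ∃ a' ∈ F, cl a' = cl a ∧ H.Adj b a' ∧ H.Adj b v} ≤ M

theorem est5 (hs : ∀ u v, H.Adj u v → s u ≠ s v)
    (hb0 : ¬ s b0 = false) (hne : ∃ v, H.Adj b0 v) {F : Finset V} {cl : V → ℕ} {M : ℕ}
    (hM : 1 ≤ M) (hB : GB5 H s b0 F cl M) {U : Type} [Fintype U] {m : Bool → U → ℝ}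
    {W : U → U → ℝ}
    (m0 : ∀ b x, 0 ≤ m b x) (m1 : ∀ b, ∑ x, m b x = 1) (hW : ∀ x y, 0 ≤ W x y)
    (hp : 0 < kernelMean m W)
    (hW1 : ∀ v, s v = false → v ∉ F → ¬ H.Adj b0 v → ∀ x y, W x y ≤ 1) :
    0 < kernelDensity H s m W ∧
    ((Nat.card H.edgeSet : ℝ) + wG H s b0 - F.card) * Real.log (kernelMean m W) +
      ((gG H s b0 ∅ M : ℝ) - F.card) * gg (m false) (m true) W (M - 1) ≤
      Real.log (kernelDensity H s m W) := by
  classical
  set b1 : BT s := ⟨b0, hb0⟩ with hb1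
  set F' : Finset (AT s) := F.subtype (fun v => s v = false) with hF'
  have hmem : ∀ a : AT s, a ∈ F' ↔ a.1 ∈ F := fun a => by rw [hF', Finset.mem_subtype]
  have hcard : F'.card = F.card := by
    rw [hF', Finset.card_subtype, Finset.filter_true_of_mem fun a ha => (hB.off a ha).1]
  have hsize : ∀ a ∈ F', (Sur (NN H s) F' (fun a => cl a.1) (cl a.1)).card ≤ M := by
    intro a ha
    refine le_trans (le_of_eq ?_) (hB.size a.1 ((hmem a).1 ha))
    have e : Sur (NN H s) F' (fun a => cl a.1) (cl a.1) = univ.filter fun v : AT s =>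
        (v.1 ∈ F ∧ cl v.1 = cl a.1) ∨
          ∃ b, ∃ a' ∈ F, cl a' = cl a.1 ∧ H.Adj b a' ∧ H.Adj b v.1 := by
      ext v
      simp only [Sur, Finset.mem_union, Finset.mem_biUnion, Finset.mem_filter, Finset.mem_univ,
        true_and, mem_NN, hmem]
      rw [or_comm]
      refine or_congr Iff.rfl ?_
      constructor
      · rintro ⟨b, ⟨a', ⟨h1, h2⟩, h3⟩, h4⟩
        exact ⟨b.1, a'.1, h1, h2, h3, h4⟩
      · rintro ⟨b, a', h1, h2, h3, h4⟩
        exact ⟨⟨b, other_true hs h3.symm (hB.off a' h1).1⟩, ⟨⟨a', (hB.off a' h1).1⟩,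
          ⟨h1, h2⟩, h3⟩, h4⟩
    rw [e]
    refine card_sub _ (fun v => (v ∈ F ∧ cl v = cl a.1) ∨
      ∃ b, ∃ a' ∈ F, cl a' = cl a.1 ∧ H.Adj b a' ∧ H.Adj b v) _ (fun _ => Iff.rfl) ?_
    rintro v (⟨h1, -⟩ | ⟨b, a', h1, -, h3, h4⟩)
    · exact (hB.off v h1).1
    · exact other_false hs h4 (other_true hs h3.symm (hB.off a' h1).1)
  have key := core5 (AT s) (BT s) U U (m false) (m true) W (NN H s) b1 F' (fun a => cl a.1) M
    (m0 false) (m1 false) (m0 true) (m1 true) hW (by rw [pp_eq]; exact hp) hM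
    (by
      obtain ⟨v, hv⟩ := hne
      exact ⟨⟨v, other_false hs hv hb0⟩, mem_NN.2 hv⟩)
    (fun a ha h => (hB.off a.1 ((hmem a).1 ha)).2 (mem_NN.1 h))
    (fun b a ha a' ha' h1 h2 => hB.cls b.1 a.1 ((hmem a).1 ha) a'.1 ((hmem a').1 ha')
      (mem_NN.1 h1) (mem_NN.1 h2))
    hsize (fun v h1 h2 => hW1 v.1 v.2
      (fun h => h1 ((hmem v).2 h)) (fun h => h2 (mem_NN.2 h)))
  rw [tt_eq, pp_eq] at key
  have e1 : (∑ b, ((NN H s b).card : ℝ)) = (Nat.card H.edgeSet : ℝ) := by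
    rw [← sum_card_NN hs]
    push_cast
    rfl
  have e2 : (Fintype.card (AT s) : ℝ) = wG H s b0 + (NN H s b1).card := by
    rw [← wG_eq (H := H) b1]
    push_cast
    rfl
  rw [e1, e2, gam_empty hs, hcard] at key
  refine ⟨key.1, le_trans (le_of_eq ?_) key.2⟩
  ring

theorem empty5 (M : ℕ) (cl : V → ℕ) : GB5 H s b0 ∅ cl M := ⟨by simp, by simp, by simp⟩

theorem card_le_wG5 {F : Finset V} {cl : V → ℕ} {M : ℕ} (hB : GB5 H s b0 F cl M) :
    F.card ≤ wG H s b0 := by
  classical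
  unfold wG
  rw [Nat.card_eq_fintype_card, Fintype.card_subtype]
  exact Finset.card_le_card fun a ha => by simp [(hB.off a ha).1, (hB.off a ha).2]

/-- the two estimates together -/
theorem five_false (hg : GNonneg) (hs : ∀ u v, H.Adj u v → s u ≠ s v)
    (hb0 : ¬ s b0 = false) (hne : ∃ v, H.Adj b0 v) {F : Finset V} {cl : V → ℕ} {M : ℕ}
    (hM : 1 ≤ M) (hB : GB5 H s b0 F cl M) :
    NearSid H s (Nat.card H.edgeSet + wG H s b0 - min F.card (gG H s b0 ∅ M)) 1 := by
  refine ⟨hs, ?_⟩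
  intro U _ m W m0 m1 hW hW1
  have hp0 : 0 ≤ kernelMean m W := kp_nonneg m0 hW
  have ht0 : 0 ≤ kernelDensity H s m W := kd_nonneg m0 hW
  have hw := card_le_wG5 hB
  have he := edge_pos hne
  have hmin : min F.card (gG H s b0 ∅ M) ≤ F.card := min_le_left _ _
  rcases hp0.eq_or_lt with hp | hp
  · rw [← hp, zero_pow (by omega)]
    exact pow_nonneg ht0 _
  · obtain ⟨hpos, h1⟩ := est5 hs hb0 hne hM hB m0 m1 hW hp fun _ _ _ _ => hW1
    obtain ⟨_, h2⟩ := est5 hs hb0 hne hM (empty5 (H := H) (s := s) (b0 := b0) M cl) m0 m1 hW hp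
      fun _ _ _ _ => hW1
    have h3 := hg U U (m false) (m true) W (M - 1) (m0 false) (m1 false) (m0 true) (m1 true) hW
      (by rw [pp_eq]; exact hp)
    simp only [Finset.card_empty, Nat.cast_zero, sub_zero] at h2
    have h8 : ((Nat.card H.edgeSet + wG H s b0 - min F.card (gG H s b0 ∅ M) : ℕ) : ℝ) *
        Real.log (kernelMean m W) ≤ ((1 : ℕ) : ℝ) * Real.log (kernelDensity H s m W) := by
      rw [Nat.cast_sub (by omega)]
      push_cast
      rw [one_mul]
      set n : ℝ := (gG H s b0 ∅ M : ℝ) with hn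
      set f : ℝ := (F.card : ℝ) with hf
      have hn0 : 0 ≤ n := Nat.cast_nonneg _
      have hf0 : 0 ≤ f := Nat.cast_nonneg _
      rcases le_total f n with h | h
      · rw [min_eq_left h]
        have := mul_nonneg (sub_nonneg.2 h) h3
        linarith
      · rw [min_eq_right h]
        rcases hf0.eq_or_lt with h0 | h0
        · have : n = 0 := le_antisymm (h.trans h0.ge) hn0
          rw [this] at h2 ⊢
          simpa using h2
        · have h4 := mul_le_mul_of_nonneg_left h1 hn0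
          have h5 := mul_le_mul_of_nonneg_left h2 (sub_nonneg.2 h)
          have h6 : f * (((Nat.card H.edgeSet : ℝ) + wG H s b0 - n) *
              Real.log (kernelMean m W)) ≤ f * Real.log (kernelDensity H s m W) := by nlinarith
          exact le_of_mul_le_mul_left h6 h0
    rw [← Real.log_pow, ← Real.log_pow] at h8
    exact (Real.log_le_log_iff (pow_pos hp _) (pow_pos hpos _)).1 h8

theorem five_sid_false (hg : GNonneg) (hs : ∀ u v, H.Adj u v → s u ≠ s v)
    (hb0 : ¬ s b0 = false) (hne : ∃ v, H.Adj b0 v) {F : Finset V} {cl : V → ℕ} {M : ℕ}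
    (hM : 1 ≤ M) (hB : GB5 H s b0 F cl M) (hw : wG H s b0 ≤ F.card)
    (hK : F.card ≤ gG H s b0 ∅ M) : GSid H s := by
  classical
  have hE : ∀ e ∈ sideEdges H s, s e.1 = false ∧ s e.2 = true := by
    intro e he
    unfold sideEdges at he
    exact (Finset.mem_filter.1 he).2.2
  refine ⟨hs, hE, ?_⟩
  intro U _ m W m0 m1 hW
  change kernelMean m W ^ (sideEdges H s).card ≤ kernelDensity H s m W
  rw [card_sideEdges H s hs]
  have hp0 : 0 ≤ kernelMean m W := kp_nonneg m0 hW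
  have ht0 : 0 ≤ kernelDensity H s m W := kd_nonneg m0 hW
  have he := edge_pos hne
  have hw' := card_le_wG5 hB
  rcases hp0.eq_or_lt with hp | hp
  · rw [← hp, zero_pow (by omega)]
    exact ht0
  · have hall : ∀ v, s v = false → ¬ H.Adj b0 v → v ∈ F := by
      intro v h1 h2
      have h3 : (univ.filter fun a => s a = false ∧ ¬ H.Adj b0 a) = F := by
        symm
        refine Finset.eq_of_subset_of_card_le (fun a ha => by
          simp [(hB.off a ha).1, (hB.off a ha).2]) ?_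
        have h4 : wG H s b0 = (univ.filter fun a => s a = false ∧ ¬ H.Adj b0 a).card := by
          unfold wG
          rw [Nat.card_eq_fintype_card, Fintype.card_subtype]
        rw [← h4]
        exact hw
      rw [← h3]
      simp [h1, h2]
    obtain ⟨hpos, h1⟩ := est5 hs hb0 hne hM hB m0 m1 hW hp
      fun v h1 h2 h3 => absurd (hall v h1 h3) h2
    have h3 := hg U U (m false) (m true) W (M - 1) (m0 false) (m1 false) (m0 true) (m1 true) hW
      (by rw [pp_eq]; exact hp)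
    have h4 : (wG H s b0 : ℝ) = F.card := by exact_mod_cast le_antisymm hw hw'
    have h5 : (0 : ℝ) ≤ (gG H s b0 ∅ M : ℝ) - F.card := by
      have : (F.card : ℝ) ≤ gG H s b0 ∅ M := by exact_mod_cast hK
      linarith
    have h6 := mul_nonneg h5 h3
    have h7 : (Nat.card H.edgeSet : ℝ) * Real.log (kernelMean m W) ≤
        Real.log (kernelDensity H s m W) := by
      rw [h4] at h1
      have h8 : (Nat.card H.edgeSet : ℝ) + F.card - F.card = Nat.card H.edgeSet := by ring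
      rw [h8] at h1
      linarith
    rw [← Real.log_pow] at h7
    exact (Real.log_le_log_iff (pow_pos hp _) hpos).1 h7

/-- **second law** -/
theorem five_fin (hg : GNonneg) (hs : ∀ u v, H.Adj u v → s u ≠ s v)
    {σ : Bool} {b₀ : V} (hb₀ : s b₀ ≠ σ) (hne : ∃ v, H.Adj b₀ v) (F : Finset V) (cl : V → ℕ)
    {M : ℕ} (hM : 1 ≤ M) (hF : ∀ a ∈ F, s a = σ ∧ ¬ H.Adj b₀ a)
    (hcls : ∀ b, ∀ a ∈ F, ∀ a' ∈ F, H.Adj b a → H.Adj b a' → cl a = cl a')
    (hsize : ∀ a ∈ F, Nat.card {v : V // (v ∈ F ∧ cl v = cl a) ∨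
      ∃ b, ∃ a' ∈ F, cl a' = cl a ∧ H.Adj b a' ∧ H.Adj b v} ≤ M) {e w : ℕ}
    (he : Nat.card H.edgeSet = e)
    (hw : Nat.card {a : V // s a = σ ∧ ¬ H.Adj b₀ a} = w) (R : Finset V)
    (hR : ∀ b, b ∈ R ↔ s b ≠ σ ∧ b ≠ b₀) :
    NearSid H s (e + w - min F.card (∑ b ∈ R, (Nat.card {v : V // H.Adj b v} + 1 - M))) 1 ∧
    (w ≤ F.card → F.card ≤ ∑ b ∈ R, (Nat.card {v : V // H.Adj b v} + 1 - M) → GSid H s) := by
  subst he hw
  cases σ
  · have hB : GB5 H s b₀ F cl M := ⟨hF, hcls, hsize⟩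
    rw [← gG_empty_sum b₀ R M hR]
    exact ⟨five_false hg hs hb₀ hne hM hB, fun hw hle => five_sid_false hg hs hb₀ hne hM hB hw hle⟩
  · have hb : ¬ (fun v => !s v) b₀ = false := by cases h : s b₀ <;> simp_all
    have hB : GB5 H (fun v => !s v) b₀ F cl M :=
      ⟨fun a ha => ⟨by simp [(hF a ha).1], (hF a ha).2⟩, hcls, hsize⟩
    rw [← gG_empty_sum (s := fun v => !s v) b₀ R M fun b => by rw [hR]; simp]
    refine ⟨?_, fun hw hle => ?_⟩
    · have h3 := NearSid.flip (five_false hg (flip_hs hs) hb hne hM hB)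
      rwa [not_not_fun, wG_flip] at h3
    · have h3 := Tmpl.GSid.flip (five_sid_false hg (flip_hs hs) hb hne hM hB
        (by rw [wG_flip]; exact hw) hle)
      rwa [not_not_fun] at h3

end Vale.Agent.P050.R2.H545
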