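import Vale.Agent.P050.R2.H545.Core

/-!
Bipartite graphs without 4-cycles and with bounded degrees.
-/

set_option linter.unusedSectionVars false

namespace Vale.Agent.P050.R2.H545

open Finset Vale.Agent.P050.Lev Vale.Agent.P050.H148 Vale.Agent.P050.R2.H901

variable {V : Type} [Fintype V] [DecidableEq V] {H : SimpleGraph V} {s : V → Bool}

open Classical in
/-- neighbours -/
noncomputable def nb (H : SimpleGraph V) (a : V) : Finset V := univ.filter fun b => H.Adj a b

theorem mem_nb {a b : V} : b ∈ nb H a ↔ H.Adj a b := by simp [nb]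

theorem card_nb (a : V) : (nb H a).card = dG H a := by
  classical
  unfold nb dG
  rw [Nat.card_eq_fintype_card, Fintype.card_subtype]

/-- close vertices -/
def Conf (H : SimpleGraph V) (a a' : V) : Prop :=
  ∃ b b' v, H.Adj a b ∧ H.Adj a' b' ∧ H.Adj b v ∧ H.Adj b' v

theorem Conf.symm {a a' : V} (h : Conf H a a') : Conf H a' a := by
  obtain ⟨b, b', v, h1, h2, h3, h4⟩ := h
  exact ⟨b', b, v, h2, h1, h4, h3⟩

/-- a maximal set of pairwise far vertices -/
theorem exists_far {V : Type} [DecidableEq V] (R : V → V → Prop) (hR : ∀ a b, R a b → R b a)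
    (S : Finset V) : ∃ F ⊆ S, (∀ a ∈ F, ∀ a' ∈ F, a ≠ a' → ¬ R a a') ∧
      ∀ a ∈ S, a ∈ F ∨ ∃ f ∈ F, R f a := by
  classical
  induction S using Finset.induction_on with
  | empty => exact ⟨∅, by simp, by simp, by simp⟩
  | insert a S _ ih =>
    obtain ⟨F, h1, h2, h3⟩ := ih
    by_cases h : ∃ f ∈ F, R f a
    · refine ⟨F, h1.trans (Finset.subset_insert _ _), h2, ?_⟩
      intro x hx
      rcases Finset.mem_insert.1 hx with rfl | hx
      · exact Or.inr h
      · exact h3 x hx
    · refine ⟨insert a F, Finset.insert_subset_insert _ h1, ?_, ?_⟩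
      · intro x hx y hy hxy hr
        rcases Finset.mem_insert.1 hx with hx1 | hx1
        · rcases Finset.mem_insert.1 hy with hy1 | hy1
          · exact hxy (hx1.trans hy1.symm)
          · exact h ⟨y, hy1, hR _ _ (hx1 ▸ hr)⟩
        · rcases Finset.mem_insert.1 hy with hy1 | hy1
          · exact h ⟨x, hx1, hy1 ▸ hr⟩
          · exact h2 x hx1 y hy1 hxy hr
      · intro x hx
        rcases Finset.mem_insert.1 hx with rfl | hx
        · exact Or.inl (Finset.mem_insert_self _ _)
        · rcases h3 x hx with h4 | ⟨f, h4, h5⟩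
          · exact Or.inl (Finset.mem_insert_of_mem h4)
          · exact Or.inr ⟨f, Finset.mem_insert_of_mem h4, h5⟩

/-- the ball around `a` -/
noncomputable def ball (H : SimpleGraph V) (a : V) : Finset V :=
  (((nb H a).biUnion (nb H)).biUnion (nb H)).biUnion (nb H)

theorem mem_ball {a a' : V} : a' ∈ ball H a ↔ Conf H a a' := by
  unfold ball Conf
  simp only [Finset.mem_biUnion, mem_nb]
  constructor
  · rintro ⟨b', ⟨v, ⟨b, h1, h2⟩, h3⟩, h4⟩
    exact ⟨b, b', v, h1, h4.symm, h2, h3.symm⟩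
  · rintro ⟨b, b', v, h1, h2, h3, h4⟩
    exact ⟨b', ⟨v, ⟨b, h1, h3⟩, h4.symm⟩, h2.symm⟩

theorem card_ball {D : ℕ} (hd : ∀ v, dG H v ≤ D) (a : V) : (ball H a).card ≤ D ^ 4 := by
  unfold ball
  have h : ∀ S : Finset V, (S.biUnion (nb H)).card ≤ S.card * D := fun S =>
    Finset.card_biUnion_le_card_mul _ _ _ fun v _ => by
      rw [card_nb]
      exact hd v
  have h0 : (nb H a).card ≤ D := by
    rw [card_nb]
    exact hd a
  calc _ ≤ (((nb H a).biUnion (nb H)).biUnion (nb H)).card * D := h _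
    _ ≤ (((nb H a).biUnion (nb H)).card * D) * D := Nat.mul_le_mul_right _ (h _)
    _ ≤ (((nb H a).card * D) * D) * D :=
        Nat.mul_le_mul_right _ (Nat.mul_le_mul_right _ (h _))
    _ ≤ ((D * D) * D) * D :=
        Nat.mul_le_mul_right _ (Nat.mul_le_mul_right _ (Nat.mul_le_mul_right _ h0))
    _ = D ^ 4 := by ring

/-- the cover by balls -/
theorem card_cover {D : ℕ} (hD : 1 ≤ D) (hd : ∀ v, dG H v ≤ D) {S F : Finset V}
    (h : ∀ a ∈ S, a ∈ F ∨ ∃ f ∈ F, Conf H f a) : S.card ≤ F.card * D ^ 4 := by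
  classical
  have h1 : S ⊆ F.biUnion fun f => if (nb H f).Nonempty then ball H f else {f} := by
    intro a ha
    rw [Finset.mem_biUnion]
    rcases h a ha with h2 | ⟨f, h2, h3⟩
    · refine ⟨a, h2, ?_⟩
      split_ifs with h4
      · obtain ⟨b, hb⟩ := h4
        rw [mem_nb] at hb
        exact mem_ball.2 ⟨b, b, a, hb, hb, hb.symm, hb.symm⟩
      · simp
    · refine ⟨f, h2, ?_⟩
      have h4 : (nb H f).Nonempty := by
        obtain ⟨b, _, _, h5, _⟩ := h3
        exact ⟨b, mem_nb.2 h5⟩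
      rw [if_pos h4]
      exact mem_ball.2 h3
  refine (Finset.card_le_card h1).trans (Finset.card_biUnion_le_card_mul _ _ _ fun f _ => ?_)
  split_ifs
  · exact card_ball hd f
  · simpa using Nat.one_le_pow _ _ hD

/-- the number of vertices touching a block -/
theorem qG_le {D : ℕ} (hd : ∀ v, dG H v ≤ D) (b0 a : V) :
    qG H b0 a ≤ dG H a * ((D - 1) * (D - 1)) := by
  classical
  unfold qG
  rw [Nat.card_eq_fintype_card, Fintype.card_subtype]
  have h1 : (univ.filter fun b => b ≠ b0 ∧ ¬ H.Adj a b ∧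
      ∃ v b', H.Adj a b' ∧ H.Adj b' v ∧ H.Adj b v) ⊆
      (nb H a).biUnion fun b' => ((nb H b').erase a).biUnion fun v => (nb H v).erase b' := by
    intro b hb
    rw [Finset.mem_filter] at hb
    obtain ⟨-, -, h2, v, b', h3, h4, h5⟩ := hb
    rw [Finset.mem_biUnion]
    refine ⟨b', mem_nb.2 h3, ?_⟩
    rw [Finset.mem_biUnion]
    refine ⟨v, Finset.mem_erase.2 ⟨?_, mem_nb.2 h4⟩, Finset.mem_erase.2 ⟨?_, mem_nb.2 h5.symm⟩⟩
    · rintro rfl
      exact h2 h5.symm
    · rintro rfl
      exact h2 h3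
  refine (Finset.card_le_card h1).trans ?_
  rw [← card_nb]
  refine Finset.card_biUnion_le_card_mul _ _ _ fun b' hb' => ?_
  have h2 : ((nb H b').erase a).card ≤ D - 1 := by
    rw [Finset.card_erase_of_mem (mem_nb.2 (mem_nb.1 hb').symm), card_nb]
    exact Nat.sub_le_sub_right (hd b') 1
  refine (Finset.card_biUnion_le_card_mul _ _ (D - 1) fun v hv => ?_).trans
    (Nat.mul_le_mul_right _ h2)
  rw [Finset.card_erase_of_mem (mem_nb.2 (mem_nb.1 (Finset.mem_erase.1 hv).2).symm), card_nb]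
  exact Nat.sub_le_sub_right (hd v) 1

theorem cost_le {D D' : ℕ} (hD : 2 ≤ D) (hD' : D' ≤ D) (hd : ∀ v, dG H v ≤ D) (b0 a : V) :
    dG H a * (1 + qG H b0 a + D' * (dG H a - 1)) ≤ D ^ 4 - 1 := by
  have h1 := qG_le hd b0 a
  have h2 := hd a
  obtain ⟨E, rfl⟩ : ∃ E, D = E + 1 := ⟨D - 1, by omega⟩
  simp only [Nat.add_sub_cancel] at h1
  have h3 : qG H b0 a ≤ (E + 1) * (E * E) := h1.trans (Nat.mul_le_mul_right _ h2)
  have h4 : D' * (dG H a - 1) ≤ (E + 1) * E := Nat.mul_le_mul hD' (by omega)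
  calc dG H a * (1 + qG H b0 a + D' * (dG H a - 1)) ≤
      (E + 1) * (1 + (E + 1) * (E * E) + (E + 1) * E) := Nat.mul_le_mul h2 (by omega)
    _ ≤ (E + 1) ^ 4 - 1 := by
        apply Nat.le_sub_of_add_le
        have hE : 1 ≤ E := by omega
        nlinarith [Nat.mul_le_mul hE hE, Nat.mul_le_mul (Nat.mul_le_mul hE hE) hE]

/-- the largest degree of a neighbour -/
noncomputable def cl (H : SimpleGraph V) (a : V) : ℕ := (nb H a).sup fun b => dG H b

theorem cl_le {D : ℕ} (hd : ∀ v, dG H v ≤ D) (a : V) : cl H a ≤ D :=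
  Finset.sup_le fun b _ => hd b

/-- a popular class -/
theorem exists_class {α : Type} (F : Finset α) (f : α → ℕ) {D : ℕ} (hf : ∀ a ∈ F, f a ≤ D) :
    ∃ y ≤ D, F.card ≤ (F.filter fun a => f a = y).card * (D + 1) := by
  classical
  by_contra hcon
  push Not at hcon
  have h1 := Finset.card_eq_sum_card_fiberwise (s := F) (t := Finset.range (D + 1)) (f := f)
    (fun a ha => by
      simp only [Finset.coe_range, Set.mem_Iio]
      exact Nat.lt_succ_of_le (hf a ha))
  have h2 : ∑ y ∈ Finset.range (D + 1), (F.filter fun a => f a = y).card * (D + 1) <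
      ∑ y ∈ Finset.range (D + 1), F.card :=
    Finset.sum_lt_sum_of_nonempty (by simp) fun y hy =>
      hcon y (Nat.lt_succ_iff.1 (Finset.mem_range.1 hy))
  rw [← Finset.sum_mul, ← h1, Finset.sum_const, Finset.card_range, smul_eq_mul, mul_comm] at h2
  exact lt_irrefl _ h2

/-- **(3)** for the side `false`. -/
theorem girth_false (hcore : CoreStmt) (hg : GNonneg) (hs : ∀ u v, H.Adj u v → s u ≠ s v) {b0 : V}
    (hb0 : ¬ s b0 = false) (hne : ∃ v, H.Adj b0 v) {D : ℕ} (hD : 2 ≤ D) (hd : ∀ v, dG H v ≤ D)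
    (h4 : ∀ a a' b b', a ≠ a' → b ≠ b' → H.Adj a b → H.Adj a b' → H.Adj a' b → ¬ H.Adj a' b') :
    NearSid H s (D ^ 10 * (Nat.card H.edgeSet + wG H s b0) - wG H s b0) (D ^ 10) := by
  classical
  refine ⟨hs, ?_⟩
  intro U _ m W m0 m1 hW hW1
  have hp0 : 0 ≤ kernelMean m W := kp_nonneg m0 hW
  have ht0 : 0 ≤ kernelDensity H s m W := kd_nonneg m0 hW
  have he := edge_pos hne
  have hD10 : 1 ≤ D ^ 10 := Nat.one_le_pow _ _ (by omega)
  have hle : wG H s b0 ≤ D ^ 10 * (Nat.card H.edgeSet + wG H s b0) :=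
    calc wG H s b0 ≤ 1 * (Nat.card H.edgeSet + wG H s b0) := by omega
      _ ≤ _ := Nat.mul_le_mul_right _ hD10
  rcases hp0.eq_or_lt with hp | hp
  · have h1 : wG H s b0 < D ^ 10 * (Nat.card H.edgeSet + wG H s b0) :=
      calc wG H s b0 < 1 * (Nat.card H.edgeSet + wG H s b0) := by omega
        _ ≤ _ := Nat.mul_le_mul_right _ hD10
    rw [← hp, zero_pow (by omega)]
    exact pow_nonneg ht0 _
  -- the logarithms
  have hp1 : kernelMean m W ≤ 1 := kp_le_one m0 m1 hW1
  have hL : Real.log (kernelMean m W) ≤ 0 := Real.log_nonpos hp0 hp1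
  obtain ⟨hpos, hbase, -⟩ := mix hcore hg hs hb0 hne (le_refl 1) (empty_blocks b0 1) m0 m1 hW hp hW1
  suffices hfin : (((D ^ 10 * (Nat.card H.edgeSet + wG H s b0) - wG H s b0 : ℕ)) : ℝ) *
      Real.log (kernelMean m W) ≤ ((D ^ 10 : ℕ) : ℝ) * Real.log (kernelDensity H s m W) by
    rw [← Real.log_pow, ← Real.log_pow] at hfin
    exact (Real.log_le_log_iff (pow_pos hp _) (pow_pos hpos _)).1 hfin
  rw [Nat.cast_sub hle]
  push_cast
  set L := Real.log (kernelMean m W) with hLdef
  set T := Real.log (kernelDensity H s m W) with hTdef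
  set e : ℝ := (Nat.card H.edgeSet : ℝ) with hedef
  -- a far set
  set A1 : Finset V := univ.filter fun a => s a = false ∧ ¬ H.Adj b0 a with hA1
  have hwA : wG H s b0 = A1.card := by
    unfold wG
    rw [Nat.card_eq_fintype_card, Fintype.card_subtype]
  obtain ⟨F, hF1, hF2, hF3⟩ := exists_far (Conf H) (fun _ _ h => h.symm) A1
  have hw1 : wG H s b0 ≤ F.card * D ^ 4 := by
    rw [hwA]
    exact card_cover (by omega) hd hF3
  obtain ⟨D', hD', hcl⟩ := exists_class F (cl H) (D := D) fun a _ => cl_le hd a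
  set F' := F.filter fun a => cl H a = D' with hF'
  have hF'F : F' ⊆ F := Finset.filter_subset _ _
  have hoff : ∀ a ∈ F', s a = false ∧ ¬ H.Adj b0 a := by
    intro a ha
    have := hF1 (hF'F ha)
    rw [hA1, Finset.mem_filter] at this
    exact this.2
  have hdeg : ∀ a ∈ F', ∀ b, H.Adj a b → dG H b ≤ D' := by
    intro a ha b hb
    have h1 : dG H b ≤ cl H a := Finset.le_sup (f := fun b => dG H b) (mem_nb.2 hb)
    rw [hF', Finset.mem_filter] at ha
    exact h1.trans (le_of_eq ha.2)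
  have harms : ∀ a ∈ F', ∀ b b' v, H.Adj a b → H.Adj a b' → b ≠ b' → H.Adj b v → H.Adj b' v →
      v = a := by
    intro a _ b b' v h1 h2 h3 h5 h6
    by_contra hva
    exact h4 v a b b' hva h3 h5.symm h6.symm h1 h2
  have hapart : ∀ a ∈ F', ∀ a' ∈ F', a ≠ a' → ∀ b b' v, H.Adj a b → H.Adj a' b' →
      ¬ (H.Adj b v ∧ H.Adj b' v) := by
    rintro a ha a' ha' hne' b b' v h1 h2 ⟨h3, h5⟩
    exact hF2 a (hF'F ha) a' (hF'F ha') hne' ⟨b, b', v, h1, h2, h3, h5⟩
  have hw2 : wG H s b0 ≤ F'.card * D ^ 6 := by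
    calc wG H s b0 ≤ F.card * D ^ 4 := hw1
      _ ≤ (F'.card * (D + 1)) * D ^ 4 := Nat.mul_le_mul_right _ hcl
      _ ≤ (F'.card * D ^ 2) * D ^ 4 := by
          refine Nat.mul_le_mul_right _ (Nat.mul_le_mul_left _ ?_)
          nlinarith
      _ = F'.card * D ^ 6 := by ring
  rcases Nat.eq_zero_or_pos D' with hD0 | hDpos
  · -- isolated vertices
    have hiso : ∀ a ∈ F', ∀ b, ¬ H.Adj a b := by
      intro a ha b hb
      have h1 := hdeg a ha b hb
      have h2 : 0 < dG H b := by
        rw [← card_nb]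
        exact Finset.card_pos.2 ⟨a, mem_nb.2 hb.symm⟩
      omega
    have hB : GBlocks H s b0 F' 1 := by
      refine ⟨hoff, ?_, ?_, ?_⟩
      · intro a ha b hb
        exact absurd hb (hiso a ha b)
      · intro a ha b b' v hb
        exact absurd hb (hiso a ha b)
      · intro a ha a' ha' _ b b' v hb
        exact absurd hb (hiso a ha b)
    obtain ⟨-, h1⟩ := est hcore hs hb0 hne (le_refl 1) hB m0 m1 hW hp fun _ _ _ _ => hW1
    have hK : KG H b0 F' 1 = 0 := by
      unfold KG
      refine Finset.sum_eq_zero fun a ha => ?_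
      have h2 : dG H a = 0 := by
        rw [← card_nb, Finset.card_eq_zero]
        exact Finset.eq_empty_of_forall_notMem fun b hb => hiso a ha b (mem_nb.1 hb)
      rw [h2, zero_mul]
    have h3 := hg U U (m false) (m true) W (1 - 1) (m0 false) (m1 false) (m0 true) (m1 true) hW
      (by rw [pp_eq]; exact hp)
    rw [hK] at h1
    have h5 : (0 : ℝ) ≤ fG H s b0 F' 1 := Nat.cast_nonneg _
    have h6 := mul_nonneg h5 h3
    have h7 : (e + wG H s b0 - F'.card) * L ≤ T := by
      push_cast at h1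
      nlinarith
    have h8 : (wG H s b0 : ℝ) ≤ F'.card * (D : ℝ) ^ 10 := by
      have h9 : wG H s b0 ≤ F'.card * D ^ 10 := hw2.trans
        (Nat.mul_le_mul_left _ (Nat.pow_le_pow_right (by omega) (by norm_num)))
      exact_mod_cast h9
    have h10 : (0 : ℝ) ≤ (D : ℝ) ^ 10 := by positivity
    have h11 := mul_le_mul_of_nonneg_left h7 h10
    have h12 := mul_le_mul_of_nonpos_right h8 hL
    nlinarith
  · -- blocks
    have hB : GBlocks H s b0 F' D' := ⟨hoff, hdeg, harms, hapart⟩
    obtain ⟨-, -, h1⟩ := mix hcore hg hs hb0 hne hDpos hB m0 m1 hW hp hW1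
    have hK : KG H b0 F' D' ≤ F'.card * (D ^ 4 - 1) := by
      unfold KG
      refine (Finset.sum_le_card_nsmul _ _ (D ^ 4 - 1) fun a _ => ?_).trans (le_of_eq ?_)
      · exact cost_le hD hD' hd b0 a
      · rw [smul_eq_mul]
    have hn : F'.card ≤ nG H s b0 D' := by
      have hex : ∀ a ∈ F', ∃ b, H.Adj a b ∧ dG H b = D' := by
        intro a ha
        rw [hF', Finset.mem_filter] at ha
        have h2 : (nb H a).Nonempty := by
          by_contra h3
          rw [Finset.not_nonempty_iff_eq_empty] at h3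
          have h5 : cl H a = 0 := by
            unfold cl
            rw [h3]
            rfl
          omega
        obtain ⟨b, hb, hb2⟩ := Finset.exists_mem_eq_sup (nb H a) h2 fun b => dG H b
        exact ⟨b, mem_nb.1 hb, hb2.symm.trans ha.2⟩
      choose! bb hbb1 hbb2 using hex
      have h2 : nG H s b0 D' = (univ.filter fun b => ¬ s b = false ∧ b ≠ b0 ∧ D' ≤ dG H b).card := by
        unfold nG
        rw [Nat.card_eq_fintype_card, Fintype.card_subtype]
      rw [h2]
      refine Finset.card_le_card_of_injOn bb ?_ ?_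
      · intro a ha
        have ha' : a ∈ F' := ha
        simp only [Finset.coe_filter, Finset.mem_univ, true_and, Set.mem_ofPred_eq]
        refine ⟨other_true hs (hbb1 a ha') (hoff a ha').1, ?_, (hbb2 a ha').ge⟩
        rintro h3
        exact (hoff a ha').2 (h3 ▸ (hbb1 a ha').symm)
      · intro a ha a' ha' h3
        by_contra h5
        have ha1 : a ∈ F' := ha
        have ha1' : a' ∈ F' := ha'
        have h6 := hbb1 a ha1
        have h7 := hbb1 a' ha1'
        rw [← h3] at h7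
        exact hapart a ha1 a' ha1' h5 _ _ a h6 h7 ⟨h6.symm, h6.symm⟩
    rcases Nat.eq_zero_or_pos (nG H s b0 D' + KG H b0 F' D') with h0 | h0
    · have h2 : F'.card = 0 := by omega
      have h3 : wG H s b0 = 0 := by
        rw [h2, zero_mul] at hw2
        omega
      rw [h3] at hbase ⊢
      have h10 : (0 : ℝ) ≤ (D : ℝ) ^ 10 := by positivity
      have h11 := mul_le_mul_of_nonneg_left hbase h10
      push_cast
      push_cast at h11
      linarith
    · set n := nG H s b0 D' with hndef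
      set K := KG H b0 F' D' with hKdef
      have hcmp : wG H s b0 * (n + K) ≤ D ^ 10 * (n * F'.card) := by
        have h2 : n + K ≤ n * D ^ 4 := by
          have h3 : 1 ≤ D ^ 4 := Nat.one_le_pow _ _ (by omega)
          calc n + K ≤ n + n * (D ^ 4 - 1) :=
                Nat.add_le_add_left (hK.trans (Nat.mul_le_mul_right _ hn)) _
            _ = n * (1 + (D ^ 4 - 1)) := by ring
            _ = n * D ^ 4 := by rw [Nat.add_sub_cancel' h3]
        calc wG H s b0 * (n + K) ≤ (F'.card * D ^ 6) * (n * D ^ 4) := Nat.mul_le_mul hw2 h2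
          _ = D ^ 10 * (n * F'.card) := by ring
      have hcmp' : (wG H s b0 : ℝ) * ((n : ℝ) + K) ≤ (D : ℝ) ^ 10 * ((n : ℝ) * F'.card) := by
        exact_mod_cast hcmp
      have hpos' : (0 : ℝ) < (n : ℝ) + K := by exact_mod_cast h0
      have h10 : (0 : ℝ) ≤ (D : ℝ) ^ 10 := by positivity
      have h11 := mul_le_mul_of_nonneg_left h1 h10
      have h12 := mul_le_mul_of_nonpos_right hcmp' hL
      have h13 : ((n : ℝ) + K) * (((D : ℝ) ^ 10 * (e + wG H s b0) - wG H s b0) * L) ≤
          ((n : ℝ) + K) * ((D : ℝ) ^ 10 * T) := by nlinarith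
      exact le_of_mul_le_mul_left h13 hpos'

end Vale.Agent.P050.R2.H545
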