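import Vale.Agent.P050.R2.H545.Core2
import Vale.Agent.P050.R2.H545.Girth

/-!
Bipartite graphs with bounded degrees.
-/

set_option linter.unusedSectionVars false

namespace Vale.Agent.P050.R2.H545

open Finset Vale.Agent.P050.Lev Vale.Agent.P050.H148 Vale.Agent.P050.R2.H901

variable {V : Type} [Fintype V] [DecidableEq V] {H : SimpleGraph V} {s : V → Bool}

/-- the number of vertices at distance `0`, `2` or `4` -/
def be (E : ℕ) : ℕ := 1 + (E + 1) * E + (E + 1) * (E * (E * E))

theorem card_nb_le {E : ℕ} (hd : ∀ v, dG H v ≤ E + 1) (a : V) : (nb H a).card ≤ E + 1 := by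
  rw [card_nb]
  exact hd a

theorem card_nb_erase {E : ℕ} (hd : ∀ v, dG H v ≤ E + 1) {a b : V} (h : H.Adj a b) :
    ((nb H a).erase b).card ≤ E := by
  rw [Finset.card_erase_of_mem (mem_nb.2 h), card_nb]
  have := hd a
  omega

/-- the ball around `a` -/
noncomputable def ball2 (H : SimpleGraph V) (a : V) : Finset V :=
  insert a ((nb H a).biUnion fun b => (nb H b).erase a) ∪
    (nb H a).biUnion fun b => ((nb H b).erase a).biUnion fun v =>
      ((nb H v).erase b).biUnion fun b' => (nb H b').erase v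

theorem mem_ball2 {a a' : V} (h : Conf H a a') : a' ∈ ball2 H a := by
  obtain ⟨b, b', v, h1, h2, h3, h4⟩ := h
  unfold ball2
  rw [Finset.mem_union]
  by_cases ha : a' = a
  · exact Or.inl (by rw [ha]; exact Finset.mem_insert_self _ _)
  by_cases hva : v = a
  · subst hva
    refine Or.inl (Finset.mem_insert_of_mem ?_)
    rw [Finset.mem_biUnion]
    exact ⟨b', mem_nb.2 h4.symm, Finset.mem_erase.2 ⟨ha, mem_nb.2 h2.symm⟩⟩
  by_cases hb : b' = b
  · subst hb
    refine Or.inl (Finset.mem_insert_of_mem ?_)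
    rw [Finset.mem_biUnion]
    exact ⟨b', mem_nb.2 h1, Finset.mem_erase.2 ⟨ha, mem_nb.2 h2.symm⟩⟩
  by_cases hv : a' = v
  · subst hv
    refine Or.inl (Finset.mem_insert_of_mem ?_)
    rw [Finset.mem_biUnion]
    exact ⟨b, mem_nb.2 h1, Finset.mem_erase.2 ⟨ha, mem_nb.2 h3⟩⟩
  · refine Or.inr ?_
    rw [Finset.mem_biUnion]
    refine ⟨b, mem_nb.2 h1, ?_⟩
    rw [Finset.mem_biUnion]
    refine ⟨v, Finset.mem_erase.2 ⟨hva, mem_nb.2 h3⟩, ?_⟩
    rw [Finset.mem_biUnion]
    exact ⟨b', Finset.mem_erase.2 ⟨hb, mem_nb.2 h4.symm⟩, Finset.mem_erase.2 ⟨hv, mem_nb.2 h2.symm⟩⟩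

theorem card_ball2 {E : ℕ} (hd : ∀ v, dG H v ≤ E + 1) (a : V) : (ball2 H a).card ≤ be E := by
  unfold ball2 be
  refine (Finset.card_union_le _ _).trans (Nat.add_le_add ?_ ?_)
  · refine (Finset.card_insert_le _ _).trans ?_
    rw [add_comm]
    refine Nat.add_le_add_left ((Finset.card_biUnion_le_card_mul _ _ E fun b hb => ?_).trans
      (Nat.mul_le_mul_right _ (card_nb_le hd a))) _
    exact card_nb_erase hd (mem_nb.1 hb).symm
  · refine (Finset.card_biUnion_le_card_mul _ _ (E * (E * E)) fun b hb => ?_).trans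
      (Nat.mul_le_mul_right _ (card_nb_le hd a))
    refine (Finset.card_biUnion_le_card_mul _ _ (E * E) fun v hv => ?_).trans
      (Nat.mul_le_mul_right _ (card_nb_erase hd (mem_nb.1 hb).symm))
    refine (Finset.card_biUnion_le_card_mul _ _ E fun b' hb' => ?_).trans
      (Nat.mul_le_mul_right _ (card_nb_erase hd
        (mem_nb.1 (Finset.mem_erase.1 hv).2).symm))
    exact card_nb_erase hd (mem_nb.1 (Finset.mem_erase.1 hb').2).symm

theorem card_cover2 {E : ℕ} (hd : ∀ v, dG H v ≤ E + 1) {S F : Finset V}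
    (h : ∀ a ∈ S, a ∈ F ∨ ∃ f ∈ F, Conf H f a) : S.card ≤ F.card * be E := by
  classical
  have h1 : S ⊆ F.biUnion (ball2 H) := by
    intro a ha
    rw [Finset.mem_biUnion]
    rcases h a ha with h2 | ⟨f, h2, h3⟩
    · refine ⟨a, h2, ?_⟩
      unfold ball2
      exact Finset.mem_union_left _ (Finset.mem_insert_self _ _)
    · exact ⟨f, h2, mem_ball2 h3⟩
  exact (Finset.card_le_card h1).trans
    (Finset.card_biUnion_le_card_mul _ _ _ fun f _ => card_ball2 hd f)

/-- the cost of one block -/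
def co (E : ℕ) : ℕ := (E + 1) * (1 + (E + 1) * (E * E) + (E + 1) * E)

theorem cost_le2 {E D' : ℕ} (hD' : D' ≤ E + 1) (hd : ∀ v, dG H v ≤ E + 1) (b0 a : V) :
    dG H a * (1 + qG H b0 a + D' * (dG H a - 1)) ≤ co E := by
  have h1 := qG_le hd b0 a
  have h2 := hd a
  simp only [Nat.add_sub_cancel] at h1
  have h3 : qG H b0 a ≤ (E + 1) * (E * E) := h1.trans (Nat.mul_le_mul_right _ h2)
  have h4 : D' * (dG H a - 1) ≤ (E + 1) * E := Nat.mul_le_mul hD' (by omega)
  exact Nat.mul_le_mul h2 (by omega)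

theorem be_co {E : ℕ} (hE : 1 ≤ E) : be E + (E + 1) * co E ≤ (E + 1) ^ 5 := by
  unfold be co
  obtain ⟨e, rfl⟩ : ∃ e, E = e + 1 := ⟨E - 1, by omega⟩
  ring_nf
  nlinarith [Nat.zero_le (e ^ 4), Nat.zero_le (e ^ 3), Nat.zero_le (e ^ 2), Nat.zero_le e]

/-- a median -/
theorem exists_median {α : Type} (S : Finset α) (f : α → ℕ) {D : ℕ} (hf : ∀ a ∈ S, f a ≤ D) :
    ∃ y ≤ D, S.card ≤ 2 * (S.filter fun a => f a ≤ y).card ∧
      S.card ≤ 2 * (S.filter fun a => y ≤ f a).card := by
  classical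
  have hex : ∃ y, S.card ≤ 2 * (S.filter fun a => f a ≤ y).card := by
    refine ⟨D, ?_⟩
    rw [Finset.filter_true_of_mem hf]
    omega
  refine ⟨Nat.find hex, ?_, Nat.find_spec hex, ?_⟩
  · refine Nat.find_min' hex ?_
    rw [Finset.filter_true_of_mem hf]
    omega
  · rcases Nat.eq_zero_or_pos (Nat.find hex) with h0 | h0
    · rw [h0, Finset.filter_true_of_mem fun a _ => Nat.zero_le _]
      omega
    · have h1 := Nat.find_min hex (Nat.sub_lt h0 Nat.one_pos)
      have h2 := Finset.card_filter_add_card_filter_not (s := S)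
        (fun a => f a ≤ Nat.find hex - 1)
      have h3 : (S.filter fun a => ¬ f a ≤ Nat.find hex - 1) =
          S.filter fun a => Nat.find hex ≤ f a := by
        refine Finset.filter_congr fun a _ => ?_
        omega
      rw [h3] at h2
      omega

/-- the gains of the empty set of blocks -/
theorem le_gG {b0 : V} {D : ℕ} (T : Finset V)
    (hT : ∀ b ∈ T, ¬ s b = false ∧ b ≠ b0 ∧ D ≤ dG H b) : T.card ≤ gG H s b0 ∅ D := by
  classical
  unfold gG
  calc T.card = ∑ b ∈ T, 1 := by simp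
    _ ≤ ∑ b ∈ T, (Nat.card {v : V // H.Adj b v ∧
          ∀ a ∈ (∅ : Finset V), ∀ b', H.Adj a b' → ¬ H.Adj b' v} + 1 - D) := by
        refine Finset.sum_le_sum fun b hb => ?_
        have h1 : Nat.card {v : V // H.Adj b v ∧
            ∀ a ∈ (∅ : Finset V), ∀ b', H.Adj a b' → ¬ H.Adj b' v} = dG H b := by
          unfold dG
          exact Nat.card_congr (Equiv.subtypeEquivRight fun v => by simp)
        have := (hT b hb).2.2
        rw [h1]
        omega
    _ ≤ _ := by
        refine Finset.sum_le_sum_of_subset fun b hb => ?_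
        obtain ⟨h1, h2, _⟩ := hT b hb
        exact Finset.mem_filter.2 ⟨Finset.mem_univ _, h1, h2, by simp⟩

/-- **(3)** for the side `false`. -/
theorem acyc_false (hcore : CoreStmt2) (hg : GNonneg) (hs : ∀ u v, H.Adj u v → s u ≠ s v)
    {b0 : V} (hb0 : ¬ s b0 = false) (hne : ∃ v, H.Adj b0 v) {D : ℕ} (hD : 2 ≤ D)
    (hd : ∀ v, dG H v ≤ D) {S : Finset V}
    (hS : ∀ a ∈ S, (s a = false ∧ ¬ H.Adj b0 a) ∧ AcycG H a) :
    NearSid H s (2 * D ^ 5 * (Nat.card H.edgeSet + wG H s b0) - S.card) (2 * D ^ 5) := by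
  classical
  obtain ⟨E, rfl⟩ : ∃ E, D = E + 1 := ⟨D - 1, by omega⟩
  have hE : 1 ≤ E := by omega
  refine ⟨hs, ?_⟩
  intro U _ m W m0 m1 hW hW1
  have hp0 : 0 ≤ kernelMean m W := kp_nonneg m0 hW
  have ht0 : 0 ≤ kernelDensity H s m W := kd_nonneg m0 hW
  have he := edge_pos hne
  set M := 2 * (E + 1) ^ 5 with hM
  have hM1 : 1 ≤ M := by
    have : 1 ≤ (E + 1) ^ 5 := Nat.one_le_pow _ _ (by omega)
    omega
  have hSw : S.card ≤ wG H s b0 := by
    unfold wG
    rw [Nat.card_eq_fintype_card, Fintype.card_subtype]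
    exact Finset.card_le_card fun a ha => by simp [(hS a ha).1.1, (hS a ha).1.2]
  have hle : S.card ≤ M * (Nat.card H.edgeSet + wG H s b0) :=
    calc S.card ≤ 1 * (Nat.card H.edgeSet + wG H s b0) := by omega
      _ ≤ _ := Nat.mul_le_mul_right _ hM1
  rcases hp0.eq_or_lt with hp | hp
  · have h1 : S.card < M * (Nat.card H.edgeSet + wG H s b0) :=
      calc S.card < 1 * (Nat.card H.edgeSet + wG H s b0) := by omega
        _ ≤ _ := Nat.mul_le_mul_right _ hM1
    rw [← hp, zero_pow (by omega)]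
    exact pow_nonneg ht0 _
  -- the logarithms
  have hp1 : kernelMean m W ≤ 1 := kp_le_one m0 m1 hW1
  have hL : Real.log (kernelMean m W) ≤ 0 := Real.log_nonpos hp0 hp1
  obtain ⟨hpos, hbase, -, -⟩ := mix2 hcore hg hs hb0 hne (le_refl 1) (empty_blocks2 b0 1) m0 m1
    hW hp hW1 (k := 0) (by rw [KG_empty]; omega)
  suffices hfin : (((M * (Nat.card H.edgeSet + wG H s b0) - S.card : ℕ)) : ℝ) *
      Real.log (kernelMean m W) ≤ ((M : ℕ) : ℝ) * Real.log (kernelDensity H s m W) by
    rw [← Real.log_pow, ← Real.log_pow] at hfin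
    exact (Real.log_le_log_iff (pow_pos hp _) (pow_pos hpos _)).1 hfin
  rw [Nat.cast_sub hle]
  push_cast
  set L := Real.log (kernelMean m W) with hLdef
  set T := Real.log (kernelDensity H s m W) with hTdef
  set e : ℝ := (Nat.card H.edgeSet : ℝ) with hedef
  have hM0 : (0 : ℝ) ≤ M := Nat.cast_nonneg _
  -- the median
  obtain ⟨y, hyD, hlow, hhigh⟩ := exists_median S (cl H) (D := E + 1) fun a _ => cl_le hd a
  obtain ⟨F, hF1, hF2, hF3⟩ := exists_far (Conf H) (fun _ _ h => h.symm)
    (S.filter fun a => cl H a ≤ y)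
  have hcov := card_cover2 hd hF3
  have hoff : ∀ a ∈ F, s a = false ∧ ¬ H.Adj b0 a := fun a ha =>
    (hS a (Finset.mem_filter.1 (hF1 ha)).1).1
  have hdeg : ∀ a ∈ F, ∀ b, H.Adj a b → dG H b ≤ y := by
    intro a ha b hb
    have h1 : dG H b ≤ cl H a := Finset.le_sup (f := fun b => dG H b) (mem_nb.2 hb)
    exact h1.trans (Finset.mem_filter.1 (hF1 ha)).2
  have harms : ∀ a ∈ F, AcycG H a := fun a ha => (hS a (Finset.mem_filter.1 (hF1 ha)).1).2
  have hapart : ∀ a ∈ F, ∀ a' ∈ F, a ≠ a' → ∀ b b' v, H.Adj a b → H.Adj a' b' →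
      ¬ (H.Adj b v ∧ H.Adj b' v) := by
    rintro a ha a' ha' hne' b b' v h1 h2 ⟨h3, h5⟩
    exact hF2 a ha a' ha' hne' ⟨b, b', v, h1, h2, h3, h5⟩
  have hbc := be_co hE
  rcases Nat.eq_zero_or_pos y with hy0 | hypos
  · -- isolated vertices
    have hiso : ∀ a ∈ F, ∀ b, ¬ H.Adj a b := by
      intro a ha b hb
      have h1 := hdeg a ha b hb
      have h2 : 0 < dG H b := by
        rw [← card_nb]
        exact Finset.card_pos.2 ⟨a, mem_nb.2 hb.symm⟩
      omega
    have hB : GBlocks2 H s b0 F 1 := by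
      refine ⟨hoff, ?_, harms, hapart⟩
      intro a ha b hb
      exact absurd hb (hiso a ha b)
    have hK : KG H b0 F 1 = 0 := by
      unfold KG
      refine Finset.sum_eq_zero fun a ha => ?_
      have h2 : dG H a = 0 := by
        rw [← card_nb, Finset.card_eq_zero]
        exact Finset.eq_empty_of_forall_notMem fun b hb => hiso a ha b (mem_nb.1 hb)
      rw [h2, zero_mul]
    obtain ⟨-, -, -, h1⟩ := mix2 hcore hg hs hb0 hne (le_refl 1) hB m0 m1 hW hp hW1 (k := 0)
      (by rw [hK]; omega)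
    have h7 := h1 rfl
    have h8 : (S.card : ℝ) ≤ M * F.card := by
      have h9 : S.card ≤ M * F.card := by
        calc S.card ≤ 2 * (F.card * be E) := hlow.trans (Nat.mul_le_mul_left _ hcov)
          _ = 2 * be E * F.card := by ring
          _ ≤ M * F.card := Nat.mul_le_mul_right _ (by omega)
      exact_mod_cast h9
    have h11 := mul_le_mul_of_nonneg_left h7 hM0
    have h12 := mul_le_mul_of_nonpos_right h8 hL
    nlinarith
  · -- blocks
    have hB : GBlocks2 H s b0 F y := ⟨hoff, hdeg, harms, hapart⟩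
    obtain ⟨-, -, h1, -⟩ := mix2 hcore hg hs hb0 hne hypos hB m0 m1 hW hp hW1
      (k := KG H b0 F y) (Nat.le_add_left _ _)
    have hK : KG H b0 F y ≤ F.card * co E := by
      unfold KG
      refine (Finset.sum_le_card_nsmul _ _ (co E) fun a _ => ?_).trans (le_of_eq ?_)
      · exact cost_le2 hyD hd b0 a
      · rw [smul_eq_mul]
    set n := gG H s b0 ∅ y with hndef
    set K := KG H b0 F y with hKdef
    have hn : S.card ≤ 2 * ((E + 1) * n) := by
      refine hhigh.trans (Nat.mul_le_mul_left _ ?_)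
      set T' : Finset V := univ.filter fun b => ¬ s b = false ∧ b ≠ b0 ∧ y ≤ dG H b with hT'
      have h2 : (S.filter fun a => y ≤ cl H a) ⊆ T'.biUnion (nb H) := by
        intro a ha
        rw [Finset.mem_filter] at ha
        have h3 : (nb H a).Nonempty := by
          by_contra h3
          rw [Finset.not_nonempty_iff_eq_empty] at h3
          have h5 : cl H a = 0 := by
            unfold cl
            rw [h3]
            rfl
          omega
        obtain ⟨b, hb, hb2⟩ := Finset.exists_mem_eq_sup (nb H a) h3 fun b => dG H b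
        rw [Finset.mem_biUnion]
        refine ⟨b, ?_, mem_nb.2 (mem_nb.1 hb).symm⟩
        rw [hT', Finset.mem_filter]
        refine ⟨Finset.mem_univ _, other_true hs (mem_nb.1 hb) (hS a ha.1).1.1, ?_, ?_⟩
        · rintro rfl
          exact (hS a ha.1).1.2 (mem_nb.1 hb).symm
        · exact ha.2.trans (le_of_eq hb2)
      calc (S.filter fun a => y ≤ cl H a).card ≤ T'.card * (E + 1) :=
            (Finset.card_le_card h2).trans
              (Finset.card_biUnion_le_card_mul _ _ _ fun b _ => card_nb_le hd b)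
        _ ≤ n * (E + 1) := Nat.mul_le_mul_right _ (le_gG T' fun b hb =>
            (Finset.mem_filter.1 hb).2)
        _ = (E + 1) * n := by ring
    rcases Nat.eq_zero_or_pos (n + K) with h0 | h0
    · have h2 : n = 0 := by omega
      have h3 : S.card = 0 := by
        rw [h2] at hn
        omega
      rw [h3]
      push_cast
      have h11 := mul_le_mul_of_nonneg_left hbase hM0
      linarith
    · have hcmp : S.card * (n + K) ≤ M * (n * F.card) := by
        calc S.card * (n + K) = S.card * n + S.card * K := by ring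
          _ ≤ 2 * (F.card * be E) * n + 2 * ((E + 1) * n) * (F.card * co E) :=
              Nat.add_le_add (Nat.mul_le_mul_right _ (hlow.trans (Nat.mul_le_mul_left _ hcov)))
                (Nat.mul_le_mul hn hK)
          _ = 2 * (be E + (E + 1) * co E) * (n * F.card) := by ring
          _ ≤ M * (n * F.card) := Nat.mul_le_mul_right _ (Nat.mul_le_mul_left _ hbc)
      have hcmp' : (S.card : ℝ) * ((n : ℝ) + K) ≤ (M : ℝ) * ((n : ℝ) * F.card) := by
        exact_mod_cast hcmp
      have hpos' : (0 : ℝ) < (n : ℝ) + K := by exact_mod_cast h0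
      have h11 := mul_le_mul_of_nonneg_left h1 hM0
      have h12 := mul_le_mul_of_nonpos_right hcmp' hL
      have h13 : ((n : ℝ) + K) * (((M : ℝ) * (e + wG H s b0) - S.card) * L) ≤
          ((n : ℝ) + K) * ((M : ℝ) * T) := by nlinarith
      exact le_of_mul_le_mul_left h13 hpos'

/-- no 4-cycle through `a` -/
theorem acycG_of_c4 {a : V} (h4 : ∀ a' b b', a ≠ a' → b ≠ b' → H.Adj a b → H.Adj a b' →
    H.Adj a' b → ¬ H.Adj a' b') : AcycG H a := by
  obtain ⟨f, hf⟩ : ∃ f : V → ℕ, Function.Injective f :=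
    ⟨fun v => (Fintype.equivFin V v).val, fun u v h =>
      (Fintype.equivFin V).injective (Fin.ext h)⟩
  refine ⟨f, fun b b' _ _ h => hf h, ?_⟩
  rintro b hb ⟨b₁, hb₁, hlt⟩
  refine ⟨b₁, hb₁, hlt, ?_⟩
  intro b'' hb'' hlt' v hv hv'
  have hbb : b ≠ b'' := by
    rintro rfl
    exact lt_irrefl _ hlt'
  by_cases hva : a = v
  · rw [← hva]
    exact hb₁.symm
  · exact absurd hv'.symm (h4 v b b'' hva hbb hb hb'' hv.symm)

/-- degree at most two -/
theorem acycG_of_two {a : V} (h2 : dG H a ≤ 2) : AcycG H a := by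
  classical
  obtain ⟨f, hf⟩ : ∃ f : V → ℕ, Function.Injective f :=
    ⟨fun v => (Fintype.equivFin V v).val, fun u v h =>
      (Fintype.equivFin V).injective (Fin.ext h)⟩
  refine ⟨f, fun b b' _ _ h => hf h, ?_⟩
  rintro b hb ⟨b₁, hb₁, hlt⟩
  refine ⟨b₁, hb₁, hlt, ?_⟩
  intro b'' hb'' hlt' v _ hv'
  have h1 : b'' = b₁ := by
    by_contra hne
    have h3 : ({b, b₁, b''} : Finset V) ⊆ nb H a := by
      intro x hx
      simp only [Finset.mem_insert, Finset.mem_singleton] at hx
      rcases hx with rfl | rfl | rfl <;> exact mem_nb.2 ‹_›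
    have h4 : ({b, b₁, b''} : Finset V).card = 3 := by
      rw [Finset.card_eq_three]
      refine ⟨b, b₁, b'', ?_, ?_, ?_, rfl⟩
      · rintro rfl; exact lt_irrefl _ hlt
      · rintro rfl; exact lt_irrefl _ hlt'
      · exact fun h => hne h.symm
    have h5 := Finset.card_le_card h3
    rw [h4, card_nb] at h5
    omega
  rw [← h1]
  exact hv'

end Vale.Agent.P050.R2.H545
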