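import Vale.Agent.P050.R2.H545.Girth2

/-!
Bipartite graphs with bounded degrees outside `b0`.
-/

set_option linter.unusedSectionVars false

namespace Vale.Agent.P050.R2.H545

open Finset Vale.Agent.P050.Lev Vale.Agent.P050.H148 Vale.Agent.P050.R2.H901

variable {V : Type} [Fintype V] [DecidableEq V] {H : SimpleGraph V} {s : V → Bool} {b0 : V}

/-- the neighbours other than `b0` -/
noncomputable def nc (H : SimpleGraph V) (b0 a : V) : Finset V := (nb H a).erase b0

theorem mem_nc {a b : V} : b ∈ nc H b0 a ↔ b ≠ b0 ∧ H.Adj a b := by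
  unfold nc
  rw [Finset.mem_erase, mem_nb]

/-- the degree without `b0` -/
noncomputable def dH (H : SimpleGraph V) (b0 a : V) : ℕ := Nat.card {u : V // u ≠ b0 ∧ H.Adj a u}

theorem card_nc (a : V) : (nc H b0 a).card = dH H b0 a := by
  classical
  unfold dH
  rw [Nat.card_eq_fintype_card, Fintype.card_subtype]
  congr 1
  ext u
  rw [mem_nc, Finset.mem_filter]
  simp

theorem dG_eq_dH {a : V} (h : ¬ H.Adj b0 a) : dG H a = dH H b0 a := by
  unfold dG dH
  refine Nat.card_congr (Equiv.subtypeEquivRight fun u => ?_)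
  constructor
  · intro h1
    exact ⟨fun e => h (e ▸ h1.symm), h1⟩
  · exact fun h1 => h1.2

theorem card_nc_le {E : ℕ} (hd : ∀ v, v ≠ b0 → dH H b0 v ≤ E + 1) {a : V} (ha : a ≠ b0) :
    (nc H b0 a).card ≤ E + 1 := by
  rw [card_nc]
  exact hd a ha

theorem card_nc_erase {E : ℕ} (hd : ∀ v, v ≠ b0 → dH H b0 v ≤ E + 1) {a b : V} (ha : a ≠ b0)
    (h : b ∈ nc H b0 a) : ((nc H b0 a).erase b).card ≤ E := by
  rw [Finset.card_erase_of_mem h, card_nc]
  have := hd a ha
  omega

theorem nc_symm {a b : V} (ha : a ≠ b0) (h : b ∈ nc H b0 a) : a ∈ nc H b0 b := by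
  rw [mem_nc] at h ⊢
  exact ⟨ha, h.2.symm⟩

/-- the ball around `a` -/
noncomputable def ball3 (H : SimpleGraph V) (b0 a : V) : Finset V :=
  insert a ((nc H b0 a).biUnion fun b => (nc H b0 b).erase a) ∪
    (nc H b0 a).biUnion fun b => ((nc H b0 b).erase a).biUnion fun v =>
      ((nc H b0 v).erase b).biUnion fun b' => (nc H b0 b').erase v

theorem mem_ball3 {a a' b b' v : V} (h1 : H.Adj a b) (h2 : H.Adj a' b') (h3 : H.Adj b v)
    (h4 : H.Adj b' v) (hb : b ≠ b0) (hb' : b' ≠ b0) (hv : v ≠ b0) (ha' : a' ≠ b0) :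
    a' ∈ ball3 H b0 a := by
  unfold ball3
  rw [Finset.mem_union]
  by_cases ha : a' = a
  · exact Or.inl (by rw [ha]; exact Finset.mem_insert_self _ _)
  by_cases hva : v = a
  · subst hva
    refine Or.inl (Finset.mem_insert_of_mem ?_)
    rw [Finset.mem_biUnion]
    exact ⟨b', mem_nc.2 ⟨hb', h4.symm⟩, Finset.mem_erase.2 ⟨ha, mem_nc.2 ⟨ha', h2.symm⟩⟩⟩
  by_cases hbb : b' = b
  · subst hbb
    refine Or.inl (Finset.mem_insert_of_mem ?_)
    rw [Finset.mem_biUnion]
    exact ⟨b', mem_nc.2 ⟨hb, h1⟩, Finset.mem_erase.2 ⟨ha, mem_nc.2 ⟨ha', h2.symm⟩⟩⟩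
  by_cases hv' : a' = v
  · subst hv'
    refine Or.inl (Finset.mem_insert_of_mem ?_)
    rw [Finset.mem_biUnion]
    exact ⟨b, mem_nc.2 ⟨hb, h1⟩, Finset.mem_erase.2 ⟨ha, mem_nc.2 ⟨hv, h3⟩⟩⟩
  · refine Or.inr ?_
    rw [Finset.mem_biUnion]
    refine ⟨b, mem_nc.2 ⟨hb, h1⟩, ?_⟩
    rw [Finset.mem_biUnion]
    refine ⟨v, Finset.mem_erase.2 ⟨hva, mem_nc.2 ⟨hv, h3⟩⟩, ?_⟩
    rw [Finset.mem_biUnion]
    exact ⟨b', Finset.mem_erase.2 ⟨hbb, mem_nc.2 ⟨hb', h4.symm⟩⟩,
      Finset.mem_erase.2 ⟨hv', mem_nc.2 ⟨ha', h2.symm⟩⟩⟩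

theorem card_ball3 {E : ℕ} (hd : ∀ v, v ≠ b0 → dH H b0 v ≤ E + 1) {a : V} (ha : a ≠ b0) :
    (ball3 H b0 a).card ≤ be E := by
  unfold ball3 be
  refine (Finset.card_union_le _ _).trans (Nat.add_le_add ?_ ?_)
  · refine (Finset.card_insert_le _ _).trans ?_
    rw [add_comm]
    refine Nat.add_le_add_left ((Finset.card_biUnion_le_card_mul _ _ E fun b hb => ?_).trans
      (Nat.mul_le_mul_right _ (card_nc_le hd ha))) _
    exact card_nc_erase hd (mem_nc.1 hb).1 (nc_symm ha hb)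
  · refine (Finset.card_biUnion_le_card_mul _ _ (E * (E * E)) fun b hb => ?_).trans
      (Nat.mul_le_mul_right _ (card_nc_le hd ha))
    have hb0 := (mem_nc.1 hb).1
    refine (Finset.card_biUnion_le_card_mul _ _ (E * E) fun v hv => ?_).trans
      (Nat.mul_le_mul_right _ (card_nc_erase hd hb0 (nc_symm ha hb)))
    have hv1 := (Finset.mem_erase.1 hv).2
    have hv0 := (mem_nc.1 hv1).1
    refine (Finset.card_biUnion_le_card_mul _ _ E fun b' hb' => ?_).trans
      (Nat.mul_le_mul_right _ (card_nc_erase hd hv0 (nc_symm hb0 hv1)))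
    have hb1 := (Finset.mem_erase.1 hb').2
    exact card_nc_erase hd (mem_nc.1 hb1).1 (nc_symm hv0 hb1)

theorem ne_b0 (hb0 : ¬ s b0 = false) {v : V} (hv : s v = false) : v ≠ b0 := by
  rintro rfl
  exact hb0 hv

theorem card_cover3 (hs : ∀ u v, H.Adj u v → s u ≠ s v) (hb0 : ¬ s b0 = false) {E : ℕ}
    (hd : ∀ v, v ≠ b0 → dH H b0 v ≤ E + 1) {S F : Finset V}
    (hS : ∀ a ∈ S, s a = false ∧ ¬ H.Adj b0 a) (hF : F ⊆ S)
    (h : ∀ a ∈ S, a ∈ F ∨ ∃ f ∈ F, Conf H f a) : S.card ≤ F.card * be E := by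
  classical
  have h1 : S ⊆ F.biUnion (ball3 H b0) := by
    intro a ha
    rw [Finset.mem_biUnion]
    rcases h a ha with h2 | ⟨f, h2, b, b', v, h3, h4, h5, h6⟩
    · refine ⟨a, h2, ?_⟩
      unfold ball3
      exact Finset.mem_union_left _ (Finset.mem_insert_self _ _)
    · have hf := hS f (hF h2)
      have ha' := hS a ha
      have hb : b ≠ b0 := by rintro rfl; exact hf.2 h3.symm
      have hb' : b' ≠ b0 := by rintro rfl; exact ha'.2 h4.symm
      exact ⟨f, h2, mem_ball3 h3 h4 h5 h6 hb hb'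
        (ne_b0 hb0 (other_false hs h5 (other_true hs h3 hf.1))) (ne_b0 hb0 ha'.1)⟩
  exact (Finset.card_le_card h1).trans (Finset.card_biUnion_le_card_mul _ _ _ fun f hf =>
    card_ball3 hd (ne_b0 hb0 (hS f (hF hf)).1))

/-- the number of vertices touching a block -/
theorem qG_le3 (hs : ∀ u v, H.Adj u v → s u ≠ s v) (hb0 : ¬ s b0 = false) {E : ℕ}
    (hd : ∀ v, v ≠ b0 → dH H b0 v ≤ E + 1) {a : V} (ha : s a = false ∧ ¬ H.Adj b0 a) :
    qG H b0 a ≤ (E + 1) * (E * E) := by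
  classical
  unfold qG
  rw [Nat.card_eq_fintype_card, Fintype.card_subtype]
  have ha0 := ne_b0 hb0 ha.1
  have h1 : (univ.filter fun b => b ≠ b0 ∧ ¬ H.Adj a b ∧
      ∃ v b', H.Adj a b' ∧ H.Adj b' v ∧ H.Adj b v) ⊆
      (nc H b0 a).biUnion fun b' => ((nc H b0 b').erase a).biUnion fun v =>
        (nc H b0 v).erase b' := by
    intro b hb
    rw [Finset.mem_filter] at hb
    obtain ⟨-, hbb, h2, v, b', h3, h4, h5⟩ := hb
    have hb' : b' ≠ b0 := by rintro rfl; exact ha.2 h3.symm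
    have hv := ne_b0 hb0 (other_false hs h4 (other_true hs h3 ha.1))
    rw [Finset.mem_biUnion]
    refine ⟨b', mem_nc.2 ⟨hb', h3⟩, ?_⟩
    rw [Finset.mem_biUnion]
    refine ⟨v, Finset.mem_erase.2 ⟨?_, mem_nc.2 ⟨hv, h4⟩⟩,
      Finset.mem_erase.2 ⟨?_, mem_nc.2 ⟨hbb, h5.symm⟩⟩⟩
    · rintro rfl
      exact h2 h5.symm
    · rintro rfl
      exact h2 h3
  refine (Finset.card_le_card h1).trans ?_
  refine (Finset.card_biUnion_le_card_mul _ _ (E * E) fun b' hb' => ?_).trans
    (Nat.mul_le_mul_right _ (card_nc_le hd ha0))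
  have hb0' := (mem_nc.1 hb').1
  refine (Finset.card_biUnion_le_card_mul _ _ E fun v hv => ?_).trans
    (Nat.mul_le_mul_right _ (card_nc_erase hd hb0' (nc_symm ha0 hb')))
  have hv1 := (Finset.mem_erase.1 hv).2
  exact card_nc_erase hd (mem_nc.1 hv1).1 (nc_symm hb0' hv1)

theorem cost_le3 (hs : ∀ u v, H.Adj u v → s u ≠ s v) (hb0 : ¬ s b0 = false) {E D' : ℕ}
    (hD' : D' ≤ E + 1) (hd : ∀ v, v ≠ b0 → dH H b0 v ≤ E + 1) {a : V}
    (ha : s a = false ∧ ¬ H.Adj b0 a) :
    dG H a * (1 + qG H b0 a + D' * (dG H a - 1)) ≤ co E := by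
  have h3 := qG_le3 hs hb0 hd ha
  have h2 : dG H a ≤ E + 1 := by
    rw [dG_eq_dH ha.2]
    exact hd a (ne_b0 hb0 ha.1)
  have h4 : D' * (dG H a - 1) ≤ (E + 1) * E := Nat.mul_le_mul hD' (by omega)
  exact Nat.mul_le_mul h2 (by omega)

/-- **(3)** for the side `false`. -/
theorem acyc_false3 (hcore : CoreStmt2) (hg : GNonneg) (hs : ∀ u v, H.Adj u v → s u ≠ s v)
    (hb0 : ¬ s b0 = false) (hne : ∃ v, H.Adj b0 v) {D : ℕ} (hD : 2 ≤ D)
    (hd : ∀ v, v ≠ b0 → dH H b0 v ≤ D) {S : Finset V}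
    (hS : ∀ a ∈ S, (s a = false ∧ ¬ H.Adj b0 a) ∧ AcycG H a) :
    NearSid H s (2 * D ^ 5 * (Nat.card H.edgeSet + wG H s b0) - S.card) (2 * D ^ 5) := by
  classical
  obtain ⟨E, rfl⟩ : ∃ E, D = E + 1 := ⟨D - 1, by omega⟩
  have hE : 1 ≤ E := by omega
  refine ⟨hs, ?_⟩
  intro U _ m W m0 m1 hW hW1
  have hp0 : 0 ≤ kernelMean m W := kp_nonneg m0 hW
  have ht0 : 0 ≤ kernelDensity H s m W := kd_nonneg m0 hW
  have he := edge_pos hne
  set M := 2 * (E + 1) ^ 5 with hM
  have hM1 : 1 ≤ M := by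
    have : 1 ≤ (E + 1) ^ 5 := Nat.one_le_pow _ _ (by omega)
    omega
  have hSw : S.card ≤ wG H s b0 := by
    unfold wG
    rw [Nat.card_eq_fintype_card, Fintype.card_subtype]
    exact Finset.card_le_card fun a ha => by simp [(hS a ha).1.1, (hS a ha).1.2]
  have hle : S.card ≤ M * (Nat.card H.edgeSet + wG H s b0) :=
    calc S.card ≤ 1 * (Nat.card H.edgeSet + wG H s b0) := by omega
      _ ≤ _ := Nat.mul_le_mul_right _ hM1
  rcases hp0.eq_or_lt with hp | hp
  · have h1 : S.card < M * (Nat.card H.edgeSet + wG H s b0) :=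
      calc S.card < 1 * (Nat.card H.edgeSet + wG H s b0) := by omega
        _ ≤ _ := Nat.mul_le_mul_right _ hM1
    rw [← hp, zero_pow (by omega)]
    exact pow_nonneg ht0 _
  -- the logarithms
  have hp1 : kernelMean m W ≤ 1 := kp_le_one m0 m1 hW1
  have hL : Real.log (kernelMean m W) ≤ 0 := Real.log_nonpos hp0 hp1
  obtain ⟨hpos, hbase, -, -⟩ := mix2 hcore hg hs hb0 hne (le_refl 1) (empty_blocks2 b0 1) m0 m1
    hW hp hW1 (k := 0) (by rw [KG_empty]; omega)
  suffices hfin : (((M * (Nat.card H.edgeSet + wG H s b0) - S.card : ℕ)) : ℝ) *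
      Real.log (kernelMean m W) ≤ ((M : ℕ) : ℝ) * Real.log (kernelDensity H s m W) by
    rw [← Real.log_pow, ← Real.log_pow] at hfin
    exact (Real.log_le_log_iff (pow_pos hp _) (pow_pos hpos _)).1 hfin
  rw [Nat.cast_sub hle]
  push_cast
  set L := Real.log (kernelMean m W) with hLdef
  set T := Real.log (kernelDensity H s m W) with hTdef
  set e : ℝ := (Nat.card H.edgeSet : ℝ) with hedef
  have hM0 : (0 : ℝ) ≤ M := Nat.cast_nonneg _
  -- degrees of the neighbours
  have hdb : ∀ a, s a = false ∧ ¬ H.Adj b0 a → ∀ b, H.Adj a b → dG H b ≤ E + 1 := by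
    intro a ha b hb
    have hbs := other_true hs hb ha.1
    have hnb : ¬ H.Adj b0 b := fun h => hs b0 b h (by
      cases h1 : s b0 <;> cases h2 : s b <;> simp_all)
    rw [dG_eq_dH hnb]
    exact hd b (by rintro rfl; exact ha.2 hb.symm)
  -- the median
  obtain ⟨y, hyD, hlow, hhigh⟩ := exists_median S (cl H) (D := E + 1) fun a ha =>
    Finset.sup_le fun b hb => hdb a (hS a ha).1 b (mem_nb.1 hb)
  obtain ⟨F, hF1, hF2, hF3⟩ := exists_far (Conf H) (fun _ _ h => h.symm)
    (S.filter fun a => cl H a ≤ y)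
  have hcov := card_cover3 hs hb0 hd (fun a ha => (hS a (Finset.mem_filter.1 ha).1).1) hF1 hF3
  have hoff : ∀ a ∈ F, s a = false ∧ ¬ H.Adj b0 a := fun a ha =>
    (hS a (Finset.mem_filter.1 (hF1 ha)).1).1
  have hdeg : ∀ a ∈ F, ∀ b, H.Adj a b → dG H b ≤ y := by
    intro a ha b hb
    have h1 : dG H b ≤ cl H a := Finset.le_sup (f := fun b => dG H b) (mem_nb.2 hb)
    exact h1.trans (Finset.mem_filter.1 (hF1 ha)).2
  have harms : ∀ a ∈ F, AcycG H a := fun a ha => (hS a (Finset.mem_filter.1 (hF1 ha)).1).2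
  have hapart : ∀ a ∈ F, ∀ a' ∈ F, a ≠ a' → ∀ b b' v, H.Adj a b → H.Adj a' b' →
      ¬ (H.Adj b v ∧ H.Adj b' v) := by
    rintro a ha a' ha' hne' b b' v h1 h2 ⟨h3, h5⟩
    exact hF2 a ha a' ha' hne' ⟨b, b', v, h1, h2, h3, h5⟩
  have hbc := be_co hE
  rcases Nat.eq_zero_or_pos y with hy0 | hypos
  · -- isolated vertices
    have hiso : ∀ a ∈ F, ∀ b, ¬ H.Adj a b := by
      intro a ha b hb
      have h1 := hdeg a ha b hb
      have h2 : 0 < dG H b := by
        rw [← card_nb]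
        exact Finset.card_pos.2 ⟨a, mem_nb.2 hb.symm⟩
      omega
    have hB : GBlocks2 H s b0 F 1 := by
      refine ⟨hoff, ?_, harms, hapart⟩
      intro a ha b hb
      exact absurd hb (hiso a ha b)
    have hK : KG H b0 F 1 = 0 := by
      unfold KG
      refine Finset.sum_eq_zero fun a ha => ?_
      have h2 : dG H a = 0 := by
        rw [← card_nb, Finset.card_eq_zero]
        exact Finset.eq_empty_of_forall_notMem fun b hb => hiso a ha b (mem_nb.1 hb)
      rw [h2, zero_mul]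
    obtain ⟨-, -, -, h1⟩ := mix2 hcore hg hs hb0 hne (le_refl 1) hB m0 m1 hW hp hW1 (k := 0)
      (by rw [hK]; omega)
    have h7 := h1 rfl
    have h8 : (S.card : ℝ) ≤ M * F.card := by
      have h9 : S.card ≤ M * F.card := by
        calc S.card ≤ 2 * (F.card * be E) := hlow.trans (Nat.mul_le_mul_left _ hcov)
          _ = 2 * be E * F.card := by ring
          _ ≤ M * F.card := Nat.mul_le_mul_right _ (by omega)
      exact_mod_cast h9
    have h11 := mul_le_mul_of_nonneg_left h7 hM0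
    have h12 := mul_le_mul_of_nonpos_right h8 hL
    nlinarith
  · -- blocks
    have hB : GBlocks2 H s b0 F y := ⟨hoff, hdeg, harms, hapart⟩
    obtain ⟨-, -, h1, -⟩ := mix2 hcore hg hs hb0 hne hypos hB m0 m1 hW hp hW1
      (k := KG H b0 F y) (Nat.le_add_left _ _)
    have hK : KG H b0 F y ≤ F.card * co E := by
      unfold KG
      refine (Finset.sum_le_card_nsmul _ _ (co E) fun a ha => ?_).trans (le_of_eq ?_)
      · exact cost_le3 hs hb0 hyD hd (hoff a ha)
      · rw [smul_eq_mul]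
    set n := gG H s b0 ∅ y with hndef
    set K := KG H b0 F y with hKdef
    have hn : S.card ≤ 2 * ((E + 1) * n) := by
      refine hhigh.trans (Nat.mul_le_mul_left _ ?_)
      set T' : Finset V := univ.filter fun b => ¬ s b = false ∧ b ≠ b0 ∧ y ≤ dG H b with hT'
      have h2 : (S.filter fun a => y ≤ cl H a) ⊆ T'.biUnion (nc H b0) := by
        intro a ha
        rw [Finset.mem_filter] at ha
        have h3 : (nb H a).Nonempty := by
          by_contra h3
          rw [Finset.not_nonempty_iff_eq_empty] at h3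
          have h5 : cl H a = 0 := by
            unfold cl
            rw [h3]
            rfl
          omega
        obtain ⟨b, hb, hb2⟩ := Finset.exists_mem_eq_sup (nb H a) h3 fun b => dG H b
        rw [Finset.mem_biUnion]
        refine ⟨b, ?_, mem_nc.2 ⟨ne_b0 hb0 (hS a ha.1).1.1, (mem_nb.1 hb).symm⟩⟩
        rw [hT', Finset.mem_filter]
        refine ⟨Finset.mem_univ _, other_true hs (mem_nb.1 hb) (hS a ha.1).1.1, ?_, ?_⟩
        · rintro rfl
          exact (hS a ha.1).1.2 (mem_nb.1 hb).symm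
        · exact ha.2.trans (le_of_eq hb2)
      calc (S.filter fun a => y ≤ cl H a).card ≤ T'.card * (E + 1) :=
            (Finset.card_le_card h2).trans
              (Finset.card_biUnion_le_card_mul _ _ _ fun b hb =>
                card_nc_le hd (Finset.mem_filter.1 hb).2.2.1)
        _ ≤ n * (E + 1) := Nat.mul_le_mul_right _ (le_gG T' fun b hb =>
            (Finset.mem_filter.1 hb).2)
        _ = (E + 1) * n := by ring
    rcases Nat.eq_zero_or_pos (n + K) with h0 | h0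
    · have h2 : n = 0 := by omega
      have h3 : S.card = 0 := by
        rw [h2] at hn
        omega
      rw [h3]
      push_cast
      have h11 := mul_le_mul_of_nonneg_left hbase hM0
      linarith
    · have hcmp : S.card * (n + K) ≤ M * (n * F.card) := by
        calc S.card * (n + K) = S.card * n + S.card * K := by ring
          _ ≤ 2 * (F.card * be E) * n + 2 * ((E + 1) * n) * (F.card * co E) :=
              Nat.add_le_add (Nat.mul_le_mul_right _ (hlow.trans (Nat.mul_le_mul_left _ hcov)))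
                (Nat.mul_le_mul hn hK)
          _ = 2 * (be E + (E + 1) * co E) * (n * F.card) := by ring
          _ ≤ M * (n * F.card) := Nat.mul_le_mul_right _ (Nat.mul_le_mul_left _ hbc)
      have hcmp' : (S.card : ℝ) * ((n : ℝ) + K) ≤ (M : ℝ) * ((n : ℝ) * F.card) := by
        exact_mod_cast hcmp
      have hpos' : (0 : ℝ) < (n : ℝ) + K := by exact_mod_cast h0
      have h11 := mul_le_mul_of_nonneg_left h1 hM0
      have h12 := mul_le_mul_of_nonpos_right hcmp' hL
      have h13 : ((n : ℝ) + K) * (((M : ℝ) * (e + wG H s b0) - S.card) * L) ≤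
          ((n : ℝ) + K) * ((M : ℝ) * T) := by nlinarith
      exact le_of_mul_le_mul_left h13 hpos'

end Vale.Agent.P050.R2.H545
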