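import Vale.Agent.P050.R4.H22.Fin2

/-!
# P050: graphs with a hub, laws with a bound for the mean logarithm of the remaining factor,
and the lower bound for a vertex whose neighbours have a common trace vertex
-/

set_option linter.unusedSectionVars false

namespace Vale.Agent.P050.Books

open Finset Vale.Agent.P050.Lev Vale.Agent.P050.Ears

section HubC1

variable {V S : Type} [Fintype V] [DecidableEq V] [Fintype S]
  {side : V → Bool} {A : Matrix S S ℝ} {μ : S → ℝ} {c : S → Bool}

/-- a law for the graph inside `U`, with density `ρ`, the remaining factor `L`, and the lower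
bound `F` for the mean logarithm of `L` -/
structure LawF (H : SimpleGraph V) (side : V → Bool) (A : Matrix S S ℝ) (μ : S → ℝ)
    (c : S → Bool) (U : Finset V) (ρ L : (V → S) → ℝ) (F : ℝ) : Prop where
  dep : DepOn U ρ
  depL : DepOn U L
  nonneg : ∀ z, 0 ≤ ρ z
  mul : ∀ z, (∏ v, mm side μ c v (z v)) ≠ 0 → ρ z * L z = edgeW H side A μ U z
  pos : ∀ z, (∏ v, mm side μ c v (z v)) ≠ 0 → ρ z ≠ 0 → 0 < L z
  one : EM side μ c ρ = 1
  log : F ≤ EM side μ c (fun z => ρ z * Real.log (L z))

theorem LawF.law {H : SimpleGraph V} {U : Finset V} {ρ L : (V → S) → ℝ} {F : ℝ}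
    (hl : LawF H side A μ c U ρ L F) (hF : 0 ≤ F) : Law H side A μ c U ρ L :=
  ⟨hl.dep, hl.depL, hl.nonneg, hl.mul, hl.pos, hl.one, hF.trans hl.log⟩

theorem Law.lawF {H : SimpleGraph V} {U : Finset V} {ρ L : (V → S) → ℝ}
    (hl : Law H side A μ c U ρ L) : LawF H side A μ c U ρ L 0 :=
  ⟨hl.dep, hl.depL, hl.nonneg, hl.mul, hl.pos, hl.one, hl.log⟩

/-- a new vertex -/
theorem LawF.attach (h : Rev A μ c) {H : SimpleGraph V}
    (hs : ∀ u v, H.Adj u v → side u ≠ side v) {U R : Finset V} {v : V} {ρ L : (V → S) → ℝ}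
    {F G : ℝ} (hl : LawF H side A μ c U ρ L F) (hv : v ∉ U) (hRn : R.Nonempty) (hRU : R ⊆ U)
    (hR : ∀ x ∈ U, H.Adj v x ↔ x ∈ R)
    (hp : ∀ z : V → S, (∏ v, mm side μ c v (z v)) ≠ 0 → ρ z ≠ 0 → 0 < hQ A μ R z)
    (hlog : G ≤ MM side A μ c ρ R) :
    LawF H side A μ c (insert v U) (fun z => ρ z * rr A μ R v z)
      (fun z => L z * hQ A μ R z) (F + G) := by
  obtain ⟨i, hi⟩ := hRn
  have hsd : side i ≠ side v := (hs v i ((hR i (hRU hi)).2 hi)).symm
  refine ⟨?_, ?_, ?_, ?_, ?_, ?_, ?_⟩
  · exact (hl.dep.mono (Finset.subset_insert _ _)).mul (depOn_rr hRU)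
  · exact (hl.depL.mono (Finset.subset_insert _ _)).mul
      ((depOn_hQ R).mono (hRU.trans (Finset.subset_insert _ _)))
  · exact fun z => mul_nonneg (hl.nonneg z) (rr_nonneg h R v z)
  · intro z hz
    rw [edgeW_insert h hs hv hRU hR, ← hl.mul z hz]
    by_cases h0 : ρ z = 0
    · rw [h0]
      ring
    · have hq := (hp z hz h0).ne'
      unfold rr
      field_simp
  · intro z hz h0
    exact mul_pos (hl.pos z hz (left_ne_zero_of_mul h0)) (hp z hz (left_ne_zero_of_mul h0))
  · have := persist h hl.dep hv hRU hi hsd hp (f := fun _ => (1 : ℝ)) (fun _ _ _ => rfl)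
    simp only [mul_one] at this
    rw [this]
    exact hl.one
  · have hlogs : DepOn U (fun z : V → S => Real.log (L z) + Real.log (hQ A μ R z)) := by
      intro z z' hz
      show Real.log (L z) + Real.log (hQ A μ R z) = Real.log (L z') + Real.log (hQ A μ R z')
      rw [hl.depL z z' hz, depOn_hQ R z z' fun u hu => hz u (hRU hu)]
    have e1 : EM side μ c (fun z => ρ z * rr A μ R v z * Real.log (L z * hQ A μ R z)) =
        EM side μ c (fun z => ρ z * rr A μ R v z *
          (Real.log (L z) + Real.log (hQ A μ R z))) := by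
      refine EM_congr fun z hz => ?_
      by_cases h0 : ρ z = 0
      · rw [h0]
        ring
      · rw [Real.log_mul (hl.pos z hz h0).ne' (hp z hz h0).ne']
    rw [e1, persist h hl.dep hv hRU hi hsd hp hlogs]
    have e2 : EM side μ c (fun z => ρ z * (Real.log (L z) + Real.log (hQ A μ R z))) =
        EM side μ c (fun z => ρ z * Real.log (L z)) + MM side A μ c ρ R := by
      unfold MM
      rw [← EM_add]
      exact EM_congr fun z _ => mul_add _ _ _
    rw [e2]
    exact add_le_add hl.log hlog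

/-- THE LOWER BOUND: the mean logarithm of the codegree of twins of the hub which have the set
`C` of common trace vertices -/
theorem IsFan.low (h : Rev A μ c) {U : Finset V} {ρ : (V → S) → ℝ} (hρ : ∀ z, 0 ≤ ρ z)
    (hone : EM side μ c ρ = 1) {A₀ Z : Finset V} {Q : V → Finset V}
    (hf : IsFan side A μ c U ρ A₀ Z Q) {R T C : Finset V} (hR : R ⊆ Z)
    (hRn : R.Nonempty) (hC : ∀ u ∈ R, C ⊆ Q u) (hTA : T ⊆ A₀) (ht : ∀ u ∈ R, Q u ⊆ T) :
    ∑ u ∈ R, (DD side μ c ρ (Q u) - DD side μ c ρ (Q u \ C)) -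
      (DD side μ c ρ T - DD side μ c ρ (T \ C)) ≤ C.card * MM side A μ c ρ R := by
  obtain ⟨r, hr⟩ := id hRn
  have hCT : C ⊆ T := (hC r hr).trans (ht r hr)
  let P := T \ C
  have hPA : P ⊆ A₀ := Finset.sdiff_subset.trans hTA
  have haZ : ∀ a ∈ T, a ∉ Z := fun a ha hm => hf.sd a hm a (hTA ha) rfl
  have haR : ∀ a ∈ T, a ∉ R := fun a ha hm => haZ a ha (hR hm)
  -- (i)
  have h1 : ∀ C' : Finset V, C' ⊆ C → DD side μ c ρ (P ∪ R) +
      (∑ u ∈ R, ∑ a ∈ C', ee side A μ c ρ a u - C'.card * MM side A μ c ρ R) ≤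
        DD side μ c ρ (C' ∪ (P ∪ R)) := by
    intro C'
    induction C' using Finset.induction_on with
    | empty =>
      intro _
      simp
    | insert a C' ha ih =>
      intro hsub
      have haC : a ∈ C := hsub (mem_insert_self _ _)
      have h3 := ih ((Finset.subset_insert _ _).trans hsub)
      have haPR : a ∉ C' ∪ (P ∪ R) := by
        rw [mem_union, mem_union, not_or, not_or]
        exact ⟨ha, fun hm => (mem_sdiff.1 hm).2 haC, haR a (hCT haC)⟩
      have h4 := DD_kl (side := side) h hρ hone haPR (R := R)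
        (Finset.subset_union_right.trans Finset.subset_union_right) ⟨r, hr⟩
        (fun u hu => (hf.sd u (hR hu) a (hTA (hCT haC))).symm) (fun z hz h0 u hu => by
          rw [kk_symm h]
          exact hf.kp z hz h0 u (hR hu) a (hC u hu haC))
      have e1 : ∑ u ∈ R, ∑ x ∈ insert a C', ee side A μ c ρ x u =
          ∑ u ∈ R, ee side A μ c ρ u a + ∑ u ∈ R, ∑ x ∈ C', ee side A μ c ρ x u := by
        rw [← Finset.sum_add_distrib]
        refine Finset.sum_congr rfl fun u _ => ?_
        rw [Finset.sum_insert ha, ee_symm h ρ a u]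
      rw [e1, Finset.card_insert_of_notMem ha, Finset.insert_union]
      push_cast
      linarith
  have h1C := h1 C (Finset.Subset.refl _)
  have e1 : C ∪ (P ∪ R) = T ∪ R := by
    rw [← Finset.union_assoc, Finset.union_sdiff_of_subset hCT]
  rw [e1] at h1C
  -- (ii)
  have h2 : ∀ R' : Finset V, R' ⊆ R → DD side μ c ρ P + ∑ u ∈ R',
      (∑ i ∈ Q u \ C, ee side A μ c ρ i u - DD side μ c ρ (Q u \ C)) ≤
        DD side μ c ρ (P ∪ R') := by
    intro R'
    induction R' using Finset.induction_on with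
    | empty =>
      intro _
      rw [Finset.sum_empty, add_zero, Finset.union_empty]
    | insert u R' hu ih =>
      intro hsub
      have huR : u ∈ R := hsub (mem_insert_self _ _)
      have h3 := ih ((Finset.subset_insert _ _).trans hsub)
      have hQP : Q u \ C ⊆ P := Finset.sdiff_subset_sdiff (ht u huR) (Finset.Subset.refl _)
      have huA : u ∉ A₀ := fun hm => hf.sd u (hR huR) u hm rfl
      have huW : u ∉ P ∪ R' := by
        rw [mem_union, not_or]
        exact ⟨fun hm => huA (hPA hm), hu⟩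
      rw [Finset.sum_insert hu, Finset.union_insert]
      rcases Finset.eq_empty_or_nonempty (Q u \ C) with h4 | h4
      · rw [h4, Finset.sum_empty, DD_empty (side := side) h hone]
        have h5 := DD_mono (side := side) h hρ hone (Finset.subset_insert u (P ∪ R'))
        linarith
      · have h5 := DD_kl (side := side) h hρ hone huW (R := Q u \ C)
          (hQP.trans Finset.subset_union_left) h4
          (fun i hi => hf.sd u (hR huR) i (hPA (hQP hi)))
          (fun z hz h0 i hi => hf.kp z hz h0 u (hR huR) i (mem_sdiff.1 hi).1)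
        rw [hf.star _ (hQP.trans hPA) h4] at h5
        linarith
  have h3 := h2 R (Finset.Subset.refl _)
  -- (iii)
  have h4 := hf.fan T hTA R hR ht
  have h5 : ∀ u ∈ R, ∑ i ∈ Q u, ee side A μ c ρ i u - MM side A μ c ρ (Q u) =
      (∑ i ∈ C, ee side A μ c ρ i u + ∑ i ∈ Q u \ C, ee side A μ c ρ i u) -
        DD side μ c ρ (Q u) := by
    intro u hu
    rw [hf.star (Q u) (hf.qs u (hR hu)) (hf.qn u (hR hu)),
      ← Finset.sum_sdiff (hC u hu), add_comm]
  rw [Finset.sum_congr rfl h5, Finset.sum_sub_distrib, Finset.sum_add_distrib] at h4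
  rw [Finset.sum_sub_distrib] at h3
  rw [Finset.sum_sub_distrib]
  show _ - (DD side μ c ρ T - DD side μ c ρ P) ≤ _
  linarith

/-- relative entropies of sets of the same size in an invariant law -/
theorem Symm.DD_card (h : Rev A μ c) {ρ : (V → S) → ℝ} {Q W : Finset V}
    (hs : Symm side μ c ρ Q W) (hQW : Q ⊆ W) (hsd : ∀ i ∈ Q, ∀ j ∈ Q, side i = side j) :
    ∀ (n : ℕ) (P P' : Finset V), P ⊆ Q → P' ⊆ Q → P.card = P'.card → (P \ P').card = n →
      DD side μ c ρ P = DD side μ c ρ P' := by
  intro n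
  induction n with
  | zero =>
    intro P P' _ _ hc hn
    have h1 : P ⊆ P' := by
      rw [← Finset.sdiff_eq_empty_iff_subset]
      exact Finset.card_eq_zero.1 hn
    rw [Finset.eq_of_subset_of_card_le h1 hc.ge]
  | succ n ih =>
    intro P P' hP hP' hc hn
    obtain ⟨i, hi⟩ : (P \ P').Nonempty := by
      rw [← Finset.card_pos]
      omega
    obtain ⟨q, hq⟩ : (P' \ P).Nonempty := by
      rw [← Finset.card_pos, ← Finset.card_sdiff_comm hc]
      omega
    obtain ⟨hiP, hiP'⟩ := mem_sdiff.1 hi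
    obtain ⟨hqP', hqP⟩ := mem_sdiff.1 hq
    have hiT : i ∉ P.erase i := Finset.notMem_erase _ _
    have hqT : q ∉ P.erase i := fun hm => hqP (Finset.mem_of_mem_erase hm)
    have hTQ : P.erase i ⊆ Q := (Finset.erase_subset _ _).trans hP
    have h1 := hs.DD_swap h (hP hiP) (hP' hqP') (hsd i (hP hiP) q (hP' hqP')) hiT hqT
      ((Finset.insert_subset (hP hiP) hTQ).trans hQW)
      ((Finset.insert_subset (hP' hqP') hTQ).trans hQW)
    rw [Finset.insert_erase hiP] at h1
    rw [← h1]
    refine ih (insert q (P.erase i)) P' (Finset.insert_subset (hP' hqP') hTQ) hP' ?_ ?_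
    · rw [Finset.card_insert_of_notMem hqT, Finset.card_erase_of_mem hiP, ← hc]
      have := Finset.card_pos.2 ⟨i, hiP⟩
      omega
    · have e : insert q (P.erase i) \ P' = (P \ P').erase i := by
        ext x
        simp only [mem_sdiff, mem_insert, mem_erase]
        constructor
        · rintro ⟨rfl | ⟨h2, h3⟩, h4⟩
          · exact absurd hqP' h4
          · exact ⟨h2, h3, h4⟩
        · rintro ⟨h2, h3, h4⟩
          exact ⟨Or.inr ⟨h2, h3⟩, h4⟩
      rw [e, Finset.card_erase_of_mem hi, hn]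
      omega

/-- the relative entropies of a hub with independent neighbours depend on the size only and are
convex -/
theorem exists_dd (h : Rev A μ c) {ρ : (V → S) → ℝ} (hρ : ∀ z, 0 ≤ ρ z)
    (hone : EM side μ c ρ = 1) {A₀ : Finset V} (hs : Symm side μ c ρ A₀ A₀)
    (hsd : ∀ i ∈ A₀, ∀ j ∈ A₀, side i = side j)
    (hstar : ∀ P ⊆ A₀, P.Nonempty → MM side A μ c ρ P = DD side μ c ρ P) :
    ∃ d : ℕ → ℝ, (∀ P ⊆ A₀, DD side μ c ρ P = d P.card) ∧ d 0 = 0 ∧ d 1 = 0 ∧
      ∀ k, k + 2 ≤ A₀.card → 2 * d (k + 1) ≤ d k + d (k + 2) := by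
  classical
  have hex : ∀ k : ℕ, ∃ x : ℝ, ∀ P ⊆ A₀, P.card = k → DD side μ c ρ P = x := by
    intro k
    by_cases hk : ∃ P ⊆ A₀, P.card = k
    · obtain ⟨P, hP, hPk⟩ := hk
      exact ⟨DD side μ c ρ P, fun P' hP' hPk' =>
        hs.DD_card h (Finset.Subset.refl _) hsd _ P' P hP' hP (hPk'.trans hPk.symm) rfl⟩
    · exact ⟨0, fun P hP hPk => absurd ⟨P, hP, hPk⟩ hk⟩
  choose d₀ hd₀ using hex
  let d : ℕ → ℝ := fun k => if k ≤ A₀.card then d₀ k else 0
  have hd : ∀ P ⊆ A₀, DD side μ c ρ P = d P.card := by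
    intro P hP
    show _ = if P.card ≤ A₀.card then d₀ P.card else 0
    rw [if_pos (Finset.card_le_card hP)]
    exact hd₀ _ P hP rfl
  refine ⟨d, hd, ?_, ?_, ?_⟩
  · rw [← Finset.card_empty (α := V), ← hd ∅ (Finset.empty_subset _)]
    exact DD_empty (side := side) h hone
  · by_cases hA : 1 ≤ A₀.card
    · obtain ⟨a, ha⟩ := Finset.card_pos.1 hA
      have h1 : ({a} : Finset V) ⊆ A₀ := Finset.singleton_subset_iff.2 ha
      rw [← Finset.card_singleton a, ← hd {a} h1, ← hstar {a} h1 (singleton_nonempty a)]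
      unfold MM
      simp only [hQ_singleton h, Real.log_one, mul_zero]
      unfold EM
      simp
    · exact if_neg hA
  · intro k hk
    obtain ⟨P, hP, hPk⟩ := Finset.exists_subset_card_eq hk
    obtain ⟨i, hi⟩ : P.Nonempty := by
      rw [← Finset.card_pos]
      omega
    have h1 : (P.erase i).card = k + 1 := by
      rw [Finset.card_erase_of_mem hi, hPk]
      omega
    obtain ⟨q, hq⟩ : (P.erase i).Nonempty := by
      rw [← Finset.card_pos]
      omega
    have hqP : q ∈ P := Finset.mem_of_mem_erase hq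
    have hqi : q ≠ i := Finset.ne_of_mem_erase hq
    have h2 : (P.erase q).card = k + 1 := by
      rw [Finset.card_erase_of_mem hqP, hPk]
      omega
    have h3 : P.erase i ∪ P.erase q = P := by
      ext x
      simp only [mem_union, mem_erase]
      constructor
      · rintro (⟨-, hx⟩ | ⟨-, hx⟩) <;> exact hx
      · intro hx
        by_cases hxi : x = i
        · right
          exact ⟨fun e => hqi (e.symm.trans hxi), hx⟩
        · exact Or.inl ⟨hxi, hx⟩
    have h4 : P.erase i ∩ P.erase q = (P.erase i).erase q := by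
      ext x
      simp only [mem_inter, mem_erase]
      constructor
      · rintro ⟨⟨hx1, hx2⟩, hx3, -⟩
        exact ⟨hx3, hx1, hx2⟩
      · rintro ⟨hx3, hx1, hx2⟩
        exact ⟨⟨hx1, hx2⟩, hx3, hx2⟩
    have h5 : ((P.erase i).erase q).card = k := by
      rw [Finset.card_erase_of_mem hq, h1]
      omega
    have h6 := DD_super (side := side) h hρ hone (P.erase i) (P.erase q)
    rw [h3, h4, hd _ ((Finset.erase_subset _ _).trans hP),
      hd _ ((Finset.erase_subset q P).trans hP), hd _ hP,
      hd _ ((Finset.erase_subset _ _).trans ((Finset.erase_subset _ _).trans hP)),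
      h1, h2, hPk, h5] at h6
    linarith

end HubC1

end Vale.Agent.P050.Books
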