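import Mathlib

/-!
# P050: summation by parts for convex sequences
-/

namespace Vale.Agent.P050.Books

open Finset

/-- the increments of a sequence are sums of second differences -/
theorem seq_inc (d : ℕ → ℝ) (d0 : d 0 = 0) (d1 : d 1 = 0) (M k : ℕ) (hk : k ≤ M) :
    d (k + 1) - d k = ∑ j ∈ range M, (d (j + 2) - 2 * d (j + 1) + d j) *
      ((if j + 2 ≤ k + 1 then 1 else 0 : ℕ) : ℝ) := by
  have h1 : ∀ k, d (k + 1) - d k = ∑ j ∈ range k, (d (j + 2) - 2 * d (j + 1) + d j) := by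
    intro k
    induction k with
    | zero => simp [d0, d1]
    | succ k ih =>
      rw [Finset.sum_range_succ, ← ih]
      ring
  have h2 : (range M).filter (fun j => j + 2 ≤ k + 1) = range k := by
    ext j
    simp only [mem_filter, mem_range]
    omega
  rw [h1, ← h2, Finset.sum_filter]
  refine Finset.sum_congr rfl fun j _ => ?_
  split_ifs <;> simp

theorem seq_val (d : ℕ → ℝ) (d0 : d 0 = 0) (d1 : d 1 = 0) (M k : ℕ) (hk : k ≤ M + 1) :
    d k = ∑ j ∈ range M, (d (j + 2) - 2 * d (j + 1) + d j) * ((k + 1 - (j + 2) : ℕ) : ℝ) := by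
  induction k with
  | zero =>
    rw [d0]
    refine (Finset.sum_eq_zero fun j _ => ?_).symm
    have : 0 + 1 - (j + 2) = 0 := by omega
    rw [this]
    simp
  | succ k ih =>
    have h1 := ih (by omega)
    have h2 := seq_inc d d0 d1 M k (by omega)
    have h3 : d (k + 1) = d k + (d (k + 1) - d k) := by ring
    rw [h3, h2, h1, ← Finset.sum_add_distrib]
    refine Finset.sum_congr rfl fun j _ => ?_
    rw [← mul_add, ← Nat.cast_add]
    congr 2
    split_ifs <;> omega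

theorem seq_dif (d : ℕ → ℝ) (d0 : d 0 = 0) (d1 : d 1 = 0) (M k c : ℕ) (hk : k ≤ M + 1)
    (hc : c ≤ k) : d k - d (k - c) = ∑ j ∈ range M, (d (j + 2) - 2 * d (j + 1) + d j) *
      ((min c (k + 1 - (j + 2)) : ℕ) : ℝ) := by
  rw [seq_val d d0 d1 M k hk, seq_val d d0 d1 M (k - c) (by omega), ← Finset.sum_sub_distrib]
  refine Finset.sum_congr rfl fun j _ => ?_
  rw [← mul_sub]
  congr 1
  have h1 : k + 1 - (j + 2) = (k - c + 1 - (j + 2)) + min c (k + 1 - (j + 2)) := by omega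
  have h2 : ((k + 1 - (j + 2) : ℕ) : ℝ) = ((k - c + 1 - (j + 2) : ℕ) : ℝ) +
      ((min c (k + 1 - (j + 2)) : ℕ) : ℝ) := by
    rw [← Nat.cast_add, ← h1]
  rw [h2]
  ring

/-- THE BALANCE -/
theorem balance {V : Type} [DecidableEq V] (d : ℕ → ℝ) (d0 : d 0 = 0) (d1 : d 1 = 0) (M : ℕ)
    (hd : ∀ k, k + 2 ≤ M + 1 → 2 * d (k + 1) ≤ d k + d (k + 2)) (Z W : Finset V)
    (q t c : V → ℕ) (N : V → Finset V) (hZ : ∀ z ∈ Z, q z ≤ M + 1)
    (hN : ∀ w ∈ W, ∀ z ∈ N w, c w ≤ q z ∧ q z ≤ M + 1) (ht : ∀ w ∈ W, c w ≤ t w ∧ t w ≤ M + 1)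
    (hle : ∀ m, 2 ≤ m → ∑ w ∈ W, ((min (c w) (t w + 1 - m) : ℕ) : ℝ) / c w ≤
      ∑ z ∈ Z, ((q z + 1 - m : ℕ) : ℝ) +
        ∑ w ∈ W, ∑ z ∈ N w, ((min (c w) (q z + 1 - m) : ℕ) : ℝ) / c w) :
    0 ≤ ∑ z ∈ Z, d (q z) +
      ∑ w ∈ W, (∑ z ∈ N w, (d (q z) - d (q z - c w)) - (d (t w) - d (t w - c w))) / c w := by
  let ε : ℕ → ℝ := fun j => d (j + 2) - 2 * d (j + 1) + d j
  have hε : ∀ j ∈ range M, 0 ≤ ε j := by
    intro j hj
    have := hd j (by have := mem_range.1 hj; omega)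
    show 0 ≤ d (j + 2) - 2 * d (j + 1) + d j
    linarith
  have h1 : ∑ z ∈ Z, d (q z) =
      ∑ j ∈ range M, ε j * ∑ z ∈ Z, ((q z + 1 - (j + 2) : ℕ) : ℝ) := by
    rw [Finset.sum_congr rfl fun z hz => seq_val d d0 d1 M (q z) (hZ z hz), Finset.sum_comm]
    exact Finset.sum_congr rfl fun j _ => (Finset.mul_sum _ _ _).symm
  have h2 : ∀ w ∈ W, (∑ z ∈ N w, (d (q z) - d (q z - c w)) - (d (t w) - d (t w - c w))) / c w =
      ∑ j ∈ range M, ε j * (∑ z ∈ N w, ((min (c w) (q z + 1 - (j + 2)) : ℕ) : ℝ) / c w -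
        ((min (c w) (t w + 1 - (j + 2)) : ℕ) : ℝ) / c w) := by
    intro w hw
    rw [Finset.sum_congr rfl fun z hz => seq_dif d d0 d1 M (q z) (c w) (hN w hw z hz).2
      (hN w hw z hz).1, Finset.sum_comm, seq_dif d d0 d1 M (t w) (c w) (ht w hw).2 (ht w hw).1,
      ← Finset.sum_sub_distrib, Finset.sum_div]
    refine Finset.sum_congr rfl fun j _ => ?_
    rw [← Finset.mul_sum, ← mul_sub, mul_div_assoc, sub_div, Finset.sum_div]
  rw [h1, Finset.sum_congr rfl h2, Finset.sum_comm, ← Finset.sum_add_distrib]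
  refine Finset.sum_nonneg fun j hj => ?_
  have h4 := hle (j + 2) (by omega)
  rw [← Finset.mul_sum, ← mul_add]
  refine mul_nonneg (hε j hj) ?_
  rw [Finset.sum_sub_distrib]
  linarith

end Vale.Agent.P050.Books
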