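import Vale.Agent.P050.R2.H545.HubC1
import Vale.Agent.P050.R2.H545.HubC2

/-!
# P050: the counting theorem for graphs with a hub
-/

set_option linter.unusedSectionVars false

namespace Vale.Agent.P050.Books

open Finset Vale.Agent.P050.Lev Vale.Agent.P050.Ears

section HubC3

variable {V S : Type} [Fintype V] [DecidableEq V] [Fintype S]
  {side : V → Bool} {A : Matrix S S ℝ} {μ : S → ℝ} {c : S → Bool}

theorem side_eq3 {x y z : Bool} (h1 : x ≠ y) (h2 : x ≠ z) : y = z := by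
  cases x <;> cases y <;> cases z <;> simp_all

/-- the law of the hub, its neighbours and its twins -/
theorem fan_lawF (h : Rev A μ c) {H : SimpleGraph V}
    (hs : ∀ u v, H.Adj u v → side u ≠ side v) {b : V} {A₀ : Finset V} (hA : A₀.Nonempty)
    (hb : ∀ a ∈ A₀, H.Adj b a) :
    ∃ d : ℕ → ℝ, d 0 = 0 ∧ d 1 = 0 ∧
      (∀ k, k + 2 ≤ A₀.card → 2 * d (k + 1) ≤ d k + d (k + 2)) ∧
      ∀ Z : Finset V, (∀ z ∈ Z, z ≠ b ∧ side z = side b ∧ (tr H A₀ z).Nonempty) →
      ∃ ρ L : (V → S) → ℝ, LawF H side A μ c (insert b A₀ ∪ Z) ρ L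
          (∑ z ∈ Z, d (tr H A₀ z).card) ∧
        IsFan side A μ c (insert b A₀ ∪ Z) ρ A₀ (insert b Z) (tr H A₀) ∧
        ∀ P ⊆ A₀, DD side μ c ρ P = d P.card := by
  have hQb : tr H A₀ b = A₀ := by
    ext i
    rw [mem_tr]
    exact ⟨fun hi => hi.1, fun hi => ⟨hi, hb i hi⟩⟩
  have hsA : ∀ i ∈ A₀, ∀ j ∈ A₀, side i = side j := fun i hi j hj =>
    side_eq3 (hs _ _ (hb i hi)) (hs _ _ (hb j hj))
  obtain ⟨ρ₀, L₀, hl₀, hbk⟩ := star_law (side := side) h hs b A₀ hb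
  have hf₀ := fan_base (Q := tr H A₀) h hl₀.nonneg hl₀.one hA hbk hQb
  have hsym : Symm side μ c ρ₀ A₀ A₀ :=
    (IsW.symm_pages (hbk.weak h hl₀.nonneg hl₀.one)).mono (Finset.Subset.refl _)
      Finset.subset_union_right
  obtain ⟨d, hd, d0, d1, dc⟩ := exists_dd h hl₀.nonneg hl₀.one hsym hsA hf₀.star
  refine ⟨d, d0, d1, dc, ?_⟩
  intro Z
  induction Z using Finset.induction_on with
  | empty =>
    intro _
    rw [Finset.union_empty, Finset.sum_empty]
    exact ⟨ρ₀, L₀, hl₀.lawF, hf₀, hd⟩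
  | insert v Z hvZ ih =>
    intro hZ
    obtain ⟨ρ, L, hl, hf, hD⟩ := ih fun z hz => hZ z (mem_insert_of_mem hz)
    obtain ⟨hvb, hvs, hvn⟩ := hZ v (mem_insert_self _ _)
    have hvA : v ∉ A₀ := by
      intro hm
      have := hs _ _ (hb v hm)
      rw [hvs] at this
      exact this rfl
    have hv : v ∉ insert b A₀ ∪ Z := by
      rw [mem_union, not_or, mem_insert, not_or]
      exact ⟨⟨hvb, hvA⟩, hvZ⟩
    have hRA : tr H A₀ v ⊆ A₀ := fun i hi => (mem_tr.1 hi).1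
    have hAU : A₀ ⊆ insert b A₀ ∪ Z := (Finset.subset_insert _ _).trans Finset.subset_union_left
    have hRU : tr H A₀ v ⊆ insert b A₀ ∪ Z := hRA.trans hAU
    have hR : ∀ x ∈ insert b A₀ ∪ Z, H.Adj v x ↔ x ∈ tr H A₀ v := by
      intro x hx
      rw [mem_tr]
      constructor
      · intro hvx
        refine ⟨?_, hvx⟩
        have h1 := hs _ _ hvx
        rcases mem_union.1 hx with hx | hx
        · rcases mem_insert.1 hx with rfl | hx
          · exact absurd hvs h1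
          · exact hx
        · exact absurd (hvs.trans (hZ x (mem_insert_of_mem hx)).2.1.symm) h1
      · exact fun hx => hx.2
    have hsd : ∀ i ∈ A₀, side i ≠ side v := by
      intro i hi
      rw [hvs]
      exact (hs _ _ (hb i hi)).symm
    have hp := hf.pos h hRA
    obtain ⟨i, hi⟩ := id hvn
    have hF : 0 ≤ ∑ z ∈ Z, d (tr H A₀ z).card := Finset.sum_nonneg fun z _ => by
      rw [← hD _ fun i hi => (mem_tr.1 hi).1]
      exact DD_nonneg (side := side) h hl.nonneg hl.one _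
    have hG : d (tr H A₀ v).card ≤ MM side A μ c ρ (tr H A₀ v) := by
      rw [hf.star _ hRA hvn, hD _ hRA]
    rw [Finset.union_insert, Finset.insert_comm, Finset.sum_insert hvZ, add_comm (d _)]
    refine ⟨_, _, hl.attach h hs hv hvn hRU hR hp hG,
      hf.add h (hl.law hF) hv hvn hi hRA rfl hsd hp, fun P hP => ?_⟩
    rw [DD_keep h hl.dep hv hRU hi (hsd i (hRA hi)) hp (hP.trans hAU)]
    exact hD P hP

/-- the law of the whole graph -/
theorem hubc_law (h : Rev A μ c) {H : SimpleGraph V}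
    (hs : ∀ u v, H.Adj u v → side u ≠ side v) {b : V} {A₀ : Finset V}
    (hb : ∀ a ∈ A₀, H.Adj b a) (hz : ∀ z, side z = side b → ∃ a ∈ A₀, H.Adj z a)
    (hw : ∀ w, side w ≠ side b → w ∉ A₀ → ∃ u, H.Adj w u)
    (C N T : V → Finset V)
    (hC : ∀ w, side w ≠ side b → w ∉ A₀ → (C w).Nonempty ∧
      ∀ a ∈ C w, a ∈ A₀ ∧ ∀ u, H.Adj w u → H.Adj u a)
    (hN : ∀ w u, u ∈ N w ↔ H.Adj w u)
    (hT : ∀ w x, x ∈ T w ↔ x ∈ A₀ ∧ ∃ u, H.Adj w u ∧ H.Adj u x) (Z W : Finset V)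
    (hZ : ∀ z, z ∈ Z ↔ z ≠ b ∧ side z = side b)
    (hW : ∀ w, w ∈ W ↔ side w ≠ side b ∧ w ∉ A₀)
    (hle : ∀ m, 2 ≤ m → ∑ w ∈ W, ((min (C w).card ((T w).card + 1 - m) : ℕ) : ℝ) /
      (C w).card ≤ ∑ z ∈ Z, (((tr H A₀ z).card + 1 - m : ℕ) : ℝ) +
        ∑ w ∈ W, ∑ z ∈ N w, ((min (C w).card ((tr H A₀ z).card + 1 - m) : ℕ) : ℝ) /
          (C w).card) :
    ∃ ρ L : (V → S) → ℝ, Law H side A μ c univ ρ L := by
  obtain ⟨a₀, ha₀, -⟩ := hz b rfl
  have hA : A₀.Nonempty := ⟨a₀, ha₀⟩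
  obtain ⟨d, d0, d1, dc, hfan⟩ := fan_lawF (side := side) h hs hA hb
  have hNZ : ∀ w, side w ≠ side b → N w ⊆ insert b Z := by
    intro w hws u hu
    have h1 := (hN w u).1 hu
    have h2 := hs _ _ h1
    have h3 : side u = side b := side_eq3 h2 hws
    rw [mem_insert]
    by_cases h7 : u = b
    · exact Or.inl h7
    · exact Or.inr ((hZ u).2 ⟨h7, h3⟩)
  have hCR : ∀ w, side w ≠ side b → w ∉ A₀ → ∀ u ∈ N w, C w ⊆ tr H A₀ u := by
    intro w hws hwA u hu a ha
    obtain ⟨h1, h2⟩ := (hC w hws hwA).2 a ha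
    exact mem_tr.2 ⟨h1, h2 u ((hN w u).1 hu)⟩
  have hTA : ∀ w, T w ⊆ A₀ := fun w x hx => ((hT w x).1 hx).1
  have htR : ∀ w, ∀ u ∈ N w, tr H A₀ u ⊆ T w := by
    intro w u hu x hx
    obtain ⟨h1, h2⟩ := mem_tr.1 hx
    exact (hT w x).2 ⟨h1, u, (hN w u).1 hu, h2⟩
  have key : ∀ W' : Finset V, (∀ w ∈ W', side w ≠ side b ∧ w ∉ A₀) →
      ∃ ρ L : (V → S) → ℝ, LawF H side A μ c (insert b A₀ ∪ Z ∪ W') ρ L
        (∑ z ∈ Z, d (tr H A₀ z).card + ∑ w ∈ W', (∑ z ∈ N w,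
          (d (tr H A₀ z).card - d ((tr H A₀ z).card - (C w).card)) -
            (d (T w).card - d ((T w).card - (C w).card))) / (C w).card) ∧
      IsFan side A μ c (insert b A₀ ∪ Z ∪ W') ρ A₀ (insert b Z) (tr H A₀) ∧
      ∀ P ⊆ A₀, DD side μ c ρ P = d P.card := by
    intro W'
    induction W' using Finset.induction_on with
    | empty =>
      intro _
      rw [Finset.union_empty, Finset.sum_empty, add_zero]
      refine hfan Z fun z hzZ => ?_
      obtain ⟨h1, h2⟩ := (hZ z).1 hzZ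
      obtain ⟨a, ha, hza⟩ := hz z h2
      exact ⟨h1, h2, a, mem_tr.2 ⟨ha, hza⟩⟩
    | insert w W' hwW ih =>
      intro hW'
      obtain ⟨ρ, L, hl, hf, hD⟩ := ih fun x hx => hW' x (mem_insert_of_mem hx)
      obtain ⟨hws, hwA⟩ := hW' w (mem_insert_self _ _)
      obtain ⟨r, hwr⟩ := hw w hws hwA
      obtain ⟨⟨a, ha⟩, -⟩ := hC w hws hwA
      have hwU : w ∉ insert b A₀ ∪ Z ∪ W' := by
        simp only [mem_union, mem_insert, not_or]
        exact ⟨⟨⟨fun e => hws (by rw [e]), hwA⟩, fun hm => hws ((hZ w).1 hm).2⟩, hwW⟩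
      have hRZ := hNZ w hws
      have hAU : A₀ ⊆ insert b A₀ ∪ Z ∪ W' := (Finset.subset_insert _ _).trans
        (Finset.subset_union_left.trans Finset.subset_union_left)
      have hRU : N w ⊆ insert b A₀ ∪ Z ∪ W' := by
        intro u hu
        rcases mem_insert.1 (hRZ hu) with h1 | h1
        · exact mem_union_left _ (mem_union_left _ (mem_insert.2 (Or.inl h1)))
        · exact mem_union_left _ (mem_union_right _ h1)
      have hrR : r ∈ N w := (hN w r).2 hwr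
      have hCw := hCR w hws hwA
      have hp : ∀ z : V → S, (∏ v, mm side μ c v (z v)) ≠ 0 → ρ z ≠ 0 →
          0 < hQ A μ (N w) z :=
        fun z hz h0 => Books.hQ_pos h (x := z a) fun u hu => by
          have := hf.kp z hz h0 u (hRZ hu) a (hCw u hu ha)
          rw [kk_symm h] at this
          exact this.ne'
      have hsdR : ∀ i ∈ N w, side i ≠ side w := fun i hi => (hs _ _ ((hN w i).1 hi)).symm
      have hG := hf.low h hl.nonneg hl.one hRZ ⟨r, hrR⟩ hCw (hTA w) (htR w)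
      have e1 : ∑ u ∈ N w, (DD side μ c ρ (tr H A₀ u) -
          DD side μ c ρ (tr H A₀ u \ C w)) = ∑ z ∈ N w,
            (d (tr H A₀ z).card - d ((tr H A₀ z).card - (C w).card)) := by
        refine Finset.sum_congr rfl fun u hu => ?_
        have h1 : tr H A₀ u ⊆ A₀ := (htR w u hu).trans (hTA w)
        rw [hD _ h1, hD _ (Finset.sdiff_subset.trans h1),
          Finset.card_sdiff_of_subset (hCw u hu)]
      have hCT : C w ⊆ T w := (hCw r hrR).trans (htR w r hrR)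
      rw [e1, hD _ (hTA w), hD _ (Finset.sdiff_subset.trans (hTA w)),
        Finset.card_sdiff_of_subset hCT, mul_comm] at hG
      have hc0 : (0 : ℝ) < (C w).card := Nat.cast_pos.2 (Finset.card_pos.2 ⟨a, ha⟩)
      have hG' := (div_le_iff₀ hc0).2 hG
      rw [Finset.union_insert, Finset.sum_insert hwW, add_comm (_ / _) (∑ w ∈ W', _),
        ← add_assoc]
      refine ⟨_, _, hl.attach h hs hwU ⟨r, hrR⟩ hRU (fun x _ => (hN w x).symm) hp hG',
        hf.keep h hl.dep hwU hRU hrR (hsdR r hrR) hp, fun P hP => ?_⟩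
      rw [DD_keep h hl.dep hwU hRU hrR (hsdR r hrR) hp (hP.trans hAU)]
      exact hD P hP
  obtain ⟨ρ, L, hl, -, -⟩ := key W fun w hw => (hW w).1 hw
  have hU : insert b A₀ ∪ Z ∪ W = univ := by
    ext x
    simp only [mem_union, mem_insert, hZ, hW, mem_univ, iff_true]
    by_cases h1 : side x = side b
    · by_cases h2 : x = b
      · exact Or.inl (Or.inl (Or.inl h2))
      · exact Or.inl (Or.inr ⟨h2, h1⟩)
    · by_cases h2 : x ∈ A₀
      · exact Or.inl (Or.inl (Or.inr h2))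
      · exact Or.inr ⟨h1, h2⟩
  rw [hU] at hl
  refine ⟨ρ, L, hl.law ?_⟩
  have hAc : 1 ≤ A₀.card := Finset.card_pos.2 hA
  obtain ⟨M, hM⟩ := Nat.exists_eq_add_of_le' hAc
  have hqA : ∀ z, (tr H A₀ z).card ≤ M + 1 := fun z => by
    rw [← hM]
    exact Finset.card_le_card fun i hi => (mem_tr.1 hi).1
  refine balance d d0 d1 M (fun k hk => dc k (by rw [hM]; exact hk)) Z W
    (fun z => (tr H A₀ z).card) (fun w => (T w).card) (fun w => (C w).card) N
    (fun z _ => hqA z) ?_ ?_ hle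
  · intro w hw' z hz'
    obtain ⟨hws, hwA⟩ := (hW w).1 hw'
    exact ⟨Finset.card_le_card (hCR w hws hwA z hz'), hqA z⟩
  · intro w hw'
    obtain ⟨hws, hwA⟩ := (hW w).1 hw'
    obtain ⟨r, hwr⟩ := hw w hws hwA
    have hrR : r ∈ N w := (hN w r).2 hwr
    refine ⟨Finset.card_le_card ((hCR w hws hwA r hrR).trans (htR w r hrR)), ?_⟩
    show (T w).card ≤ M + 1
    rw [← hM]
    exact Finset.card_le_card (hTA w)

end HubC3

end Vale.Agent.P050.Books
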