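import Vale.Agent.P050.R2.H545.HubC3

/-!
# P050: the counting theorem for graphs with a hub, the Sidorenko inequality
-/

namespace Vale.Agent.P050.Books

open Finset Vale.Agent.P050.Lev Vale.Agent.P050.Ears

theorem natCard_mem {V : Type} [Fintype V] (s : Finset V) (p : V → Prop)
    (h : ∀ a, a ∈ s ↔ p a) : Nat.card {a : V // p a} = s.card := by
  classical
  have e : s = univ.filter p := by
    ext a
    simp [h]
  rw [Nat.card_eq_fintype_card, Fintype.card_subtype, e]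

/-- COUNTING THEOREM for graphs with a hub -/
theorem gsid_of_hubc {V : Type} [Fintype V] [DecidableEq V] {H : SimpleGraph V}
    {side : V → Bool} (hs : ∀ u v, H.Adj u v → side u ≠ side v) {b : V} {A₀ : Finset V}
    (hb : ∀ a ∈ A₀, H.Adj b a) (q t c : V → ℕ)
    (hq : ∀ z, q z = Nat.card {a : V // a ∈ A₀ ∧ H.Adj z a})
    (ht : ∀ w, t w = Nat.card {a : V // a ∈ A₀ ∧ ∃ z, H.Adj w z ∧ H.Adj z a})
    (hz : ∀ z, side z = side b → 1 ≤ q z) (Z W : Finset V) (N : V → Finset V)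
    (hZ : ∀ z, z ∈ Z ↔ side z = side b ∧ z ≠ b)
    (hW : ∀ w, w ∈ W ↔ side w ≠ side b ∧ w ∉ A₀) (hN : ∀ w z, z ∈ N w ↔ H.Adj w z)
    (hw : ∀ w ∈ W, (∃ z, H.Adj w z) ∧ 1 ≤ c w ∧
      c w ≤ Nat.card {a : V // a ∈ A₀ ∧ ∀ z, H.Adj w z → H.Adj z a})
    (hle : ∀ m, 2 ≤ m → ∑ w ∈ W, ((min (c w) (t w + 1 - m) : ℕ) : ℝ) / c w ≤
      ∑ z ∈ Z, ((q z + 1 - m : ℕ) : ℝ) +
        ∑ w ∈ W, ∑ z ∈ N w, ((min (c w) (q z + 1 - m) : ℕ) : ℝ) / c w) : GSid H side := by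
  classical
  have hq' : ∀ z, (tr H A₀ z).card = q z := fun z => by
    rw [hq, natCard_mem (tr H A₀ z) _ fun a => mem_tr]
  let T : V → Finset V := fun w => A₀.filter fun a => ∃ z, H.Adj w z ∧ H.Adj z a
  have hT : ∀ w x, x ∈ T w ↔ x ∈ A₀ ∧ ∃ u, H.Adj w u ∧ H.Adj u x := fun w x => by
    simp [T]
  have ht' : ∀ w, (T w).card = t w := fun w => by
    rw [ht, natCard_mem (T w) _ (hT w)]
  have hCex : ∀ w, ∃ C : Finset V, w ∈ W → C.card = c w ∧
      ∀ a ∈ C, a ∈ A₀ ∧ ∀ z, H.Adj w z → H.Adj z a := by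
    intro w
    by_cases hwW : w ∈ W
    · let C₀ : Finset V := A₀.filter fun a => ∀ z, H.Adj w z → H.Adj z a
      have hC₀ : ∀ a, a ∈ C₀ ↔ a ∈ A₀ ∧ ∀ z, H.Adj w z → H.Adj z a := fun a => by simp [C₀]
      have h1 := (hw w hwW).2.2
      rw [natCard_mem C₀ _ hC₀] at h1
      obtain ⟨C, hC, hCc⟩ := Finset.exists_subset_card_eq h1
      exact ⟨C, fun _ => ⟨hCc, fun a ha => (hC₀ a).1 (hC ha)⟩⟩
    · exact ⟨∅, fun h => absurd h hwW⟩
  choose C hC using hCex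
  have hz' : ∀ z, side z = side b → ∃ a ∈ A₀, H.Adj z a := by
    intro z h1
    have h2 := hz z h1
    rw [← hq'] at h2
    obtain ⟨a, ha⟩ := Finset.card_pos.1 h2
    exact ⟨a, mem_tr.1 ha⟩
  refine gsid_of_rev H side hs ?_ ?_
  · intro v
    by_cases h1 : side v = side b
    · obtain ⟨a, -, ha⟩ := hz' v h1
      exact ⟨a, ha⟩
    · by_cases h2 : v ∈ A₀
      · exact ⟨b, (hb v h2).symm⟩
      · exact (hw v ((hW v).2 ⟨h1, h2⟩)).1
  · intro S _ _ _ A μ c' h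
    obtain ⟨ρ, L, hl⟩ := hubc_law (side := side) (b := b) (A₀ := A₀) h hs hb hz'
      (fun w h1 h2 => (hw w ((hW w).2 ⟨h1, h2⟩)).1) C N T (fun w h1 h2 => by
        obtain ⟨h3, h4⟩ := hC w ((hW w).2 ⟨h1, h2⟩)
        refine ⟨Finset.card_pos.1 ?_, h4⟩
        rw [h3]
        exact (hw w ((hW w).2 ⟨h1, h2⟩)).2.1) hN hT Z W
      (fun z => (hZ z).trans and_comm) hW (fun m hm => by
        have h1 := hle m hm
        have h2 : ∑ w ∈ W, ((min (C w).card ((T w).card + 1 - m) : ℕ) : ℝ) / (C w).card =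
            ∑ w ∈ W, ((min (c w) (t w + 1 - m) : ℕ) : ℝ) / c w :=
          Finset.sum_congr rfl fun w hw' => by rw [(hC w hw').1, ht']
        have h3 : ∑ w ∈ W, ∑ z ∈ N w, ((min (C w).card ((tr H A₀ z).card + 1 - m) : ℕ) : ℝ) /
            (C w).card = ∑ w ∈ W, ∑ z ∈ N w, ((min (c w) (q z + 1 - m) : ℕ) : ℝ) / c w :=
          Finset.sum_congr rfl fun w hw' => Finset.sum_congr rfl fun z _ => by
            rw [(hC w hw').1, hq']
        have h4 : ∑ z ∈ Z, (((tr H A₀ z).card + 1 - m : ℕ) : ℝ) =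
            ∑ z ∈ Z, ((q z + 1 - m : ℕ) : ℝ) :=
          Finset.sum_congr rfl fun z _ => by rw [hq']
        rw [h2, h3, h4]
        exact h1)
    exact hl.sum_wt_ge h

end Vale.Agent.P050.Books
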