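import Vale.Agent.P050.R2.H545.HubC1

/-!
# P050: chordal laws with a virtual hub
-/

set_option linter.unusedSectionVars false

namespace Vale.Agent.P050.Books

open Finset Vale.Agent.P050.Lev Vale.Agent.P050.Ears

section HubD1

variable {V S : Type} [Fintype V] [DecidableEq V] [Fintype S]
  {side : V → Bool} {A : Matrix S S ℝ} {μ : S → ℝ} {c : S → Bool}

/-- the density of common neighbours, one for the empty set -/
noncomputable def hh (A : Matrix S S ℝ) (μ : S → ℝ) (P : Finset V) (z : V → S) : ℝ :=
  if P.Nonempty then hQ A μ P z else 1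

theorem hh_of (P : Finset V) (hP : P.Nonempty) (z : V → S) : hh A μ P z = hQ A μ P z :=
  if_pos hP

theorem hh_empty (z : V → S) : hh A μ ∅ z = 1 := if_neg Finset.not_nonempty_empty

theorem hh_nonneg (h : Rev A μ c) (P : Finset V) (z : V → S) : 0 ≤ hh A μ P z := by
  unfold hh
  split_ifs
  · exact hQ_nonneg h P z
  · exact zero_le_one

theorem depOn_hh (P : Finset V) : DepOn P (hh A μ P : (V → S) → ℝ) := by
  intro z z' hz
  unfold hh
  split_ifs
  · exact depOn_hQ P z z' hz
  · rfl

theorem kk_sum (h : Rev A μ c) (a : V) {y : S} (hy : c y ≠ side a) :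
    ∑ x, mm side μ c a x * kk A μ x y = 1 := by
  rw [← h.row y]
  refine Finset.sum_congr rfl fun x _ => ?_
  unfold mm
  split_ifs with hx
  · rw [kk_symm h]
    unfold kk
    rw [mul_div_cancel₀ _ (h.pos x).ne']
  · rw [zero_mul]
    refine (h.alt y x ?_).symm
    cases h1 : c x <;> cases h2 : c y <;> cases h3 : side a <;> simp_all

/-- integration of one vertex of a set with common neighbours -/
theorem hh_int (h : Rev A μ c) {P : Finset V} {a : V} (ha : a ∉ P)
    (hsd : ∀ i ∈ P, side i = side a) {z : V → S} (hz : (∏ v, mm side μ c v (z v)) ≠ 0) :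
    ∑ x, mm side μ c a x * hh A μ (insert a P) (Function.update z a x) = hh A μ P z := by
  have e0 : ∀ x, hh A μ (insert a P) (Function.update z a x) =
      hQ A μ (insert a P) (Function.update z a x) := fun x =>
    hh_of _ (Finset.insert_nonempty a P) _
  simp only [e0]
  rcases Finset.eq_empty_or_nonempty P with rfl | hP
  · rw [hh_empty]
    have e1 : ∀ x, hQ A μ (insert a (∅ : Finset V)) (Function.update z a x) = 1 := fun x => by
      rw [show insert a (∅ : Finset V) = {a} from rfl]
      exact hQ_singleton h a _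
    simp only [e1, mul_one]
    exact mm_sum h a
  · rw [hh_of P hP]
    have e1 : ∀ x, mm side μ c a x * hQ A μ (insert a P) (Function.update z a x) =
        ∑ y, (μ y * ∏ i ∈ P, kk A μ (z i) y) * (mm side μ c a x * kk A μ x y) := by
      intro x
      unfold hQ
      rw [Finset.mul_sum]
      refine Finset.sum_congr rfl fun y _ => ?_
      rw [Finset.prod_insert ha, Function.update_self]
      have : ∏ i ∈ P, kk A μ (Function.update z a x i) y = ∏ i ∈ P, kk A μ (z i) y := by
        refine Finset.prod_congr rfl fun i hi => ?_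
        rw [Function.update_of_ne]
        rintro rfl
        exact ha hi
      rw [this]
      ring
    simp only [e1]
    rw [Finset.sum_comm]
    unfold hQ
    refine Finset.sum_congr rfl fun y _ => ?_
    rw [← Finset.mul_sum]
    by_cases hy : c y = side a
    · obtain ⟨i, hi⟩ := hP
      have : ∏ i ∈ P, kk A μ (z i) y = 0 := by
        refine Finset.prod_eq_zero hi (kk_alt h ?_)
        rw [side_of_M hz i, hsd i hi, hy]
      rw [this]
      ring
    · rw [kk_sum h a hy, mul_one]

/-- marginals of the star laws -/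
theorem hh_marg (h : Rev A μ c) {P P' : Finset V} (hPP : P ⊆ P')
    (hsd : ∀ i ∈ P', ∀ j ∈ P', side i = side j) {f : (V → S) → ℝ} (hf : DepOn P f) :
    EM side μ c (fun z => hh A μ P' z * f z) = EM side μ c (fun z => hh A μ P z * f z) := by
  have key : ∀ D : Finset V, Disjoint P D → (∀ i ∈ P ∪ D, ∀ j ∈ P ∪ D, side i = side j) →
      EM side μ c (fun z => hh A μ (P ∪ D) z * f z) = EM side μ c (fun z => hh A μ P z * f z) := by
    intro D
    induction D using Finset.induction_on with
    | empty => intro _ _; rw [union_empty]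
    | insert a D ha ih =>
      intro hdis hsd'
      rw [Finset.disjoint_insert_right] at hdis
      have haP : a ∉ P ∪ D := by
        rw [mem_union, not_or]
        exact ⟨hdis.1, ha⟩
      rw [Finset.union_insert] at hsd' ⊢
      rw [← ih hdis.2 fun i hi j hj => hsd' i (mem_insert_of_mem hi) j (mem_insert_of_mem hj)]
      have e1 : EM side μ c (fun z => hh A μ (insert a (P ∪ D)) z * f z) =
          EM side μ c (fun z => f z * hh A μ (insert a (P ∪ D)) z) :=
        EM_congr fun z _ => mul_comm _ _
      have e2 : EM side μ c (fun z => hh A μ (P ∪ D) z * f z) =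
          EM side μ c (fun z => f z * hh A μ (P ∪ D) z) :=
        EM_congr fun z _ => mul_comm _ _
      rw [e1, e2]
      exact EM_int h haP (hf.mono Finset.subset_union_left) fun z hz _ =>
        hh_int h haP (fun i hi => hsd' i (mem_insert_of_mem hi) a (mem_insert_self _ _)) hz
  have := key (P' \ P) Finset.disjoint_sdiff (by
    rw [Finset.union_sdiff_of_subset hPP]
    exact hsd)
  rwa [Finset.union_sdiff_of_subset hPP] at this

theorem hh_perm {σ : Equiv.Perm V} {Q : Finset V} (hσ : ∀ v, v ∉ Q → σ v = v) (z : V → S) :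
    hh A μ Q (z ∘ σ) = hh A μ Q z := by
  unfold hh
  split_ifs
  · exact hQ_perm hσ z
  · rfl

/-- the relative entropy of a star law -/
noncomputable def dd (side : V → Bool) (A : Matrix S S ℝ) (μ : S → ℝ) (c : S → Bool)
    (P : Finset V) : ℝ := EM side μ c (fun z => hh A μ P z * Real.log (hh A μ P z))

/-- relative entropies of star laws depend on the size only and are convex -/
theorem exists_d (h : Rev A μ c) {A₀ : Finset V} (hsd : ∀ i ∈ A₀, ∀ j ∈ A₀, side i = side j) :
    ∃ d : ℕ → ℝ, (∀ P ⊆ A₀, dd side A μ c P = d P.card) ∧ d 0 = 0 ∧ d 1 = 0 ∧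
      ∀ k, k + 2 ≤ A₀.card → 2 * d (k + 1) ≤ d k + d (k + 2) := by
  have hρ : ∀ z : V → S, 0 ≤ hh A μ A₀ z := hh_nonneg h A₀
  have hone : EM side μ c (hh A μ A₀) = 1 := by
    have := hh_marg (side := side) h (Finset.empty_subset A₀) hsd (f := fun _ => 1)
      (fun _ _ _ => rfl)
    simp only [mul_one, hh_empty] at this
    exact this.trans (EM_one h)
  have hmarg : ∀ P ⊆ A₀, ∀ f : (V → S) → ℝ, DepOn P f →
      EM side μ c (fun z => hh A μ A₀ z * f z) = EM side μ c (fun z => hh A μ P z * f z) :=
    fun P hP f hf => hh_marg h hP hsd hf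
  have hlog : ∀ P ⊆ A₀, EM side μ c (fun z => hh A μ A₀ z * Real.log (hh A μ P z)) =
      dd side A μ c P := fun P hP => hmarg P hP _ (by
    intro z z' hz
    show Real.log (hh A μ P z) = Real.log (hh A μ P z')
    rw [depOn_hh P z z' hz])
  have hDD : ∀ P ⊆ A₀, DD side μ c (hh A μ A₀) P = dd side A μ c P := fun P hP => by
    rw [DD_eq (side := side) (c := c) h (depOn_hh P) (hmarg P hP), hlog P hP]
  have hsym : Symm side μ c (hh A μ A₀) A₀ A₀ :=
    symm_of_dens (D := hh A μ A₀) (Finset.Subset.refl _) (fun f _ => rfl)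
      fun σ hσ z => hh_perm hσ z
  obtain ⟨d, hd, d0, d1, dc⟩ := exists_dd h hρ hone hsym hsd (fun P hP hPn => by
    rw [hDD P hP, ← hlog P hP]
    unfold MM
    exact EM_congr fun z _ => by rw [hh_of P hPn])
  exact ⟨d, fun P hP => by rw [← hDD P hP, hd P hP], d0, d1, dc⟩

open Classical in
/-- the earlier neighbours -/
noncomputable def earl (K : SimpleGraph V) (r : V → ℕ) (U : Finset V) (a : V) : Finset V :=
  U.filter fun u => K.Adj a u ∧ r u < r a

theorem mem_earl {K : SimpleGraph V} {r : V → ℕ} {U : Finset V} {a u : V} :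
    u ∈ earl K r U a ↔ u ∈ U ∧ K.Adj a u ∧ r u < r a := by
  classical
  simp [earl]

/-- cliques -/
def Cq (K : SimpleGraph V) (P : Finset V) : Prop := ∀ u ∈ P, ∀ v ∈ P, u ≠ v → K.Adj u v

omit [Fintype V] [DecidableEq V] in
theorem Cq.mono {K : SimpleGraph V} {P P' : Finset V} (h : Cq K P) (hP : P' ⊆ P) : Cq K P' :=
  fun u hu v hv huv => h u (hP hu) v (hP hv) huv

/-- a law of the states of `U` whose restrictions to cliques are star laws -/
structure ChLaw (side : V → Bool) (A : Matrix S S ℝ) (μ : S → ℝ) (c : S → Bool)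
    (K : SimpleGraph V) (U : Finset V) (ρ L : (V → S) → ℝ) (F : ℝ) : Prop where
  dep : DepOn U ρ
  depL : DepOn U L
  nonneg : ∀ z, 0 ≤ ρ z
  nonnegL : ∀ z, 0 ≤ L z
  mul : ∀ z, ρ z * L z ≤ 1
  pos : ∀ z, ρ z ≠ 0 → 0 < L z
  one : EM side μ c ρ = 1
  log : F ≤ EM side μ c (fun z => ρ z * Real.log (L z))
  marg : ∀ P ⊆ U, Cq K P → ∀ f : (V → S) → ℝ, DepOn P f →
    EM side μ c (fun z => ρ z * f z) = EM side μ c (fun z => hh A μ P z * f z)

theorem ChLaw.empty (h : Rev A μ c) (K : SimpleGraph V) :
    ChLaw side A μ c K (∅ : Finset V) (fun _ => 1) (fun _ => 1) 0 where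
  dep := fun _ _ _ => rfl
  depL := fun _ _ _ => rfl
  nonneg := fun _ => zero_le_one
  nonnegL := fun _ => zero_le_one
  mul := fun _ => by rw [mul_one]
  pos := fun _ _ => zero_lt_one
  one := EM_one h
  log := by
    simp only [Real.log_one, mul_zero]
    exact EM_nonneg h fun _ => le_rfl
  marg := by
    intro P hP _ f _
    rw [Finset.subset_empty.1 hP]
    simp only [hh_empty]

theorem ChLaw.insert (h : Rev A μ c) {K : SimpleGraph V} {U R : Finset V}
    {ρ L : (V → S) → ℝ} {F : ℝ} (hl : ChLaw side A μ c K U ρ L F) {a : V} (ha : a ∉ U)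
    (hsd : ∀ i ∈ insert a U, ∀ j ∈ insert a U, side i = side j) (hR : R ⊆ U) (hRc : Cq K R)
    (hRa : ∀ u ∈ U, K.Adj a u → u ∈ R) (hRc' : ∀ u ∈ R, K.Adj a u) :
    ∃ ρ' L' : (V → S) → ℝ, ChLaw side A μ c K (insert a U) ρ' L'
      (F + (dd side A μ c R - dd side A μ c (insert a R))) := by
  have haR : a ∉ R := fun hm => ha (hR hm)
  let φ : (V → S) → ℝ := fun z => hh A μ (Insert.insert a R) z * (hh A μ R z)⁻¹
  have hφdep : DepOn (Insert.insert a R) φ := by
    intro z z' hz
    show hh A μ (Insert.insert a R) z * (hh A μ R z)⁻¹ =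
      hh A μ (Insert.insert a R) z' * (hh A μ R z')⁻¹
    rw [depOn_hh _ z z' hz, depOn_hh R z z' fun u hu => hz u (mem_insert_of_mem hu)]
  have hφ0 : ∀ z, 0 ≤ φ z := fun z => mul_nonneg (hh_nonneg h _ z) (inv_nonneg.2 (hh_nonneg h _ z))
  have hRpos : ∀ z, (∏ v, mm side μ c v (z v)) ≠ 0 → ρ z ≠ 0 → hh A μ R z ≠ 0 :=
    fun z hz h0 => ne_of_law h hl.nonneg (depOn_hh R) (hl.marg R hR hRc) hz h0
  have hsum : ∀ z, (∏ v, mm side μ c v (z v)) ≠ 0 → hh A μ R z ≠ 0 →
      ∑ x, mm side μ c a x * φ (Function.update z a x) = 1 := by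
    intro z hz h0
    have e1 : ∀ x, mm side μ c a x * φ (Function.update z a x) =
        (mm side μ c a x * hh A μ (Insert.insert a R) (Function.update z a x)) *
          (hh A μ R z)⁻¹ := by
      intro x
      show mm side μ c a x * (hh A μ (Insert.insert a R) (Function.update z a x) *
        (hh A μ R (Function.update z a x))⁻¹) = _
      rw [(depOn_hh R).update haR]
      ring
    simp only [e1]
    rw [← Finset.sum_mul, hh_int h haR (fun i hi => hsd i (mem_insert_of_mem (hR hi)) a
      (mem_insert_self _ _)) hz, mul_inv_cancel₀ h0]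
  have hper : ∀ f : (V → S) → ℝ, DepOn U f →
      EM side μ c (fun z => ρ z * φ z * f z) = EM side μ c (fun z => ρ z * f z) := by
    intro f hf
    have e1 : EM side μ c (fun z => ρ z * φ z * f z) =
        EM side μ c (fun z => (ρ z * f z) * φ z) := EM_congr fun z _ => by ring
    rw [e1, EM_int h ha (hl.dep.mul hf) (r := φ) (g := fun _ => 1)]
    · exact EM_congr fun z _ => by ring
    · intro z hz h0
      exact hsum z hz (hRpos z hz (left_ne_zero_of_mul h0))
  -- the law of the new clique
  have hnew : ∀ f : (V → S) → ℝ, DepOn (Insert.insert a R) f →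
      EM side μ c (fun z => ρ z * φ z * f z) =
        EM side μ c (fun z => hh A μ (Insert.insert a R) z * f z) := by
    intro f hf
    let r : (V → S) → ℝ := fun z => φ z * f z
    have hr : DepOn (Insert.insert a R) r := hφdep.mul hf
    let g : (V → S) → ℝ := fun z => ∑ x, mm side μ c a x * r (Function.update z a x)
    have hg : DepOn R g := by
      intro z z' hz
      refine Finset.sum_congr rfl fun x _ => ?_
      congr 1
      refine hr _ _ fun u hu => ?_
      by_cases huv : u = a
      · rw [huv, Function.update_self, Function.update_self]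
      · rw [Function.update_of_ne huv, Function.update_of_ne huv]
        exact hz u ((mem_insert.1 hu).resolve_left huv)
    have e1 : EM side μ c (fun z => ρ z * φ z * f z) =
        EM side μ c (fun z => ρ z * r z) := EM_congr fun z _ => mul_assoc _ _ _
    have e2 : EM side μ c (fun z => ρ z * r z) = EM side μ c (fun z => ρ z * g z) :=
      EM_push h ha hl.dep r
    have e3 : EM side μ c (fun z => hh A μ R z * r z) =
        EM side μ c (fun z => hh A μ R z * g z) := EM_push h haR (depOn_hh R) r
    rw [e1, e2, hl.marg R hR hRc g hg, ← e3]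
    -- remove the zeros
    have hnz : ∀ z, (∏ v, mm side μ c v (z v)) ≠ 0 → hh A μ R z = 0 →
        hh A μ (Insert.insert a R) z = 0 := by
      intro z hz h0
      rcases Finset.eq_empty_or_nonempty R with rfl | hRn
      · rw [hh_empty] at h0
        exact absurd h0 one_ne_zero
      · by_contra hne
        rw [hh_of _ (Finset.insert_nonempty a R)] at hne
        obtain ⟨x, -, hx⟩ := Finset.exists_ne_zero_of_sum_ne_zero hne
        have hx' := right_ne_zero_of_mul hx
        rw [Finset.prod_ne_zero_iff] at hx'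
        have := hQ_pos h (Q := R) (z := z) (x := x) fun i hi => hx' i (mem_insert_of_mem hi)
        rw [hh_of _ hRn] at h0
        exact this.ne' h0
    refine EM_congr fun z hz => ?_
    show hh A μ R z * (hh A μ (Insert.insert a R) z * (hh A μ R z)⁻¹ * f z) = _
    by_cases h0 : hh A μ R z = 0
    · rw [h0, hnz z hz h0]
      ring
    · field_simp
  let L' : (V → S) → ℝ := fun z => L z * (hh A μ R z * (hh A μ (Insert.insert a R) z)⁻¹)
  refine ⟨fun z => ρ z * φ z, L', ?_⟩
  have hcl : Cq K (Insert.insert a R) := by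
    intro u hu v hv huv
    rcases mem_insert.1 hu with hu1 | hu1
    · rcases mem_insert.1 hv with hv1 | hv1
      · exact absurd (hu1.trans hv1.symm) huv
      · rw [hu1]
        exact hRc' v hv1
    · rcases mem_insert.1 hv with hv1 | hv1
      · rw [hv1]
        exact (hRc' u hu1).symm
      · exact hRc u hu1 v hv1 huv
  have hposR : ∀ z, ρ z * φ z ≠ 0 → 0 < hh A μ R z := fun z h0 =>
    lt_of_le_of_ne (hh_nonneg h R z) (Ne.symm (inv_eq_zero.not.1
      (right_ne_zero_of_mul (right_ne_zero_of_mul h0))))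
  have hposR' : ∀ z, ρ z * φ z ≠ 0 → 0 < hh A μ (Insert.insert a R) z := fun z h0 =>
    lt_of_le_of_ne (hh_nonneg h _ z) (Ne.symm
      (left_ne_zero_of_mul (right_ne_zero_of_mul h0)))
  have hRU : Insert.insert a R ⊆ Insert.insert a U := Finset.insert_subset_insert a hR
  refine ⟨?_, ?_, ?_, ?_, ?_, ?_, ?_, ?_, ?_⟩
  · exact (hl.dep.mono (Finset.subset_insert _ _)).mul (hφdep.mono hRU)
  · intro z z' hz
    show L z * (hh A μ R z * (hh A μ (Insert.insert a R) z)⁻¹) =
      L z' * (hh A μ R z' * (hh A μ (Insert.insert a R) z')⁻¹)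
    rw [hl.depL z z' fun u hu => hz u (mem_insert_of_mem hu),
      depOn_hh R z z' fun u hu => hz u (mem_insert_of_mem (hR hu)),
      depOn_hh _ z z' fun u hu => hz u (hRU hu)]
  · exact fun z => mul_nonneg (hl.nonneg z) (hφ0 z)
  · exact fun z => mul_nonneg (hl.nonnegL z) (mul_nonneg (hh_nonneg h _ z)
      (inv_nonneg.2 (hh_nonneg h _ z)))
  · intro z
    have e1 : ρ z * φ z * L' z = (ρ z * L z) * ((hh A μ R z * (hh A μ R z)⁻¹) *
        (hh A μ (Insert.insert a R) z * (hh A μ (Insert.insert a R) z)⁻¹)) := by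
      show ρ z * (hh A μ (Insert.insert a R) z * (hh A μ R z)⁻¹) *
        (L z * (hh A μ R z * (hh A μ (Insert.insert a R) z)⁻¹)) = _
      ring
    show ρ z * φ z * L' z ≤ 1
    rw [e1]
    have h1 : hh A μ R z * (hh A μ R z)⁻¹ ≤ 1 := mul_inv_le_one
    have h2 : hh A μ (Insert.insert a R) z * (hh A μ (Insert.insert a R) z)⁻¹ ≤ 1 :=
      mul_inv_le_one
    have h3 : 0 ≤ hh A μ R z * (hh A μ R z)⁻¹ :=
      mul_nonneg (hh_nonneg h _ z) (inv_nonneg.2 (hh_nonneg h _ z))
    have h4 : 0 ≤ hh A μ (Insert.insert a R) z * (hh A μ (Insert.insert a R) z)⁻¹ :=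
      mul_nonneg (hh_nonneg h _ z) (inv_nonneg.2 (hh_nonneg h _ z))
    exact mul_le_one₀ (hl.mul z) (mul_nonneg h3 h4) (mul_le_one₀ h1 h4 h2)
  · exact fun z h0 => mul_pos (hl.pos z (left_ne_zero_of_mul h0)) (mul_pos (hposR z h0)
      (inv_pos.2 (hposR' z h0)))
  · have := hper (fun _ => 1) (fun _ _ _ => rfl)
    simp only [mul_one] at this
    show EM side μ c (fun z => ρ z * φ z) = 1
    rw [this]
    exact hl.one
  · have hdL : DepOn U (fun z : V → S => Real.log (L z) + Real.log (hh A μ R z)) := by
      intro z z' hz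
      show Real.log (L z) + Real.log (hh A μ R z) = Real.log (L z') + Real.log (hh A μ R z')
      rw [hl.depL z z' hz, depOn_hh R z z' fun u hu => hz u (hR hu)]
    have hdh : DepOn (Insert.insert a R)
        (fun z : V → S => Real.log (hh A μ (Insert.insert a R) z)) := by
      intro z z' hz
      show Real.log (hh A μ (Insert.insert a R) z) = Real.log (hh A μ (Insert.insert a R) z')
      rw [depOn_hh _ z z' hz]
    have hdR : DepOn R (fun z : V → S => Real.log (hh A μ R z)) := by
      intro z z' hz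
      show Real.log (hh A μ R z) = Real.log (hh A μ R z')
      rw [depOn_hh _ z z' hz]
    have e1 : EM side μ c (fun z => ρ z * φ z * Real.log (L' z)) =
        EM side μ c (fun z => ρ z * φ z * (Real.log (L z) + Real.log (hh A μ R z))) -
        EM side μ c (fun z => ρ z * φ z * Real.log (hh A μ (Insert.insert a R) z)) := by
      rw [← EM_sub]
      refine EM_congr fun z hz => ?_
      by_cases h0 : ρ z * φ z = 0
      · rw [h0]
        ring
      · show ρ z * φ z * Real.log (L z * (hh A μ R z * (hh A μ (Insert.insert a R) z)⁻¹)) = _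
        rw [Real.log_mul (hl.pos z (left_ne_zero_of_mul h0)).ne'
          (mul_pos (hposR z h0) (inv_pos.2 (hposR' z h0))).ne',
          Real.log_mul (hposR z h0).ne' (inv_pos.2 (hposR' z h0)).ne', Real.log_inv]
        ring
    have e2 : EM side μ c (fun z => ρ z * (Real.log (L z) + Real.log (hh A μ R z))) =
        EM side μ c (fun z => ρ z * Real.log (L z)) +
          EM side μ c (fun z => ρ z * Real.log (hh A μ R z)) := by
      rw [← EM_add]
      exact EM_congr fun z _ => mul_add _ _ _
    rw [e1, hper _ hdL, hnew _ hdh, e2, hl.marg R hR hRc _ hdR]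
    have := hl.log
    unfold dd
    linarith
  · intro P hP hPc f hf
    by_cases haP : a ∈ P
    · have hPR : P ⊆ Insert.insert a R := by
        intro u hu
        rcases mem_insert.1 (hP hu) with rfl | hu'
        · exact mem_insert_self _ _
        · refine mem_insert_of_mem (hRa u hu' (hPc a haP u hu ?_))
          rintro rfl
          exact ha hu'
      rw [hnew f (hf.mono hPR)]
      exact hh_marg h hPR (fun i hi j hj => hsd i (hRU hi) j (hRU hj)) hf
    · have hPU : P ⊆ U := by
        intro u hu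
        rcases mem_insert.1 (hP hu) with rfl | hu'
        · exact absurd hu haP
        · exact hu'
      rw [hper f (hf.mono hPU)]
      exact hl.marg P hPU hPc f hf

/-- the chordal law -/
theorem chordal_law (h : Rev A μ c) {K : SimpleGraph V} {r : V → ℕ} {A₀ : Finset V}
    (hsd : ∀ i ∈ A₀, ∀ j ∈ A₀, side i = side j)
    (hr : ∀ u ∈ A₀, ∀ v ∈ A₀, r u = r v → u = v)
    (hK : ∀ a ∈ A₀, ∀ u ∈ A₀, ∀ v ∈ A₀, K.Adj a u → K.Adj a v → r u < r a → r v < r a →
      u ≠ v → K.Adj u v) :
    ∃ ρ L : (V → S) → ℝ, ChLaw side A μ c K A₀ ρ L (∑ a ∈ A₀,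
      (dd side A μ c (earl K r A₀ a) - dd side A μ c (insert a (earl K r A₀ a)))) := by
  induction A₀ using Finset.induction_on_max_value r with
  | empty =>
    rw [Finset.sum_empty]
    exact ⟨_, _, ChLaw.empty h K⟩
  | insert a s ha hmax ih =>
    obtain ⟨ρ, L, hl⟩ := ih (fun i hi j hj => hsd i (mem_insert_of_mem hi) j
      (mem_insert_of_mem hj)) (fun u hu v hv => hr u (mem_insert_of_mem hu) v
      (mem_insert_of_mem hv)) (fun b hb u hu v hv => hK b (mem_insert_of_mem hb) u
      (mem_insert_of_mem hu) v (mem_insert_of_mem hv))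
    have hlt : ∀ u ∈ s, r u < r a := by
      intro u hu
      refine lt_of_le_of_ne (hmax u hu) fun he => ha ?_
      rw [← hr u (mem_insert_of_mem hu) a (mem_insert_self _ _) he]
      exact hu
    have e1 : earl K r (insert a s) a = earl K r s a := by
      ext u
      rw [mem_earl, mem_earl, mem_insert]
      constructor
      · rintro ⟨rfl | h1, h2, h3⟩
        · exact absurd h3 (lt_irrefl _)
        · exact ⟨h1, h2, h3⟩
      · rintro ⟨h1, h2, h3⟩
        exact ⟨Or.inr h1, h2, h3⟩
    have e2 : ∀ b ∈ s, earl K r (insert a s) b = earl K r s b := by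
      intro b hb
      ext u
      rw [mem_earl, mem_earl, mem_insert]
      constructor
      · rintro ⟨rfl | h1, h2, h3⟩
        · exact absurd h3 (not_lt.2 (hmax b hb))
        · exact ⟨h1, h2, h3⟩
      · rintro ⟨h1, h2, h3⟩
        exact ⟨Or.inr h1, h2, h3⟩
    have hRs : earl K r s a ⊆ s := fun u hu => (mem_earl.1 hu).1
    obtain ⟨ρ', L', hl'⟩ := hl.insert h ha hsd hRs (fun u hu v hv huv => by
      obtain ⟨u1, u2, u3⟩ := mem_earl.1 hu
      obtain ⟨v1, v2, v3⟩ := mem_earl.1 hv
      exact hK a (mem_insert_self _ _) u (mem_insert_of_mem u1) v (mem_insert_of_mem v1)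
        u2 v2 u3 v3 huv) (fun u hu hau => mem_earl.2 ⟨hu, hau, hlt u hu⟩)
      (fun u hu => (mem_earl.1 hu).2.1)
    refine ⟨ρ', L', ?_⟩
    rw [Finset.sum_insert ha, e1, Finset.sum_congr rfl fun b hb => by rw [e2 b hb], add_comm]
    exact hl'

end HubD1

end Vale.Agent.P050.Books
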