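import Vale.Agent.P050.R2.H545.HubD1

/-!
# P050: twins and dominated vertices over a chordal law with a virtual hub
-/

set_option linter.unusedSectionVars false

namespace Vale.Agent.P050.Books

open Finset Vale.Agent.P050.Lev Vale.Agent.P050.Ears

section HubD2

variable {V S : Type} [Fintype V] [DecidableEq V] [Fintype S]
  {side : V → Bool} {A : Matrix S S ℝ} {μ : S → ℝ} {c : S → Bool}

/-- a law for the graph inside `U`, with density `ρ`, a factor `L` such that `ρ L` is at most the
product over the edges, and the lower bound `F` for the mean logarithm of `L` -/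
structure LawG (H : SimpleGraph V) (side : V → Bool) (A : Matrix S S ℝ) (μ : S → ℝ)
    (c : S → Bool) (U : Finset V) (ρ L : (V → S) → ℝ) (F : ℝ) : Prop where
  dep : DepOn U ρ
  depL : DepOn U L
  nonneg : ∀ z, 0 ≤ ρ z
  mul : ∀ z, (∏ v, mm side μ c v (z v)) ≠ 0 → ρ z * L z ≤ edgeW H side A μ U z
  pos : ∀ z, (∏ v, mm side μ c v (z v)) ≠ 0 → ρ z ≠ 0 → 0 < L z
  one : EM side μ c ρ = 1
  log : F ≤ EM side μ c (fun z => ρ z * Real.log (L z))

theorem edgeW_nonneg (h : Rev A μ c) (H : SimpleGraph V) (U : Finset V) (z : V → S) :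
    0 ≤ edgeW H side A μ U z := by
  unfold edgeW
  exact Finset.prod_nonneg fun _ _ => kk_nonneg h _ _

/-- a new vertex -/
theorem LawG.attach (h : Rev A μ c) {H : SimpleGraph V}
    (hs : ∀ u v, H.Adj u v → side u ≠ side v) {U R : Finset V} {v : V} {ρ L : (V → S) → ℝ}
    {F G : ℝ} (hl : LawG H side A μ c U ρ L F) (hv : v ∉ U) (hRn : R.Nonempty) (hRU : R ⊆ U)
    (hR : ∀ x ∈ U, H.Adj v x ↔ x ∈ R)
    (hp : ∀ z : V → S, (∏ v, mm side μ c v (z v)) ≠ 0 → ρ z ≠ 0 → 0 < hQ A μ R z)
    (hlog : G ≤ MM side A μ c ρ R) :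
    LawG H side A μ c (insert v U) (fun z => ρ z * rr A μ R v z)
      (fun z => L z * hQ A μ R z) (F + G) := by
  obtain ⟨i, hi⟩ := hRn
  have hsd : side i ≠ side v := (hs v i ((hR i (hRU hi)).2 hi)).symm
  refine ⟨?_, ?_, ?_, ?_, ?_, ?_, ?_⟩
  · exact (hl.dep.mono (Finset.subset_insert _ _)).mul (depOn_rr hRU)
  · exact (hl.depL.mono (Finset.subset_insert _ _)).mul
      ((depOn_hQ R).mono (hRU.trans (Finset.subset_insert _ _)))
  · exact fun z => mul_nonneg (hl.nonneg z) (rr_nonneg h R v z)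
  · intro z hz
    rw [edgeW_insert h hs hv hRU hR]
    have hk : 0 ≤ ∏ i ∈ R, kk A μ (z i) (z v) := Finset.prod_nonneg fun _ _ => kk_nonneg h _ _
    refine le_trans (le_of_eq ?_) (mul_le_mul_of_nonneg_right (hl.mul z hz) hk)
    by_cases h0 : ρ z = 0
    · rw [h0]
      ring
    · have hq := (hp z hz h0).ne'
      unfold rr
      field_simp
  · intro z hz h0
    exact mul_pos (hl.pos z hz (left_ne_zero_of_mul h0)) (hp z hz (left_ne_zero_of_mul h0))
  · have := persist h hl.dep hv hRU hi hsd hp (f := fun _ => (1 : ℝ)) (fun _ _ _ => rfl)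
    simp only [mul_one] at this
    rw [this]
    exact hl.one
  · have hlogs : DepOn U (fun z : V → S => Real.log (L z) + Real.log (hQ A μ R z)) := by
      intro z z' hz
      show Real.log (L z) + Real.log (hQ A μ R z) = Real.log (L z') + Real.log (hQ A μ R z')
      rw [hl.depL z z' hz, depOn_hQ R z z' fun u hu => hz u (hRU hu)]
    have e1 : EM side μ c (fun z => ρ z * rr A μ R v z * Real.log (L z * hQ A μ R z)) =
        EM side μ c (fun z => ρ z * rr A μ R v z *
          (Real.log (L z) + Real.log (hQ A μ R z))) := by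
      refine EM_congr fun z hz => ?_
      by_cases h0 : ρ z = 0
      · rw [h0]
        ring
      · rw [Real.log_mul (hl.pos z hz h0).ne' (hp z hz h0).ne']
    rw [e1, persist h hl.dep hv hRU hi hsd hp hlogs]
    have e2 : EM side μ c (fun z => ρ z * (Real.log (L z) + Real.log (hQ A μ R z))) =
        EM side μ c (fun z => ρ z * Real.log (L z)) + MM side A μ c ρ R := by
      unfold MM
      rw [← EM_add]
      exact EM_congr fun z _ => mul_add _ _ _
    rw [e2]
    exact add_le_add hl.log hlog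

/-- a law for the whole graph gives the Sidorenko inequality for reversible chains -/
theorem LawG.sum_wt_ge (h : Rev A μ c) {H : SimpleGraph V} {ρ L : (V → S) → ℝ} {F : ℝ}
    (hl : LawG H side A μ c univ ρ L F) (hF : 0 ≤ F) : 1 ≤ ∑ z : V → S, wt H side A μ c z := by
  classical
  have e1 : ∑ z : V → S, wt H side A μ c z = EM side μ c (edgeW H side A μ univ) := by
    unfold EM
    refine Finset.sum_congr rfl fun z _ => ?_
    by_cases hz : ∀ v, c (z v) = side v
    · rw [wt_pos hz]
      have hM : (∏ v, mm side μ c v (z v)) = ∏ v, μ (z v) := by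
        refine Finset.prod_congr rfl fun v _ => ?_
        unfold mm
        exact if_pos (hz v)
      rw [hM]
      congr 1
      unfold edgeW
      have : (sideEdges H side).filter (fun e => e.1 ∈ (univ : Finset V) ∧
          e.2 ∈ (univ : Finset V)) = sideEdges H side := by
        refine Finset.filter_true_of_mem fun e _ => ⟨mem_univ _, mem_univ _⟩
      rw [this]
      rfl
    · rw [wt_neg hz]
      have : (∏ v, mm side μ c v (z v)) = 0 := by
        push Not at hz
        obtain ⟨v, hv⟩ := hz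
        refine Finset.prod_eq_zero (mem_univ v) ?_
        unfold mm
        exact if_neg hv
      rw [this, zero_mul]
  rw [e1]
  have h0 : EM side μ c (fun z => ρ z * L z) ≤ EM side μ c (edgeW H side A μ univ) :=
    EM_mono h fun z hz => hl.mul z hz
  have h1 : EM side μ c (fun z => ρ z * Real.log (L z)) ≤
      EM side μ c (fun z => ρ z * L z - ρ z) := by
    refine EM_mono h fun z hz => ?_
    by_cases h0 : ρ z = 0
    · rw [h0, zero_mul, zero_mul, sub_zero]
    · have h2 := Real.log_le_sub_one_of_pos (hl.pos z hz h0)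
      have h3 := mul_le_mul_of_nonneg_left h2 (hl.nonneg z)
      linarith
  rw [EM_sub, hl.one] at h1
  have := hl.log
  linarith

/-- The restrictions of the law to cliques of `K` in `A₀` are star laws, and the vertices `u` of
`Z` are independent random common neighbours of the cliques `Q u`. -/
structure FanK (side : V → Bool) (A : Matrix S S ℝ) (μ : S → ℝ) (c : S → Bool)
    (K : SimpleGraph V) (U : Finset V) (ρ : (V → S) → ℝ) (A₀ Z : Finset V)
    (Q : V → Finset V) : Prop where
  sub : A₀ ∪ Z ⊆ U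
  qs : ∀ u ∈ Z, Q u ⊆ A₀
  qn : ∀ u ∈ Z, (Q u).Nonempty
  qc : ∀ u ∈ Z, Cq K (Q u)
  sd : ∀ u ∈ Z, ∀ i ∈ A₀, side i ≠ side u
  pos : ∀ P ⊆ A₀, P.Nonempty → Cq K P → ∀ z, (∏ v, mm side μ c v (z v)) ≠ 0 → ρ z ≠ 0 →
    0 < hQ A μ P z
  kp : ∀ z, (∏ v, mm side μ c v (z v)) ≠ 0 → ρ z ≠ 0 → ∀ u ∈ Z, ∀ i ∈ Q u,
    0 < kk A μ (z i) (z u)
  star : ∀ P ⊆ A₀, P.Nonempty → Cq K P → MM side A μ c ρ P = DD side μ c ρ P
  fan : ∀ T ⊆ A₀, ∀ R ⊆ Z, (∀ u ∈ R, Q u ⊆ T) → DD side μ c ρ (T ∪ R) =
    DD side μ c ρ T + ∑ u ∈ R, (∑ i ∈ Q u, ee side A μ c ρ i u - MM side A μ c ρ (Q u))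

/-- a fan is kept when a new vertex is attached -/
theorem FanK.keep (h : Rev A μ c) {K : SimpleGraph V} {U R : Finset V} {v i : V}
    {ρ : (V → S) → ℝ} (hdep : DepOn U ρ) (hv : v ∉ U) (hR : R ⊆ U) (hi : i ∈ R)
    (hsd : side i ≠ side v)
    (hp : ∀ z : V → S, (∏ v, mm side μ c v (z v)) ≠ 0 → ρ z ≠ 0 → 0 < hQ A μ R z)
    {A₀ Z : Finset V} {Q : V → Finset V} (hf : FanK side A μ c K U ρ A₀ Z Q) :
    FanK side A μ c K (insert v U) (fun z => ρ z * rr A μ R v z) A₀ Z Q where
  sub := hf.sub.trans (Finset.subset_insert _ _)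
  qs := hf.qs
  qn := hf.qn
  qc := hf.qc
  sd := hf.sd
  pos := fun P hP hPn hPc z hz h0 => hf.pos P hP hPn hPc z hz (left_ne_zero_of_mul h0)
  kp := fun z hz h0 => hf.kp z hz (left_ne_zero_of_mul h0)
  star := by
    intro P hP hPn hPc
    have hPU : P ⊆ U := hP.trans (Finset.subset_union_left.trans hf.sub)
    rw [MM_keep h hdep hv hR hi hsd hp hPU, DD_keep h hdep hv hR hi hsd hp hPU]
    exact hf.star P hP hPn hPc
  fan := by
    intro T hT R' hR' hQT
    have hTU : T ⊆ U := hT.trans (Finset.subset_union_left.trans hf.sub)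
    have hRU : R' ⊆ U := hR'.trans (Finset.subset_union_right.trans hf.sub)
    rw [DD_keep h hdep hv hR hi hsd hp (Finset.union_subset hTU hRU),
      DD_keep h hdep hv hR hi hsd hp hTU, hf.fan T hT R' hR' hQT]
    congr 1
    refine Finset.sum_congr rfl fun u hu => ?_
    have hQU : Q u ⊆ U := (hQT u hu).trans hTU
    rw [MM_keep h hdep hv hR hi hsd hp hQU]
    congr 1
    exact Finset.sum_congr rfl fun j hj =>
      (ee_keep h hdep hv hR hi hsd hp (hQU hj) (hRU hu)).symm

/-- a new twin -/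
theorem FanK.add (h : Rev A μ c) {K : SimpleGraph V} {U R : Finset V} {v i : V}
    {ρ : (V → S) → ℝ} (hρ : ∀ z, 0 ≤ ρ z) (hdep : DepOn U ρ) (hv : v ∉ U) (hRn : R.Nonempty)
    (hRc : Cq K R) (hi : i ∈ R) {A₀ Z : Finset V} {Q : V → Finset V} (hRA : R ⊆ A₀)
    (hQv : Q v = R) (hsd : ∀ i ∈ A₀, side i ≠ side v)
    (hf : FanK side A μ c K U ρ A₀ Z Q) :
    FanK side A μ c K (insert v U) (fun z => ρ z * rr A μ R v z) A₀ (insert v Z) Q := by
  have hA₀U : A₀ ⊆ U := Finset.subset_union_left.trans hf.sub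
  have hRU : R ⊆ U := hRA.trans hA₀U
  have hp := hf.pos R hRA hRn hRc
  have hk := hf.keep h hdep hv hRU hi (hsd i (hRA hi)) hp
  have hvZ : v ∉ Z := fun hm => hv (hf.sub (mem_union_right _ hm))
  refine ⟨?_, ?_, ?_, ?_, ?_, hk.pos, ?_, hk.star, ?_⟩
  · rw [Finset.union_insert]
    exact Finset.insert_subset_insert _ hf.sub
  · intro u hu
    rcases mem_insert.1 hu with rfl | hu
    · rw [hQv]
      exact hRA
    · exact hf.qs u hu
  · intro u hu
    rcases mem_insert.1 hu with rfl | hu
    · rw [hQv]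
      exact hRn
    · exact hf.qn u hu
  · intro u hu
    rcases mem_insert.1 hu with rfl | hu
    · rw [hQv]
      exact hRc
    · exact hf.qc u hu
  · intro u hu
    rcases mem_insert.1 hu with rfl | hu
    · exact hsd
    · exact hf.sd u hu
  · intro z hz h0 u hu j hj
    rcases mem_insert.1 hu with rfl | hu
    · rw [hQv] at hj
      refine lt_of_le_of_ne (kk_nonneg h _ _) fun hk => right_ne_zero_of_mul h0 ?_
      unfold rr
      rw [Finset.prod_eq_zero hj hk.symm, zero_mul]
    · exact hf.kp z hz (left_ne_zero_of_mul h0) u hu j hj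
  · intro T hT R' hR' hQT
    by_cases hvR : v ∈ R'
    · obtain ⟨R'', hvR'', rfl⟩ : ∃ R'' : Finset V, v ∉ R'' ∧ insert v R'' = R' :=
        ⟨R'.erase v, Finset.notMem_erase _ _, Finset.insert_erase hvR⟩
      have hR''Z : R'' ⊆ Z := by
        intro x hx
        rcases mem_insert.1 (hR' (mem_insert_of_mem hx)) with rfl | hx'
        · exact absurd hx hvR''
        · exact hx'
      have hRT : R ⊆ T := by
        rw [← hQv]
        exact hQT v (mem_insert_self _ _)
      have hTR : T ∪ R'' ⊆ U := Finset.union_subset (hT.trans hA₀U)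
        (hR''Z.trans (Finset.subset_union_right.trans hf.sub))
      have h1 := DD_new h hρ hdep hv hRU hi (hsd i (hRA hi)) hp hTR
      have e1 : R ∪ insert v (T ∪ R'') = T ∪ insert v R'' := by
        rw [Finset.union_insert, Finset.union_insert, ← Finset.union_assoc,
          Finset.union_eq_right.2 hRT]
      have e2 : R ∪ (T ∪ R'') = T ∪ R'' := by
        rw [← Finset.union_assoc, Finset.union_eq_right.2 hRT]
      rw [e1, e2] at h1
      rw [h1, Finset.sum_insert hvR'', hQv,
        MM_keep h hdep hv hRU hi (hsd i (hRA hi)) hp hRU]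
      have h2 := hk.fan T hT R'' hR''Z fun u hu => hQT u (mem_insert_of_mem hu)
      rw [DD_keep h hdep hv hRU hi (hsd i (hRA hi)) hp hTR] at h2
      rw [h2]
      ring
    · have hR'Z : R' ⊆ Z := by
        intro x hx
        rcases mem_insert.1 (hR' hx) with rfl | hx'
        · exact absurd hx hvR
        · exact hx'
      exact hk.fan T hT R' hR'Z hQT

/-- THE LOWER BOUND: the mean logarithm of the codegree of twins of the hub which have the set
`C` of common trace vertices -/
theorem FanK.low (h : Rev A μ c) {U : Finset V} {ρ : (V → S) → ℝ} (hρ : ∀ z, 0 ≤ ρ z)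
    (hone : EM side μ c ρ = 1) {A₀ Z : Finset V} {Q : V → Finset V}
    {K : SimpleGraph V} (hf : FanK side A μ c K U ρ A₀ Z Q) {R T C : Finset V} (hR : R ⊆ Z)
    (hRn : R.Nonempty) (hC : ∀ u ∈ R, C ⊆ Q u) (hTA : T ⊆ A₀) (ht : ∀ u ∈ R, Q u ⊆ T) :
    ∑ u ∈ R, (DD side μ c ρ (Q u) - DD side μ c ρ (Q u \ C)) -
      (DD side μ c ρ T - DD side μ c ρ (T \ C)) ≤ C.card * MM side A μ c ρ R := by
  obtain ⟨r, hr⟩ := id hRn
  have hCT : C ⊆ T := (hC r hr).trans (ht r hr)
  let P := T \ C
  have hPA : P ⊆ A₀ := Finset.sdiff_subset.trans hTA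
  have haZ : ∀ a ∈ T, a ∉ Z := fun a ha hm => hf.sd a hm a (hTA ha) rfl
  have haR : ∀ a ∈ T, a ∉ R := fun a ha hm => haZ a ha (hR hm)
  -- (i)
  have h1 : ∀ C' : Finset V, C' ⊆ C → DD side μ c ρ (P ∪ R) +
      (∑ u ∈ R, ∑ a ∈ C', ee side A μ c ρ a u - C'.card * MM side A μ c ρ R) ≤
        DD side μ c ρ (C' ∪ (P ∪ R)) := by
    intro C'
    induction C' using Finset.induction_on with
    | empty =>
      intro _
      simp
    | insert a C' ha ih =>
      intro hsub
      have haC : a ∈ C := hsub (mem_insert_self _ _)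
      have h3 := ih ((Finset.subset_insert _ _).trans hsub)
      have haPR : a ∉ C' ∪ (P ∪ R) := by
        rw [mem_union, mem_union, not_or, not_or]
        exact ⟨ha, fun hm => (mem_sdiff.1 hm).2 haC, haR a (hCT haC)⟩
      have h4 := DD_kl (side := side) h hρ hone haPR (R := R)
        (Finset.subset_union_right.trans Finset.subset_union_right) ⟨r, hr⟩
        (fun u hu => (hf.sd u (hR hu) a (hTA (hCT haC))).symm) (fun z hz h0 u hu => by
          rw [kk_symm h]
          exact hf.kp z hz h0 u (hR hu) a (hC u hu haC))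
      have e1 : ∑ u ∈ R, ∑ x ∈ insert a C', ee side A μ c ρ x u =
          ∑ u ∈ R, ee side A μ c ρ u a + ∑ u ∈ R, ∑ x ∈ C', ee side A μ c ρ x u := by
        rw [← Finset.sum_add_distrib]
        refine Finset.sum_congr rfl fun u _ => ?_
        rw [Finset.sum_insert ha, ee_symm h ρ a u]
      rw [e1, Finset.card_insert_of_notMem ha, Finset.insert_union]
      push_cast
      linarith
  have h1C := h1 C (Finset.Subset.refl _)
  have e1 : C ∪ (P ∪ R) = T ∪ R := by
    rw [← Finset.union_assoc, Finset.union_sdiff_of_subset hCT]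
  rw [e1] at h1C
  -- (ii)
  have h2 : ∀ R' : Finset V, R' ⊆ R → DD side μ c ρ P + ∑ u ∈ R',
      (∑ i ∈ Q u \ C, ee side A μ c ρ i u - DD side μ c ρ (Q u \ C)) ≤
        DD side μ c ρ (P ∪ R') := by
    intro R'
    induction R' using Finset.induction_on with
    | empty =>
      intro _
      rw [Finset.sum_empty, add_zero, Finset.union_empty]
    | insert u R' hu ih =>
      intro hsub
      have huR : u ∈ R := hsub (mem_insert_self _ _)
      have h3 := ih ((Finset.subset_insert _ _).trans hsub)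
      have hQP : Q u \ C ⊆ P := Finset.sdiff_subset_sdiff (ht u huR) (Finset.Subset.refl _)
      have huA : u ∉ A₀ := fun hm => hf.sd u (hR huR) u hm rfl
      have huW : u ∉ P ∪ R' := by
        rw [mem_union, not_or]
        exact ⟨fun hm => huA (hPA hm), hu⟩
      rw [Finset.sum_insert hu, Finset.union_insert]
      rcases Finset.eq_empty_or_nonempty (Q u \ C) with h4 | h4
      · rw [h4, Finset.sum_empty, DD_empty (side := side) h hone]
        have h5 := DD_mono (side := side) h hρ hone (Finset.subset_insert u (P ∪ R'))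
        linarith
      · have h5 := DD_kl (side := side) h hρ hone huW (R := Q u \ C)
          (hQP.trans Finset.subset_union_left) h4
          (fun i hi => hf.sd u (hR huR) i (hPA (hQP hi)))
          (fun z hz h0 i hi => hf.kp z hz h0 u (hR huR) i (mem_sdiff.1 hi).1)
        rw [hf.star _ (hQP.trans hPA) h4 ((hf.qc u (hR huR)).mono Finset.sdiff_subset)] at h5
        linarith
  have h3 := h2 R (Finset.Subset.refl _)
  -- (iii)
  have h4 := hf.fan T hTA R hR ht
  have h5 : ∀ u ∈ R, ∑ i ∈ Q u, ee side A μ c ρ i u - MM side A μ c ρ (Q u) =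
      (∑ i ∈ C, ee side A μ c ρ i u + ∑ i ∈ Q u \ C, ee side A μ c ρ i u) -
        DD side μ c ρ (Q u) := by
    intro u hu
    rw [hf.star (Q u) (hf.qs u (hR hu)) (hf.qn u (hR hu)) (hf.qc u (hR hu)),
      ← Finset.sum_sdiff (hC u hu), add_comm]
  rw [Finset.sum_congr rfl h5, Finset.sum_sub_distrib, Finset.sum_add_distrib] at h4
  rw [Finset.sum_sub_distrib] at h3
  rw [Finset.sum_sub_distrib]
  show _ - (DD side μ c ρ T - DD side μ c ρ P) ≤ _
  linarith

/-- the fan without twins -/
theorem fanK_base (h : Rev A μ c) {K : SimpleGraph V} {A₀ : Finset V} {ρ L : (V → S) → ℝ}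
    {F : ℝ} (hl : ChLaw side A μ c K A₀ ρ L F) (Q : V → Finset V) :
    FanK side A μ c K A₀ ρ A₀ ∅ Q where
  sub := by rw [Finset.union_empty]
  qs := by simp
  qn := by simp
  qc := by simp
  sd := by simp
  pos := by
    intro P hP hPn hPc z hz h0
    have h1 := ne_of_law h hl.nonneg (depOn_hh P) (hl.marg P hP hPc) hz h0
    rw [hh_of P hPn] at h1
    exact lt_of_le_of_ne (hQ_nonneg h P z) (Ne.symm h1)
  kp := by simp
  star := by
    intro P hP hPn hPc
    rw [DD_eq (side := side) (c := c) h (depOn_hh P) (hl.marg P hP hPc)]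
    unfold MM
    exact EM_congr fun z _ => by rw [hh_of P hPn]
  fan := by
    intro T _ R hR _
    rw [Finset.subset_empty.1 hR]
    simp

theorem ChLaw.dd_eq (h : Rev A μ c) {K : SimpleGraph V} {A₀ : Finset V} {ρ L : (V → S) → ℝ}
    {F : ℝ} (hl : ChLaw side A μ c K A₀ ρ L F) {P : Finset V} (hP : P ⊆ A₀) (hPc : Cq K P) :
    DD side μ c ρ P = dd side A μ c P := by
  rw [DD_eq (side := side) (c := c) h (depOn_hh P) (hl.marg P hP hPc)]
  exact hl.marg P hP hPc _ (by
    intro z z' hz
    show Real.log (hh A μ P z) = Real.log (hh A μ P z')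
    rw [depOn_hh P z z' hz])

/-- a chordal law is a law for the graph inside a set of vertices of one side -/
theorem ChLaw.lawG {H : SimpleGraph V} (hs : ∀ u v, H.Adj u v → side u ≠ side v)
    {K : SimpleGraph V} {A₀ : Finset V}
    (hsd : ∀ i ∈ A₀, ∀ j ∈ A₀, side i = side j) {ρ L : (V → S) → ℝ} {F : ℝ}
    (hl : ChLaw side A μ c K A₀ ρ L F) : LawG H side A μ c A₀ ρ L F where
  dep := hl.dep
  depL := hl.depL
  nonneg := hl.nonneg
  mul := by
    classical
    intro z _
    refine (hl.mul z).trans (le_of_eq ?_)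
    unfold edgeW
    rw [Finset.prod_eq_one]
    rintro ⟨a, b⟩ he
    simp only [sideEdges, mem_filter, mem_univ, true_and] at he
    obtain ⟨⟨hab, _, _⟩, ha, hb⟩ := he
    exact absurd (hsd a ha b hb) (hs a b hab)
  pos := fun z _ h0 => hl.pos z h0
  one := hl.one
  log := hl.log

end HubD2

end Vale.Agent.P050.Books
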