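import Vale.Agent.P050.R2.H545.HubD2
import Vale.Agent.P050.R2.H545.HubC3

/-!
# P050: dominated vertices over chordal laws, the counting theorem
-/

set_option linter.unusedSectionVars false

namespace Vale.Agent.P050.Books

open Finset Vale.Agent.P050.Lev Vale.Agent.P050.Ears

/-- THE BALANCE with the costs of the law of `A₀` -/
theorem balanceK {V : Type} [DecidableEq V] (d : ℕ → ℝ) (d0 : d 0 = 0) (d1 : d 1 = 0) (M : ℕ)
    (hd : ∀ k, k + 2 ≤ M + 1 → 2 * d (k + 1) ≤ d k + d (k + 2)) (A₀ Z W : Finset V)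
    (s q t c : V → ℕ) (N : V → Finset V) (hs : ∀ a ∈ A₀, s a ≤ M) (hZ : ∀ z ∈ Z, q z ≤ M + 1)
    (hN : ∀ w ∈ W, ∀ z ∈ N w, c w ≤ q z ∧ q z ≤ M + 1) (ht : ∀ w ∈ W, c w ≤ t w ∧ t w ≤ M + 1)
    (hle : ∀ m, 2 ≤ m → ((A₀.filter fun a => m ≤ s a + 1).card : ℝ) +
      ∑ w ∈ W, ((min (c w) (t w + 1 - m) : ℕ) : ℝ) / c w ≤
      ∑ z ∈ Z, ((q z + 1 - m : ℕ) : ℝ) +
        ∑ w ∈ W, ∑ z ∈ N w, ((min (c w) (q z + 1 - m) : ℕ) : ℝ) / c w) :
    0 ≤ ∑ a ∈ A₀, (d (s a) - d (s a + 1)) + ∑ z ∈ Z, d (q z) +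
      ∑ w ∈ W, (∑ z ∈ N w, (d (q z) - d (q z - c w)) - (d (t w) - d (t w - c w))) / c w := by
  let ε : ℕ → ℝ := fun j => d (j + 2) - 2 * d (j + 1) + d j
  have hε : ∀ j ∈ range M, 0 ≤ ε j := by
    intro j hj
    have := hd j (by have := mem_range.1 hj; omega)
    show 0 ≤ d (j + 2) - 2 * d (j + 1) + d j
    linarith
  have h0 : ∑ a ∈ A₀, (d (s a) - d (s a + 1)) =
      ∑ j ∈ range M, ε j * (-((A₀.filter fun a => j + 2 ≤ s a + 1).card : ℝ)) := by
    have e1 : ∀ a ∈ A₀, d (s a) - d (s a + 1) = ∑ j ∈ range M, ε j *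
        (-((if j + 2 ≤ s a + 1 then 1 else 0 : ℕ) : ℝ)) := by
      intro a ha
      rw [← neg_sub, seq_inc d d0 d1 M (s a) (hs a ha), ← Finset.sum_neg_distrib]
      exact Finset.sum_congr rfl fun j _ => by ring
    rw [Finset.sum_congr rfl e1, Finset.sum_comm]
    refine Finset.sum_congr rfl fun j _ => ?_
    rw [← Finset.mul_sum, Finset.sum_neg_distrib, Finset.card_filter, Nat.cast_sum]
  have h1 : ∑ z ∈ Z, d (q z) =
      ∑ j ∈ range M, ε j * ∑ z ∈ Z, ((q z + 1 - (j + 2) : ℕ) : ℝ) := by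
    rw [Finset.sum_congr rfl fun z hz => seq_val d d0 d1 M (q z) (hZ z hz), Finset.sum_comm]
    exact Finset.sum_congr rfl fun j _ => (Finset.mul_sum _ _ _).symm
  have h2 : ∀ w ∈ W, (∑ z ∈ N w, (d (q z) - d (q z - c w)) - (d (t w) - d (t w - c w))) / c w =
      ∑ j ∈ range M, ε j * (∑ z ∈ N w, ((min (c w) (q z + 1 - (j + 2)) : ℕ) : ℝ) / c w -
        ((min (c w) (t w + 1 - (j + 2)) : ℕ) : ℝ) / c w) := by
    intro w hw
    rw [Finset.sum_congr rfl fun z hz => seq_dif d d0 d1 M (q z) (c w) (hN w hw z hz).2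
      (hN w hw z hz).1, Finset.sum_comm, seq_dif d d0 d1 M (t w) (c w) (ht w hw).2 (ht w hw).1,
      ← Finset.sum_sub_distrib, Finset.sum_div]
    refine Finset.sum_congr rfl fun j _ => ?_
    rw [← Finset.mul_sum, ← mul_sub, mul_div_assoc, sub_div, Finset.sum_div]
  rw [h0, h1, Finset.sum_congr rfl h2, Finset.sum_comm, ← Finset.sum_add_distrib,
    ← Finset.sum_add_distrib]
  refine Finset.sum_nonneg fun j hj => ?_
  have h4 := hle (j + 2) (by omega)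
  rw [← Finset.mul_sum, ← mul_add, ← mul_add]
  refine mul_nonneg (hε j hj) ?_
  rw [Finset.sum_sub_distrib]
  linarith

section HubD3

variable {V S : Type} [Fintype V] [DecidableEq V] [Fintype S]
  {side : V → Bool} {A : Matrix S S ℝ} {μ : S → ℝ} {c : S → Bool}

/-- the law of `A₀` and its twins -/
theorem fanK_law (h : Rev A μ c) {H : SimpleGraph V}
    (hs : ∀ u v, H.Adj u v → side u ≠ side v) {σ : Bool} {A₀ : Finset V} {K : SimpleGraph V}
    {r : V → ℕ} (hσ : ∀ a ∈ A₀, side a = σ) (hr : ∀ u ∈ A₀, ∀ v ∈ A₀, r u = r v → u = v)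
    (hK : ∀ a ∈ A₀, ∀ u ∈ A₀, ∀ v ∈ A₀, K.Adj a u → K.Adj a v → r u < r a → r v < r a →
      u ≠ v → K.Adj u v) :
    ∃ d : ℕ → ℝ, d 0 = 0 ∧ d 1 = 0 ∧
      (∀ k, k + 2 ≤ A₀.card → 2 * d (k + 1) ≤ d k + d (k + 2)) ∧
      ∀ Z : Finset V, (∀ z ∈ Z, side z ≠ σ ∧ (tr H A₀ z).Nonempty ∧ Cq K (tr H A₀ z)) →
      ∃ ρ L : (V → S) → ℝ, LawG H side A μ c (A₀ ∪ Z) ρ L
          (∑ a ∈ A₀, (d (earl K r A₀ a).card - d ((earl K r A₀ a).card + 1)) +
            ∑ z ∈ Z, d (tr H A₀ z).card) ∧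
        FanK side A μ c K (A₀ ∪ Z) ρ A₀ Z (tr H A₀) ∧
        ∀ P ⊆ A₀, Cq K P → DD side μ c ρ P = d P.card := by
  have hsA : ∀ i ∈ A₀, ∀ j ∈ A₀, side i = side j := fun i hi j hj =>
    (hσ i hi).trans (hσ j hj).symm
  obtain ⟨d, hd, d0, d1, dc⟩ := exists_d (A := A) (μ := μ) (c := c) h hsA
  obtain ⟨ρ₀, L₀, hl₀⟩ := chordal_law h hsA hr hK
  refine ⟨d, d0, d1, dc, ?_⟩
  intro Z
  induction Z using Finset.induction_on with
  | empty =>
    intro _
    have e1 : ∑ a ∈ A₀, (dd side A μ c (earl K r A₀ a) -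
        dd side A μ c (insert a (earl K r A₀ a))) =
        ∑ a ∈ A₀, (d (earl K r A₀ a).card - d ((earl K r A₀ a).card + 1)) := by
      refine Finset.sum_congr rfl fun a ha => ?_
      have hE : earl K r A₀ a ⊆ A₀ := fun u hu => (mem_earl.1 hu).1
      have haE : a ∉ earl K r A₀ a := fun hm => lt_irrefl _ (mem_earl.1 hm).2.2
      rw [hd _ hE, hd _ (Finset.insert_subset ha hE), Finset.card_insert_of_notMem haE]
    rw [Finset.union_empty, Finset.sum_empty, add_zero, ← e1]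
    exact ⟨ρ₀, L₀, hl₀.lawG hs hsA, fanK_base h hl₀ _, fun P hP hPc => by
      rw [hl₀.dd_eq h hP hPc, hd P hP]⟩
  | insert v Z hvZ ih =>
    intro hZ
    obtain ⟨ρ, L, hl, hf, hD⟩ := ih fun z hz => hZ z (mem_insert_of_mem hz)
    obtain ⟨hvs, hvn, hvc⟩ := hZ v (mem_insert_self _ _)
    have hvA : v ∉ A₀ := fun hm => hvs (hσ v hm)
    have hv : v ∉ A₀ ∪ Z := by
      rw [mem_union, not_or]
      exact ⟨hvA, hvZ⟩
    have hRA : tr H A₀ v ⊆ A₀ := fun i hi => (mem_tr.1 hi).1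
    have hAU : A₀ ⊆ A₀ ∪ Z := Finset.subset_union_left
    have hRU : tr H A₀ v ⊆ A₀ ∪ Z := hRA.trans hAU
    have hR : ∀ x ∈ A₀ ∪ Z, H.Adj v x ↔ x ∈ tr H A₀ v := by
      intro x hx
      rw [mem_tr]
      constructor
      · intro hvx
        refine ⟨?_, hvx⟩
        rcases mem_union.1 hx with hx | hx
        · exact hx
        · exact absurd (side_eq3 hvs.symm (hZ x (mem_insert_of_mem hx)).1.symm) (hs _ _ hvx)
      · exact fun hx => hx.2
    have hsd : ∀ i ∈ A₀, side i ≠ side v := fun i hi => by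
      rw [hσ i hi]
      exact hvs.symm
    have hp := hf.pos _ hRA hvn hvc
    obtain ⟨i, hi⟩ := id hvn
    have hG : d (tr H A₀ v).card ≤ MM side A μ c ρ (tr H A₀ v) := by
      rw [hf.star _ hRA hvn hvc, hD _ hRA hvc]
    rw [Finset.union_insert, Finset.sum_insert hvZ, add_comm (d _), ← add_assoc]
    refine ⟨_, _, hl.attach h hs hv hvn hRU hR hp hG,
      hf.add h hl.nonneg hl.dep hv hvn hvc hi hRA rfl hsd, fun P hP hPc => ?_⟩
    rw [DD_keep h hl.dep hv hRU hi (hsd i (hRA hi)) hp (hP.trans hAU)]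
    exact hD P hP hPc

/-- THE COUNTING THEOREM for chains -/
theorem hubK_law (h : Rev A μ c) {H : SimpleGraph V}
    (hs : ∀ u v, H.Adj u v → side u ≠ side v) {σ : Bool} {A₀ : Finset V} {K : SimpleGraph V}
    {r : V → ℕ} (hσ : ∀ a ∈ A₀, side a = σ) (hr : ∀ u ∈ A₀, ∀ v ∈ A₀, r u = r v → u = v)
    (hK : ∀ a ∈ A₀, ∀ u ∈ A₀, ∀ v ∈ A₀, K.Adj a u → K.Adj a v → r u < r a → r v < r a →
      u ≠ v → K.Adj u v)
    (hz : ∀ z, side z ≠ σ → (tr H A₀ z).Nonempty ∧ Cq K (tr H A₀ z))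
    (hw : ∀ w, side w = σ → w ∉ A₀ → ∃ u, H.Adj w u) (C N T : V → Finset V)
    (hC : ∀ w, side w = σ → w ∉ A₀ → (C w).Nonempty ∧
      ∀ a ∈ C w, a ∈ A₀ ∧ ∀ u, H.Adj w u → H.Adj u a)
    (hN : ∀ w u, u ∈ N w ↔ H.Adj w u)
    (hT : ∀ w x, x ∈ T w ↔ x ∈ A₀ ∧ ∃ u, H.Adj w u ∧ H.Adj u x)
    (hTc : ∀ w, side w = σ → w ∉ A₀ → Cq K (T w)) (Z W : Finset V)
    (hZ : ∀ z, z ∈ Z ↔ side z ≠ σ) (hW : ∀ w, w ∈ W ↔ side w = σ ∧ w ∉ A₀)
    (hle : ∀ m, 2 ≤ m → ((A₀.filter fun a => m ≤ (earl K r A₀ a).card + 1).card : ℝ) +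
      ∑ w ∈ W, ((min (C w).card ((T w).card + 1 - m) : ℕ) : ℝ) / (C w).card ≤
        ∑ z ∈ Z, (((tr H A₀ z).card + 1 - m : ℕ) : ℝ) +
        ∑ w ∈ W, ∑ z ∈ N w, ((min (C w).card ((tr H A₀ z).card + 1 - m) : ℕ) : ℝ) /
          (C w).card) :
    1 ≤ ∑ z : V → S, wt H side A μ c z := by
  obtain ⟨d, d0, d1, dc, hfan⟩ := fanK_law (A := A) (μ := μ) (c := c) h hs hσ hr hK
  have hNZ : ∀ w, side w = σ → N w ⊆ Z := by
    intro w hws u hu
    rw [hZ, ← hws]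
    exact (hs _ _ ((hN w u).1 hu)).symm
  have hCR : ∀ w, side w = σ → w ∉ A₀ → ∀ u ∈ N w, C w ⊆ tr H A₀ u := by
    intro w hws hwA u hu a ha
    obtain ⟨h1, h2⟩ := (hC w hws hwA).2 a ha
    exact mem_tr.2 ⟨h1, h2 u ((hN w u).1 hu)⟩
  have hTA : ∀ w, T w ⊆ A₀ := fun w x hx => ((hT w x).1 hx).1
  have htR : ∀ w, ∀ u ∈ N w, tr H A₀ u ⊆ T w := by
    intro w u hu x hx
    obtain ⟨h1, h2⟩ := mem_tr.1 hx
    exact (hT w x).2 ⟨h1, u, (hN w u).1 hu, h2⟩
  have key : ∀ W' : Finset V, (∀ w ∈ W', side w = σ ∧ w ∉ A₀) →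
      ∃ ρ L : (V → S) → ℝ, LawG H side A μ c (A₀ ∪ Z ∪ W') ρ L
        (∑ a ∈ A₀, (d (earl K r A₀ a).card - d ((earl K r A₀ a).card + 1)) +
          ∑ z ∈ Z, d (tr H A₀ z).card + ∑ w ∈ W', (∑ z ∈ N w,
          (d (tr H A₀ z).card - d ((tr H A₀ z).card - (C w).card)) -
            (d (T w).card - d ((T w).card - (C w).card))) / (C w).card) ∧
      FanK side A μ c K (A₀ ∪ Z ∪ W') ρ A₀ Z (tr H A₀) ∧
      ∀ P ⊆ A₀, Cq K P → DD side μ c ρ P = d P.card := by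
    intro W'
    induction W' using Finset.induction_on with
    | empty =>
      intro _
      rw [Finset.union_empty, Finset.sum_empty, add_zero]
      exact hfan Z fun z hzZ => ⟨(hZ z).1 hzZ, hz z ((hZ z).1 hzZ)⟩
    | insert w W' hwW ih =>
      intro hW'
      obtain ⟨ρ, L, hl, hf, hD⟩ := ih fun x hx => hW' x (mem_insert_of_mem hx)
      obtain ⟨hws, hwA⟩ := hW' w (mem_insert_self _ _)
      obtain ⟨r', hwr⟩ := hw w hws hwA
      obtain ⟨⟨a, ha⟩, -⟩ := hC w hws hwA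
      have hwU : w ∉ A₀ ∪ Z ∪ W' := by
        simp only [mem_union, not_or]
        exact ⟨⟨hwA, fun hm => (hZ w).1 hm hws⟩, hwW⟩
      have hRZ := hNZ w hws
      have hAU : A₀ ⊆ A₀ ∪ Z ∪ W' := Finset.subset_union_left.trans Finset.subset_union_left
      have hRU : N w ⊆ A₀ ∪ Z ∪ W' := fun u hu =>
        mem_union_left _ (mem_union_right _ (hRZ hu))
      have hrR : r' ∈ N w := (hN w r').2 hwr
      have hCw := hCR w hws hwA
      have hp : ∀ z : V → S, (∏ v, mm side μ c v (z v)) ≠ 0 → ρ z ≠ 0 →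
          0 < hQ A μ (N w) z :=
        fun z hz h0 => Books.hQ_pos h (x := z a) fun u hu => by
          have := hf.kp z hz h0 u (hRZ hu) a (hCw u hu ha)
          rw [kk_symm h] at this
          exact this.ne'
      have hsdR : ∀ i ∈ N w, side i ≠ side w := fun i hi => (hs _ _ ((hN w i).1 hi)).symm
      have hG := hf.low h hl.nonneg hl.one hRZ ⟨r', hrR⟩ hCw (hTA w) (htR w)
      have hTcw := hTc w hws hwA
      have e1 : ∑ u ∈ N w, (DD side μ c ρ (tr H A₀ u) -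
          DD side μ c ρ (tr H A₀ u \ C w)) = ∑ z ∈ N w,
            (d (tr H A₀ z).card - d ((tr H A₀ z).card - (C w).card)) := by
        refine Finset.sum_congr rfl fun u hu => ?_
        have h1 : tr H A₀ u ⊆ A₀ := (htR w u hu).trans (hTA w)
        have h2 : Cq K (tr H A₀ u) := hTcw.mono (htR w u hu)
        rw [hD _ h1 h2, hD _ (Finset.sdiff_subset.trans h1) (h2.mono Finset.sdiff_subset),
          Finset.card_sdiff_of_subset (hCw u hu)]
      have hCT : C w ⊆ T w := (hCw r' hrR).trans (htR w r' hrR)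
      rw [e1, hD _ (hTA w) hTcw, hD _ (Finset.sdiff_subset.trans (hTA w))
        (hTcw.mono Finset.sdiff_subset), Finset.card_sdiff_of_subset hCT, mul_comm] at hG
      have hc0 : (0 : ℝ) < (C w).card := Nat.cast_pos.2 (Finset.card_pos.2 ⟨a, ha⟩)
      have hG' := (div_le_iff₀ hc0).2 hG
      rw [Finset.union_insert, Finset.sum_insert hwW, add_comm (_ / _) (∑ w ∈ W', _),
        ← add_assoc]
      refine ⟨_, _, hl.attach h hs hwU ⟨r', hrR⟩ hRU (fun x _ => (hN w x).symm) hp hG',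
        hf.keep h hl.dep hwU hRU hrR (hsdR r' hrR) hp, fun P hP hPc => ?_⟩
      rw [DD_keep h hl.dep hwU hRU hrR (hsdR r' hrR) hp (hP.trans hAU)]
      exact hD P hP hPc
  obtain ⟨ρ, L, hl, -, -⟩ := key W fun w hw => (hW w).1 hw
  have hU : A₀ ∪ Z ∪ W = univ := by
    ext x
    simp only [mem_union, hZ, hW, mem_univ, iff_true]
    by_cases h1 : side x = σ
    · by_cases h2 : x ∈ A₀
      · exact Or.inl (Or.inl h2)
      · exact Or.inr ⟨h1, h2⟩
    · exact Or.inl (Or.inr h1)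
  rw [hU] at hl
  refine hl.sum_wt_ge h ?_
  have hqA : ∀ z, (tr H A₀ z).card ≤ A₀.card := fun z =>
    Finset.card_le_card fun i hi => (mem_tr.1 hi).1
  by_cases hA : A₀.Nonempty
  · have hAc : 1 ≤ A₀.card := Finset.card_pos.2 hA
    obtain ⟨M, hM⟩ := Nat.exists_eq_add_of_le' hAc
    refine balanceK d d0 d1 M (fun k hk => dc k (by rw [hM]; exact hk)) A₀ Z W
      (fun a => (earl K r A₀ a).card) (fun z => (tr H A₀ z).card) (fun w => (T w).card)
      (fun w => (C w).card) N ?_ (fun z _ => hM ▸ hqA z) ?_ ?_ hle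
    · intro a ha
      have h1 : (insert a (earl K r A₀ a)).card ≤ A₀.card :=
        Finset.card_le_card (Finset.insert_subset ha fun u hu => (mem_earl.1 hu).1)
      rw [Finset.card_insert_of_notMem fun hm => lt_irrefl _ (mem_earl.1 hm).2.2, hM] at h1
      exact Nat.le_of_succ_le_succ h1
    · intro w hw' z hz'
      obtain ⟨hws, hwA⟩ := (hW w).1 hw'
      exact ⟨Finset.card_le_card (hCR w hws hwA z hz'), hM ▸ hqA z⟩
    · intro w hw'
      obtain ⟨hws, hwA⟩ := (hW w).1 hw'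
      obtain ⟨r', hwr⟩ := hw w hws hwA
      have hrR : r' ∈ N w := (hN w r').2 hwr
      refine ⟨Finset.card_le_card ((hCR w hws hwA r' hrR).trans (htR w r' hrR)), ?_⟩
      show (T w).card ≤ M + 1
      rw [← hM]
      exact Finset.card_le_card (hTA w)
  · rw [Finset.not_nonempty_iff_eq_empty] at hA
    have hZe : Z = ∅ := by
      rw [Finset.eq_empty_iff_forall_notMem]
      intro z hzZ
      obtain ⟨i, hi⟩ := (hz z ((hZ z).1 hzZ)).1
      have := (mem_tr.1 hi).1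
      rw [hA] at this
      exact Finset.notMem_empty _ this
    have hWe : W = ∅ := by
      rw [Finset.eq_empty_iff_forall_notMem]
      intro w hwW
      obtain ⟨hws, hwA⟩ := (hW w).1 hwW
      obtain ⟨⟨a, ha⟩, h2⟩ := hC w hws hwA
      have := (h2 a ha).1
      rw [hA] at this
      exact Finset.notMem_empty _ this
    rw [hZe, hWe, hA]
    simp

end HubD3

end Vale.Agent.P050.Books
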