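import Vale.Agent.P050.R2.H545.HubD3
import Vale.Agent.P050.R2.H545.HubC4

/-!
# P050: dominated vertices over chordal laws, the Sidorenko inequality
-/

namespace Vale.Agent.P050.Books

open Finset Vale.Agent.P050.Lev Vale.Agent.P050.Ears

/-- COUNTING THEOREM for dominated vertices over a chordal graph -/
theorem gsid_of_dom {V : Type} [Fintype V] [DecidableEq V] {H : SimpleGraph V}
    {side : V → Bool} (hs : ∀ u v, H.Adj u v → side u ≠ side v) (hiso : ∀ v, ∃ u, H.Adj v u)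
    (σ : Bool) (A₀ Z W : Finset V) (N : V → Finset V) (hσ : ∀ a ∈ A₀, side a = σ)
    (hZ : ∀ z, z ∈ Z ↔ side z ≠ σ) (hW : ∀ w, w ∈ W ↔ side w = σ ∧ w ∉ A₀)
    (hN : ∀ w z, z ∈ N w ↔ H.Adj w z) (K : SimpleGraph V) (r : V → ℕ)
    (hr : ∀ u ∈ A₀, ∀ v ∈ A₀, r u = r v → u = v)
    (hK : ∀ a ∈ A₀, ∀ u ∈ A₀, ∀ v ∈ A₀, K.Adj a u → K.Adj a v → r u < r a → r v < r a →
      u ≠ v → K.Adj u v) (p q t c : V → ℕ)
    (hp : ∀ a, p a = Nat.card {u : V // u ∈ A₀ ∧ K.Adj a u ∧ r u < r a})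
    (hq : ∀ z, q z = Nat.card {a : V // a ∈ A₀ ∧ H.Adj z a})
    (ht : ∀ w, t w = Nat.card {a : V // a ∈ A₀ ∧ ∃ z, H.Adj w z ∧ H.Adj z a})
    (hzK : ∀ z, side z ≠ σ → ∀ u ∈ A₀, ∀ v ∈ A₀, H.Adj z u → H.Adj z v → u ≠ v → K.Adj u v)
    (hwK : ∀ w ∈ W, ∀ u ∈ A₀, ∀ v ∈ A₀, (∃ z, H.Adj w z ∧ H.Adj z u) →
      (∃ z, H.Adj w z ∧ H.Adj z v) → u ≠ v → K.Adj u v)
    (hw : ∀ w ∈ W, 1 ≤ c w ∧
      c w ≤ Nat.card {a : V // a ∈ A₀ ∧ ∀ z, H.Adj w z → H.Adj z a})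
    (hle : ∀ m, 2 ≤ m → ((A₀.filter fun a => m ≤ p a + 1).card : ℝ) +
      ∑ w ∈ W, ((min (c w) (t w + 1 - m) : ℕ) : ℝ) / c w ≤
        ∑ z ∈ Z, ((q z + 1 - m : ℕ) : ℝ) +
          ∑ w ∈ W, ∑ z ∈ N w, ((min (c w) (q z + 1 - m) : ℕ) : ℝ) / c w) : GSid H side := by
  classical
  have hp' : ∀ a, (earl K r A₀ a).card = p a := fun a => by
    rw [hp, natCard_mem (earl K r A₀ a) _ fun u => mem_earl]
  have hq' : ∀ z, (tr H A₀ z).card = q z := fun z => by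
    rw [hq, natCard_mem (tr H A₀ z) _ fun a => mem_tr]
  let T : V → Finset V := fun w => A₀.filter fun a => ∃ z, H.Adj w z ∧ H.Adj z a
  have hT : ∀ w x, x ∈ T w ↔ x ∈ A₀ ∧ ∃ u, H.Adj w u ∧ H.Adj u x := fun w x => by
    simp [T]
  have ht' : ∀ w, (T w).card = t w := fun w => by
    rw [ht, natCard_mem (T w) _ (hT w)]
  have hCex : ∀ w, ∃ C : Finset V, w ∈ W → C.card = c w ∧
      ∀ a ∈ C, a ∈ A₀ ∧ ∀ z, H.Adj w z → H.Adj z a := by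
    intro w
    by_cases hwW : w ∈ W
    · let C₀ : Finset V := A₀.filter fun a => ∀ z, H.Adj w z → H.Adj z a
      have hC₀ : ∀ a, a ∈ C₀ ↔ a ∈ A₀ ∧ ∀ z, H.Adj w z → H.Adj z a := fun a => by simp [C₀]
      have h1 := (hw w hwW).2
      rw [natCard_mem C₀ _ hC₀] at h1
      obtain ⟨C, hC, hCc⟩ := Finset.exists_subset_card_eq h1
      exact ⟨C, fun _ => ⟨hCc, fun a ha => (hC₀ a).1 (hC ha)⟩⟩
    · exact ⟨∅, fun h => absurd h hwW⟩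
  choose C hC using hCex
  have hCn : ∀ w ∈ W, (C w).Nonempty := fun w hwW => by
    rw [← Finset.card_pos, (hC w hwW).1]
    exact (hw w hwW).1
  have hzn : ∀ z, side z ≠ σ → (tr H A₀ z).Nonempty := by
    intro z hzs
    obtain ⟨w, hzw⟩ := hiso z
    have hws : side w = σ := side_eq3 (hs _ _ hzw) hzs
    by_cases hwA : w ∈ A₀
    · exact ⟨w, mem_tr.2 ⟨hwA, hzw⟩⟩
    · have hwW : w ∈ W := (hW w).2 ⟨hws, hwA⟩
      obtain ⟨a, ha⟩ := hCn w hwW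
      obtain ⟨h1, h2⟩ := (hC w hwW).2 a ha
      exact ⟨a, mem_tr.2 ⟨h1, h2 z hzw.symm⟩⟩
  refine gsid_of_rev H side hs hiso ?_
  intro S _ _ _ A μ c' h
  refine hubK_law (side := side) (σ := σ) (A₀ := A₀) (K := K) (r := r) h hs hσ hr hK
    (fun z hzs => ⟨hzn z hzs, fun u hu v hv huv => ?_⟩) (fun w _ _ => hiso w) C N T
    (fun w h1 h2 => ⟨hCn w ((hW w).2 ⟨h1, h2⟩), (hC w ((hW w).2 ⟨h1, h2⟩)).2⟩) hN hT
    (fun w h1 h2 u hu v hv huv => ?_) Z W hZ hW (fun m hm => ?_)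
  · exact hzK z hzs u (mem_tr.1 hu).1 v (mem_tr.1 hv).1 (mem_tr.1 hu).2 (mem_tr.1 hv).2 huv
  · exact hwK w ((hW w).2 ⟨h1, h2⟩) u ((hT w u).1 hu).1 v ((hT w v).1 hv).1
      ((hT w u).1 hu).2 ((hT w v).1 hv).2 huv
  · have h1 := hle m hm
    have h0 : (A₀.filter fun a => m ≤ (earl K r A₀ a).card + 1) =
        A₀.filter fun a => m ≤ p a + 1 := Finset.filter_congr fun a _ => by rw [hp']
    have h2 : ∑ w ∈ W, ((min (C w).card ((T w).card + 1 - m) : ℕ) : ℝ) / (C w).card =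
        ∑ w ∈ W, ((min (c w) (t w + 1 - m) : ℕ) : ℝ) / c w :=
      Finset.sum_congr rfl fun w hw' => by rw [(hC w hw').1, ht']
    have h3 : ∑ w ∈ W, ∑ z ∈ N w, ((min (C w).card ((tr H A₀ z).card + 1 - m) : ℕ) : ℝ) /
        (C w).card = ∑ w ∈ W, ∑ z ∈ N w, ((min (c w) (q z + 1 - m) : ℕ) : ℝ) / c w :=
      Finset.sum_congr rfl fun w hw' => Finset.sum_congr rfl fun z _ => by
        rw [(hC w hw').1, hq']
    have h4 : ∑ z ∈ Z, (((tr H A₀ z).card + 1 - m : ℕ) : ℝ) =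
        ∑ z ∈ Z, ((q z + 1 - m : ℕ) : ℝ) :=
      Finset.sum_congr rfl fun z _ => by rw [hq']
    rw [h0, h2, h3, h4]
    exact h1

end Vale.Agent.P050.Books
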