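import Vale.Agent.P050.R2.H545.HubD4

/-!
# P050: ordered constructions, laws of a clique with its twins, placing a vertex
-/

set_option linter.unusedSectionVars false

namespace Vale.Agent.P050.Books

open Finset Vale.Agent.P050.Lev Vale.Agent.P050.Ears

section HubE1

variable {V S : Type} [Fintype V] [DecidableEq V] [Fintype S]
  {side : V → Bool} {A : Matrix S S ℝ} {μ : S → ℝ} {c : S → Bool}

/-- the density of a star law on `X` with twins `u` over `Q u` -/
noncomputable def gg (A : Matrix S S ℝ) (μ : S → ℝ) (Q : V → Finset V) (X D : Finset V)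
    (z : V → S) : ℝ := hh A μ X z * ∏ u ∈ D, rr A μ (Q u) u z

theorem depOn_gg {Q : V → Finset V} {X D : Finset V} (hQ : ∀ u ∈ D, Q u ⊆ X) :
    DepOn (X ∪ D) (gg A μ Q X D : (V → S) → ℝ) := by
  intro z z' hz
  unfold gg
  rw [depOn_hh X z z' fun u hu => hz u (mem_union_left _ hu)]
  congr 1
  refine Finset.prod_congr rfl fun u hu => ?_
  refine depOn_rr (hQ u hu) z z' fun v hv => ?_
  rcases mem_insert.1 hv with rfl | hv
  · exact hz v (mem_union_right _ hu)
  · exact hz v (mem_union_left _ hv)

theorem gg_nonneg (h : Rev A μ c) (Q : V → Finset V) (X D : Finset V) (z : V → S) :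
    0 ≤ gg A μ Q X D z :=
  mul_nonneg (hh_nonneg h _ _) (Finset.prod_nonneg fun _ _ => rr_nonneg h _ _ _)

theorem gg_empty (Q : V → Finset V) (X : Finset V) (z : V → S) :
    gg A μ Q X ∅ z = hh A μ X z := by
  unfold gg
  rw [Finset.prod_empty, mul_one]

theorem hQ_pos_of_hh (h : Rev A μ c) {P X : Finset V} (hP : P.Nonempty) (hPX : P ⊆ X)
    {z : V → S} (hz : hh A μ X z ≠ 0) : 0 < hQ A μ P z := by
  rw [hh_of X (hP.mono hPX)] at hz
  obtain ⟨x, -, hx⟩ := Finset.exists_ne_zero_of_sum_ne_zero hz
  have hx' := right_ne_zero_of_mul hx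
  rw [Finset.prod_ne_zero_iff] at hx'
  exact Books.hQ_pos h (x := x) fun i hi => hx' i (hPX hi)

theorem gg_pos (h : Rev A μ c) {Q : V → Finset V} {X D : Finset V}
    (hq : ∀ u ∈ D, Q u ⊆ X ∧ (Q u).Nonempty) {z : V → S} (hz : gg A μ Q X D z ≠ 0) :
    0 < hh A μ X z ∧ ∀ u ∈ D, 0 < hQ A μ (Q u) z ∧ (∀ j ∈ Q u, 0 < kk A μ (z j) (z u)) ∧
      0 < rr A μ (Q u) u z := by
  have h1 : hh A μ X z ≠ 0 := left_ne_zero_of_mul hz
  have h2 : ∏ u ∈ D, rr A μ (Q u) u z ≠ 0 := right_ne_zero_of_mul hz
  rw [Finset.prod_ne_zero_iff] at h2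
  refine ⟨lt_of_le_of_ne (hh_nonneg h _ _) (Ne.symm h1), fun u hu => ?_⟩
  have h3 := h2 u hu
  have h4 : ∏ j ∈ Q u, kk A μ (z j) (z u) ≠ 0 := left_ne_zero_of_mul h3
  rw [Finset.prod_ne_zero_iff] at h4
  exact ⟨hQ_pos_of_hh h (hq u hu).2 (hq u hu).1 h1,
    fun j hj => lt_of_le_of_ne (kk_nonneg h _ _) (Ne.symm (h4 j hj)),
    lt_of_le_of_ne (rr_nonneg h _ _ _) (Ne.symm h3)⟩

/-- twins can be dropped -/
theorem gg_dropD (h : Rev A μ c) {σ : Bool} {Q : V → Finset V} {X D D' : Finset V}
    (hX : ∀ x ∈ X, side x = σ) (hD : ∀ u ∈ D, side u ≠ σ)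
    (hQ : ∀ u ∈ D, Q u ⊆ X ∧ (Q u).Nonempty) (hDD : D' ⊆ D) {f : (V → S) → ℝ}
    (hf : DepOn (X ∪ D') f) :
    EM side μ c (fun z => gg A μ Q X D z * f z) =
      EM side μ c (fun z => gg A μ Q X D' z * f z) := by
  have key : ∀ E : Finset V, Disjoint D' E → (∀ u ∈ D' ∪ E, side u ≠ σ) →
      (∀ u ∈ D' ∪ E, Q u ⊆ X ∧ (Q u).Nonempty) →
      EM side μ c (fun z => gg A μ Q X (D' ∪ E) z * f z) =
        EM side μ c (fun z => gg A μ Q X D' z * f z) := by
    intro E
    induction E using Finset.induction_on with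
    | empty => intro _ _ _; rw [union_empty]
    | insert u E hu ih =>
      intro hdis hs' hQ'
      rw [Finset.disjoint_insert_right] at hdis
      rw [Finset.union_insert] at hs' hQ' ⊢
      rw [← ih hdis.2 (fun v hv => hs' v (mem_insert_of_mem hv))
        fun v hv => hQ' v (mem_insert_of_mem hv)]
      have huD : u ∉ D' ∪ E := by
        rw [mem_union, not_or]
        exact ⟨hdis.1, hu⟩
      have huX : u ∉ X := fun hm => hs' u (mem_insert_self _ _) (hX u hm)
      have huU : u ∉ X ∪ (D' ∪ E) := by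
        rw [mem_union, not_or]
        exact ⟨huX, huD⟩
      obtain ⟨hQu, i, hi⟩ := hQ' u (mem_insert_self _ _)
      have e1 : EM side μ c (fun z => gg A μ Q X (insert u (D' ∪ E)) z * f z) =
          EM side μ c (fun z => (gg A μ Q X (D' ∪ E) z * f z) * rr A μ (Q u) u z) := by
        refine EM_congr fun z _ => ?_
        unfold gg
        rw [Finset.prod_insert huD]
        ring
      have hdep : DepOn (X ∪ (D' ∪ E)) (fun z => gg A μ Q X (D' ∪ E) z * f z) :=
        (depOn_gg fun v hv => (hQ' v (mem_insert_of_mem hv)).1).mul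
          (hf.mono (Finset.union_subset_union_right Finset.subset_union_left))
      rw [e1, EM_int h huU hdep (r := rr A μ (Q u) u) (g := fun _ => 1)]
      · exact EM_congr fun z _ => mul_one _
      · intro z hz h0
        have h1 : hh A μ X z ≠ 0 := left_ne_zero_of_mul (left_ne_zero_of_mul h0)
        exact rr_sum h huX hQu hi (by
          rw [hX i (hQu hi)]
          exact (hs' u (mem_insert_self _ _)).symm) hz (hQ_pos_of_hh h ⟨i, hi⟩ hQu h1)
  have := key (D \ D') Finset.disjoint_sdiff (by
    rw [Finset.union_sdiff_of_subset hDD]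
    exact hD) (by
    rw [Finset.union_sdiff_of_subset hDD]
    exact hQ)
  rwa [Finset.union_sdiff_of_subset hDD] at this

/-- vertices of the star can be dropped -/
theorem gg_dropX (h : Rev A μ c) {σ : Bool} {Q : V → Finset V} {X X' D : Finset V}
    (hX : ∀ x ∈ X, side x = σ) (hD : ∀ u ∈ D, side u ≠ σ) (hQ : ∀ u ∈ D, Q u ⊆ X')
    (hXX : X' ⊆ X) {f : (V → S) → ℝ} (hf : DepOn (X' ∪ D) f) :
    EM side μ c (fun z => gg A μ Q X D z * f z) =
      EM side μ c (fun z => gg A μ Q X' D z * f z) := by
  have key : ∀ E : Finset V, Disjoint X' E → (∀ x ∈ X' ∪ E, side x = σ) →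
      EM side μ c (fun z => gg A μ Q (X' ∪ E) D z * f z) =
        EM side μ c (fun z => gg A μ Q X' D z * f z) := by
    intro E
    induction E using Finset.induction_on with
    | empty => intro _ _; rw [union_empty]
    | insert a E ha ih =>
      intro hdis hs'
      rw [Finset.disjoint_insert_right] at hdis
      rw [Finset.union_insert] at hs' ⊢
      rw [← ih hdis.2 fun v hv => hs' v (mem_insert_of_mem hv)]
      have haX : a ∉ X' ∪ E := by
        rw [mem_union, not_or]
        exact ⟨hdis.1, ha⟩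
      have haD : a ∉ D := fun hm => hD a hm (hs' a (mem_insert_self _ _))
      have haU : a ∉ (X' ∪ E) ∪ D := by
        rw [mem_union, not_or]
        exact ⟨haX, haD⟩
      have hdep : DepOn ((X' ∪ E) ∪ D) (fun z => (∏ u ∈ D, rr A μ (Q u) u z) * f z) := by
        refine DepOn.mul ?_
          (hf.mono (Finset.union_subset_union_left Finset.subset_union_left))
        intro z z' hz
        refine Finset.prod_congr rfl fun u hu => ?_
        refine depOn_rr (hQ u hu) z z' fun v hv => ?_
        rcases mem_insert.1 hv with rfl | hv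
        · exact hz v (mem_union_right _ hu)
        · exact hz v (mem_union_left _ (mem_union_left _ hv))
      have e1 : ∀ Y : Finset V, EM side μ c (fun z => gg A μ Q Y D z * f z) =
          EM side μ c (fun z => ((∏ u ∈ D, rr A μ (Q u) u z) * f z) * hh A μ Y z) := by
        intro Y
        refine EM_congr fun z _ => ?_
        unfold gg
        ring
      rw [e1, e1]
      exact EM_int h haU hdep fun z hz _ =>
        hh_int h haX (fun i hi => (hs' i (mem_insert_of_mem hi)).trans
          (hs' a (mem_insert_self _ _)).symm) hz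
  have := key (X \ X') Finset.disjoint_sdiff (by
    rw [Finset.union_sdiff_of_subset hXX]
    exact hX)
  rwa [Finset.union_sdiff_of_subset hXX] at this

/-- PLACING A VERTEX `a`: given the states of `E`, the state of `a` is drawn from the density
`G` -/
theorem LawG.place (h : Rev A μ c) {H : SimpleGraph V}
    (hs : ∀ u v, H.Adj u v → side u ≠ side v) {U E J : Finset V} {a : V} {ρ L : (V → S) → ℝ}
    {F : ℝ} (hl : LawG H side A μ c U ρ L F) (ha : a ∉ U) (hE : E ⊆ U) (hJ : J ⊆ E)
    (hN : ∀ x ∈ U, H.Adj a x ↔ x ∈ J) {G : (V → S) → ℝ} (hGd : DepOn (insert a E) G)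
    (hG0 : ∀ z, 0 ≤ G z) (hGl : ∀ f : (V → S) → ℝ, DepOn E f →
      EM side μ c (fun z => ρ z * f z) = EM side μ c (fun z => G z * f z))
    (hkk : ∀ z, G z ≠ 0 → ∀ u ∈ J, kk A μ (z u) (z a) ≠ 0) :
    ∃ ρ' L' : (V → S) → ℝ, LawG H side A μ c (insert a U) ρ' L'
      (F + (DD side μ c ρ E - EM side μ c (fun z => G z * Real.log (G z)) +
        ∑ u ∈ J, EM side μ c (fun z => G z * Real.log (kk A μ (z u) (z a))))) ∧
      (∀ f : (V → S) → ℝ, DepOn U f →
        EM side μ c (fun z => ρ' z * f z) = EM side μ c (fun z => ρ z * f z)) ∧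
      (∀ f : (V → S) → ℝ, DepOn (insert a E) f →
        EM side μ c (fun z => ρ' z * f z) = EM side μ c (fun z => G z * f z)) ∧
      (∀ z, ρ' z ≠ 0 → ρ z ≠ 0) := by
  have haE : a ∉ E := fun hm => ha (hE hm)
  let g : (V → S) → ℝ := marg side μ c ρ E
  have hg0 : ∀ z, 0 ≤ g z := marg_nonneg h hl.nonneg E
  have hgd : DepOn E g := depOn_marg ρ E
  -- the integral of `G`
  have hGg : ∀ z, (∏ v, mm side μ c v (z v)) ≠ 0 →
      ∑ x, mm side μ c a x * G (Function.update z a x) = g z := by
    intro z hz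
    have hd : DepOn E (fun z => ∑ x, mm side μ c a x * G (Function.update z a x)) := by
      intro z z' hzz
      refine Finset.sum_congr rfl fun x _ => ?_
      congr 1
      refine hGd _ _ fun u hu => ?_
      by_cases hua : u = a
      · rw [hua, Function.update_self, Function.update_self]
      · rw [Function.update_of_ne hua, Function.update_of_ne hua]
        exact hzz u ((mem_insert.1 hu).resolve_left hua)
    refine density_unique h hd hgd (fun f hf => ?_) hz
    have e1 : EM side μ c (fun z => G z * f z) = EM side μ c (fun z => f z * G z) :=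
      EM_congr fun z _ => mul_comm _ _
    have e2 : EM side μ c (fun z => (∑ x, mm side μ c a x * G (Function.update z a x)) * f z) =
        EM side μ c (fun z => f z * ∑ x, mm side μ c a x * G (Function.update z a x)) :=
      EM_congr fun z _ => mul_comm _ _
    rw [e2, ← EM_push h haE hf G, ← e1, ← hGl f hf]
    exact marg_law h ρ hf
  have hGz : ∀ z, (∏ v, mm side μ c v (z v)) ≠ 0 → g z = 0 → G z = 0 := by
    intro z hz h0
    have h1 := hGg z hz
    rw [h0] at h1
    have h2 := (Finset.sum_eq_zero_iff_of_nonneg fun x _ =>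
      mul_nonneg (mm_nonneg h a x) (hG0 _)).1 h1 (z a) (mem_univ _)
    rw [Function.update_eq_self] at h2
    refine (mul_eq_zero.1 h2).resolve_left fun h3 => hz ?_
    exact Finset.prod_eq_zero (mem_univ a) h3
  have hgpos : ∀ z, (∏ v, mm side μ c v (z v)) ≠ 0 → ρ z ≠ 0 → 0 < g z :=
    fun z hz h0 => marg_pos h hl.nonneg E hz h0
  let φ : (V → S) → ℝ := fun z => G z * (g z)⁻¹
  have hφ0 : ∀ z, 0 ≤ φ z := fun z => mul_nonneg (hG0 z) (inv_nonneg.2 (hg0 z))
  have hφd : DepOn (insert a E) φ := by
    intro z z' hz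
    show G z * (g z)⁻¹ = G z' * (g z')⁻¹
    rw [hGd z z' hz, hgd z z' fun u hu => hz u (mem_insert_of_mem hu)]
  have hper : ∀ f : (V → S) → ℝ, DepOn U f →
      EM side μ c (fun z => ρ z * φ z * f z) = EM side μ c (fun z => ρ z * f z) := by
    intro f hf
    have e1 : EM side μ c (fun z => ρ z * φ z * f z) =
        EM side μ c (fun z => (ρ z * f z) * φ z) := EM_congr fun z _ => by ring
    rw [e1, EM_int h ha (hl.dep.mul hf) (r := φ) (g := fun _ => 1)]
    · exact EM_congr fun z _ => by ring
    · intro z hz h0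
      have e2 : ∀ x, mm side μ c a x * φ (Function.update z a x) =
          (mm side μ c a x * G (Function.update z a x)) * (g z)⁻¹ := by
        intro x
        show mm side μ c a x * (G (Function.update z a x) * (g (Function.update z a x))⁻¹) = _
        rw [hgd.update haE]
        ring
      simp only [e2]
      rw [← Finset.sum_mul, hGg z hz,
        mul_inv_cancel₀ (hgpos z hz (left_ne_zero_of_mul h0)).ne']
  have hnew : ∀ f : (V → S) → ℝ, DepOn (insert a E) f →
      EM side μ c (fun z => ρ z * φ z * f z) = EM side μ c (fun z => G z * f z) := by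
    intro f hf
    let r : (V → S) → ℝ := fun z => φ z * f z
    have hr : DepOn (insert a E) r := hφd.mul hf
    let g' : (V → S) → ℝ := fun z => ∑ x, mm side μ c a x * r (Function.update z a x)
    have hg' : DepOn E g' := by
      intro z z' hz
      refine Finset.sum_congr rfl fun x _ => ?_
      congr 1
      refine hr _ _ fun u hu => ?_
      by_cases huv : u = a
      · rw [huv, Function.update_self, Function.update_self]
      · rw [Function.update_of_ne huv, Function.update_of_ne huv]
        exact hz u ((mem_insert.1 hu).resolve_left huv)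
    have e1 : EM side μ c (fun z => ρ z * φ z * f z) =
        EM side μ c (fun z => ρ z * r z) := EM_congr fun z _ => mul_assoc _ _ _
    have e2 : EM side μ c (fun z => ρ z * r z) = EM side μ c (fun z => ρ z * g' z) :=
      EM_push h ha hl.dep r
    have e3 : EM side μ c (fun z => g z * r z) = EM side μ c (fun z => g z * g' z) :=
      EM_push h haE hgd r
    rw [e1, e2, marg_law h ρ hg']
    show EM side μ c (fun z => g z * g' z) = _
    rw [← e3]
    refine EM_congr fun z hz => ?_
    show g z * (G z * (g z)⁻¹ * f z) = _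
    by_cases h0 : g z = 0
    · rw [h0, hGz z hz h0]
      ring
    · field_simp
  let κ : (V → S) → ℝ := fun z => ∏ u ∈ J, kk A μ (z u) (z a)
  let L' : (V → S) → ℝ := fun z => L z * (g z * (G z)⁻¹) * κ z
  have hposg : ∀ z, ρ z * φ z ≠ 0 → 0 < g z := fun z h0 =>
    lt_of_le_of_ne (hg0 z) (Ne.symm (inv_eq_zero.not.1
      (right_ne_zero_of_mul (right_ne_zero_of_mul h0))))
  have hposG : ∀ z, ρ z * φ z ≠ 0 → 0 < G z := fun z h0 =>
    lt_of_le_of_ne (hG0 z) (Ne.symm (left_ne_zero_of_mul (right_ne_zero_of_mul h0)))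
  have hposk : ∀ z, ρ z * φ z ≠ 0 → ∀ u ∈ J, 0 < kk A μ (z u) (z a) := fun z h0 u hu =>
    lt_of_le_of_ne (kk_nonneg h _ _) (Ne.symm (hkk z (hposG z h0).ne' u hu))
  have hJU : J ⊆ U := hJ.trans hE
  refine ⟨fun z => ρ z * φ z, L', ⟨?_, ?_, ?_, ?_, ?_, ?_, ?_⟩, hper, hnew,
    fun z h0 => left_ne_zero_of_mul h0⟩
  · exact (hl.dep.mono (Finset.subset_insert _ _)).mul
      (hφd.mono (Finset.insert_subset_insert a hE))
  · intro z z' hz
    show L z * (g z * (G z)⁻¹) * (∏ u ∈ J, kk A μ (z u) (z a)) =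
      L z' * (g z' * (G z')⁻¹) * ∏ u ∈ J, kk A μ (z' u) (z' a)
    rw [hl.depL z z' fun u hu => hz u (mem_insert_of_mem hu),
      hgd z z' fun u hu => hz u (mem_insert_of_mem (hE hu)),
      hGd z z' fun u hu => hz u (Finset.insert_subset_insert a hE hu)]
    congr 1
    refine Finset.prod_congr rfl fun u hu => ?_
    rw [hz u (mem_insert_of_mem (hJU hu)), hz a (mem_insert_self _ _)]
  · exact fun z => mul_nonneg (hl.nonneg z) (hφ0 z)
  · intro z hz
    rw [edgeW_insert h hs ha hJU hN]
    have e1 : ρ z * φ z * L' z = ((ρ z * L z) * ((g z * (g z)⁻¹) * (G z * (G z)⁻¹))) *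
        ∏ u ∈ J, kk A μ (z u) (z a) := by
      show ρ z * (G z * (g z)⁻¹) * (L z * (g z * (G z)⁻¹) * ∏ u ∈ J, kk A μ (z u) (z a)) = _
      ring
    show ρ z * φ z * L' z ≤ _
    rw [e1]
    refine mul_le_mul_of_nonneg_right ?_ (Finset.prod_nonneg fun _ _ => kk_nonneg h _ _)
    have h1 : g z * (g z)⁻¹ ≤ 1 := mul_inv_le_one
    have h2 : G z * (G z)⁻¹ ≤ 1 := mul_inv_le_one
    have h3 : 0 ≤ g z * (g z)⁻¹ := mul_nonneg (hg0 z) (inv_nonneg.2 (hg0 z))
    have h4 : 0 ≤ G z * (G z)⁻¹ := mul_nonneg (hG0 z) (inv_nonneg.2 (hG0 z))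
    by_cases h5 : ρ z = 0
    · rw [h5, zero_mul, zero_mul]
      exact edgeW_nonneg h H U z
    · have h6 : 0 ≤ ρ z * L z := mul_nonneg (hl.nonneg z) (hl.pos z hz h5).le
      have h7 : (g z * (g z)⁻¹) * (G z * (G z)⁻¹) ≤ 1 := mul_le_one₀ h1 h4 h2
      exact (mul_le_of_le_one_right h6 h7).trans (hl.mul z hz)
  · intro z hz h0
    exact mul_pos (mul_pos (hl.pos z hz (left_ne_zero_of_mul h0))
      (mul_pos (hposg z h0) (inv_pos.2 (hposG z h0))))
      (Finset.prod_pos fun u hu => hposk z h0 u hu)
  · have := hper (fun _ => 1) (fun _ _ _ => rfl)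
    simp only [mul_one] at this
    show EM side μ c (fun z => ρ z * φ z) = 1
    rw [this]
    exact hl.one
  · have hdL : DepOn U (fun z : V → S => Real.log (L z) + Real.log (g z)) := by
      intro z z' hz
      show Real.log (L z) + Real.log (g z) = Real.log (L z') + Real.log (g z')
      rw [hl.depL z z' hz, hgd z z' fun u hu => hz u (hE hu)]
    have hdh : DepOn (insert a E) (fun z : V → S => Real.log (G z)) := by
      intro z z' hz
      show Real.log (G z) = Real.log (G z')
      rw [hGd z z' hz]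
    have hdk : ∀ u ∈ J, DepOn (insert a E)
        (fun z : V → S => Real.log (kk A μ (z u) (z a))) := by
      intro u hu z z' hz
      show Real.log (kk A μ (z u) (z a)) = Real.log (kk A μ (z' u) (z' a))
      rw [hz u (mem_insert_of_mem (hJ hu)), hz a (mem_insert_self _ _)]
    have e1 : EM side μ c (fun z => ρ z * φ z * Real.log (L' z)) =
        EM side μ c (fun z => ρ z * φ z * (Real.log (L z) + Real.log (g z))) -
        EM side μ c (fun z => ρ z * φ z * Real.log (G z)) +
        ∑ u ∈ J, EM side μ c (fun z => ρ z * φ z * Real.log (kk A μ (z u) (z a))) := by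
      rw [← EM_sub, ← EM_sum J fun u z => ρ z * φ z * Real.log (kk A μ (z u) (z a)), ← EM_add]
      refine EM_congr fun z hz => ?_
      by_cases h0 : ρ z * φ z = 0
      · rw [h0]
        simp
      · have hκ : 0 < κ z := Finset.prod_pos fun u hu => hposk z h0 u hu
        show ρ z * φ z * Real.log (L z * (g z * (G z)⁻¹) * κ z) = _
        rw [Real.log_mul (mul_pos (hl.pos z hz (left_ne_zero_of_mul h0))
            (mul_pos (hposg z h0) (inv_pos.2 (hposG z h0)))).ne' hκ.ne',
          Real.log_mul (hl.pos z hz (left_ne_zero_of_mul h0)).ne'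
          (mul_pos (hposg z h0) (inv_pos.2 (hposG z h0))).ne',
          Real.log_mul (hposg z h0).ne' (inv_pos.2 (hposG z h0)).ne', Real.log_inv]
        have hκ' : Real.log (κ z) = ∑ u ∈ J, Real.log (kk A μ (z u) (z a)) :=
          Real.log_prod fun u hu => (hposk z h0 u hu).ne'
        rw [hκ', ← Finset.mul_sum]
        ring
    have e2 : EM side μ c (fun z => ρ z * (Real.log (L z) + Real.log (g z))) =
        EM side μ c (fun z => ρ z * Real.log (L z)) + DD side μ c ρ E := by
      unfold DD
      rw [← EM_add]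
      exact EM_congr fun z _ => mul_add _ _ _
    have e3 : ∑ u ∈ J, EM side μ c (fun z => ρ z * φ z * Real.log (kk A μ (z u) (z a))) =
        ∑ u ∈ J, EM side μ c (fun z => G z * Real.log (kk A μ (z u) (z a))) :=
      Finset.sum_congr rfl fun u hu => hnew _ (hdk u hu)
    rw [e1, hper _ hdL, hnew _ hdh, e2, e3]
    have := hl.log
    linarith

end HubE1

end Vale.Agent.P050.Books
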