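import Vale.Agent.P050.R2.H545.HubE1

/-!
# P050: ordered constructions, the three steps
-/

set_option linter.unusedSectionVars false

namespace Vale.Agent.P050.Books

open Finset Vale.Agent.P050.Lev Vale.Agent.P050.Ears

section HubE2

variable {V S : Type} [Fintype V] [DecidableEq V] [Fintype S]
  {side : V → Bool} {A : Matrix S S ℝ} {μ : S → ℝ} {c : S → Bool}

/-- A law of the states of `U` (on the side `σ`) and of `D` (on the other side): on each clique
`X` of `K` the states are independent neighbours of a hub, and the `u` with `Q u ⊆ X` are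
independent random common neighbours of `Q u`. -/
structure OLaw (H : SimpleGraph V) (side : V → Bool) (A : Matrix S S ℝ) (μ : S → ℝ)
    (c : S → Bool) (σ : Bool) (K : SimpleGraph V) (Q : V → Finset V) (U D : Finset V)
    (ρ L : (V → S) → ℝ) (F : ℝ) : Prop where
  sU : ∀ a ∈ U, side a = σ
  sD : ∀ u ∈ D, side u ≠ σ
  qs : ∀ u ∈ D, Q u ⊆ U ∧ (Q u).Nonempty ∧ Cq K (Q u)
  law : LawG H side A μ c (U ∪ D) ρ L F
  marg : ∀ X ⊆ U, Cq K X → ∀ f : (V → S) → ℝ, DepOn (X ∪ D.filter fun u => Q u ⊆ X) f →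
    EM side μ c (fun z => ρ z * f z) =
      EM side μ c (fun z => gg A μ Q X (D.filter fun u => Q u ⊆ X) z * f z)

section facts

variable {H : SimpleGraph V} {σ : Bool} {K : SimpleGraph V} {Q : V → Finset V}
  {U D : Finset V} {ρ L : (V → S) → ℝ} {F : ℝ}

theorem OLaw.lawX (h : Rev A μ c) (hl : OLaw H side A μ c σ K Q U D ρ L F) {X D' : Finset V}
    (hX : X ⊆ U) (hXc : Cq K X) (hD' : ∀ u ∈ D', u ∈ D ∧ Q u ⊆ X) {f : (V → S) → ℝ}
    (hf : DepOn (X ∪ D') f) :
    EM side μ c (fun z => ρ z * f z) = EM side μ c (fun z => gg A μ Q X D' z * f z) := by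
  have hDD : D' ⊆ D.filter fun u => Q u ⊆ X := fun u hu => mem_filter.2 (hD' u hu)
  rw [hl.marg X hX hXc f (hf.mono (Finset.union_subset_union_right hDD))]
  exact gg_dropD h (fun x hx => hl.sU x (hX hx)) (fun u hu => hl.sD u (mem_filter.1 hu).1)
    (fun u hu => ⟨(mem_filter.1 hu).2, (hl.qs u (mem_filter.1 hu).1).2.1⟩) hDD hf

theorem OLaw.ne (h : Rev A μ c) (hl : OLaw H side A μ c σ K Q U D ρ L F) {X D' : Finset V}
    (hX : X ⊆ U) (hXc : Cq K X) (hD' : ∀ u ∈ D', u ∈ D ∧ Q u ⊆ X) {z : V → S}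
    (hz : (∏ v, mm side μ c v (z v)) ≠ 0) (h0 : ρ z ≠ 0) : gg A μ Q X D' z ≠ 0 :=
  ne_of_law h hl.law.nonneg (depOn_gg fun u hu => (hD' u hu).2)
    (fun _ hf => hl.lawX h hX hXc hD' hf) hz h0

theorem OLaw.pos (h : Rev A μ c) (hl : OLaw H side A μ c σ K Q U D ρ L F) {P : Finset V}
    (hP : P ⊆ U) (hPn : P.Nonempty) (hPc : Cq K P) {z : V → S}
    (hz : (∏ v, mm side μ c v (z v)) ≠ 0) (h0 : ρ z ≠ 0) : 0 < hQ A μ P z := by
  have h1 := hl.ne h hP hPc (D' := ∅) (by simp) hz h0
  rw [gg_empty] at h1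
  exact hQ_pos_of_hh h hPn (Finset.Subset.refl _) h1

theorem OLaw.kp (h : Rev A μ c) (hl : OLaw H side A μ c σ K Q U D ρ L F) {z : V → S}
    (hz : (∏ v, mm side μ c v (z v)) ≠ 0) (h0 : ρ z ≠ 0) {u : V} (hu : u ∈ D) {j : V}
    (hj : j ∈ Q u) : 0 < kk A μ (z j) (z u) := by
  obtain ⟨h1, h2, h3⟩ := hl.qs u hu
  have h4 := hl.ne h h1 h3 (D' := {u}) (fun v hv => by
    rw [mem_singleton] at hv
    rw [hv]
    exact ⟨hu, Finset.Subset.refl _⟩) hz h0
  exact ((gg_pos h (fun v hv => by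
    rw [mem_singleton] at hv
    rw [hv]
    exact ⟨Finset.Subset.refl _, h2⟩) h4).2 u (mem_singleton_self u)).2.1 j hj

theorem OLaw.DD_gg (h : Rev A μ c) (hl : OLaw H side A μ c σ K Q U D ρ L F)
    {X D' : Finset V} (hX : X ⊆ U) (hXc : Cq K X) (hD' : ∀ u ∈ D', u ∈ D ∧ Q u ⊆ X) :
    DD side μ c ρ (X ∪ D') = EM side μ c (fun z => ρ z * Real.log (gg A μ Q X D' z)) :=
  DD_eq (side := side) (c := c) h (depOn_gg fun u hu => (hD' u hu).2)
    fun _ hf => hl.lawX h hX hXc hD' hf

theorem log_gg (h : Rev A μ c) {Q : V → Finset V} {X D : Finset V}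
    (hq : ∀ u ∈ D, Q u ⊆ X ∧ (Q u).Nonempty) {z : V → S} (hz : gg A μ Q X D z ≠ 0) :
    Real.log (gg A μ Q X D z) = Real.log (hh A μ X z) +
      ∑ u ∈ D, (∑ j ∈ Q u, Real.log (kk A μ (z j) (z u)) - Real.log (hQ A μ (Q u) z)) := by
  obtain ⟨h1, h2⟩ := gg_pos h hq hz
  unfold gg
  rw [Real.log_mul h1.ne' (Finset.prod_pos fun u hu => (h2 u hu).2.2).ne',
    Real.log_prod fun u hu => (h2 u hu).2.2.ne']
  congr 1
  refine Finset.sum_congr rfl fun u hu => ?_
  unfold rr
  rw [Real.log_mul (Finset.prod_pos fun j hj => (h2 u hu).2.1 j hj).ne'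
    (inv_pos.2 (h2 u hu).1).ne', Real.log_inv,
    Real.log_prod fun j hj => ((h2 u hu).2.1 j hj).ne']
  ring

/-- the mean logarithm of the density of a clique with twins, in a law on whose support it is
positive -/
theorem EM_log_gg (h : Rev A μ c) {Q : V → Finset V} {X D : Finset V} {ρ : (V → S) → ℝ}
    (hq : ∀ u ∈ D, Q u ⊆ X ∧ (Q u).Nonempty)
    (hne : ∀ z : V → S, (∏ v, mm side μ c v (z v)) ≠ 0 → ρ z ≠ 0 → gg A μ Q X D z ≠ 0) :
    EM side μ c (fun z => ρ z * Real.log (gg A μ Q X D z)) =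
      EM side μ c (fun z => ρ z * Real.log (hh A μ X z)) +
        ∑ u ∈ D, (∑ j ∈ Q u, ee side A μ c ρ j u - MM side A μ c ρ (Q u)) := by
  have e1 : ∀ u ∈ D, ∑ j ∈ Q u, ee side A μ c ρ j u - MM side A μ c ρ (Q u) =
      EM side μ c (fun z => ρ z * (∑ j ∈ Q u, Real.log (kk A μ (z j) (z u)) -
        Real.log (hQ A μ (Q u) z))) := by
    intro u _
    unfold ee MM
    rw [← EM_sum (Q u) fun j z => ρ z * Real.log (kk A μ (z j) (z u)), ← EM_sub]
    refine EM_congr fun z _ => ?_
    rw [← Finset.mul_sum]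
    ring
  rw [Finset.sum_congr rfl e1, ← EM_sum D fun u z => ρ z * (∑ j ∈ Q u,
    Real.log (kk A μ (z j) (z u)) - Real.log (hQ A μ (Q u) z)), ← EM_add]
  refine EM_congr fun z hz => ?_
  by_cases h0 : ρ z = 0
  · rw [h0]
    simp
  · rw [log_gg h hq (hne z hz h0), ← Finset.mul_sum]
    ring

variable {d : ℕ → ℝ}

theorem OLaw.log_hh (h : Rev A μ c) (hl : OLaw H side A μ c σ K Q U D ρ L F)
    (hd : ∀ P : Finset V, (∀ x ∈ P, side x = σ) → dd side A μ c P = d P.card)
    {P : Finset V} (hP : P ⊆ U) (hPc : Cq K P) :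
    EM side μ c (fun z => ρ z * Real.log (hh A μ P z)) = d P.card := by
  rw [hl.lawX h hP hPc (D' := ∅) (by simp) (f := fun z => Real.log (hh A μ P z)) (by
    rw [Finset.union_empty]
    intro z z' hz
    show Real.log (hh A μ P z) = Real.log (hh A μ P z')
    rw [depOn_hh P z z' hz]), ← hd P fun x hx => hl.sU x (hP hx)]
  unfold dd
  exact EM_congr fun z _ => by rw [gg_empty]

theorem OLaw.dd (h : Rev A μ c) (hl : OLaw H side A μ c σ K Q U D ρ L F)
    (hd : ∀ P : Finset V, (∀ x ∈ P, side x = σ) → dd side A μ c P = d P.card)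
    {P : Finset V} (hP : P ⊆ U) (hPc : Cq K P) : DD side μ c ρ P = d P.card := by
  have h1 := hl.DD_gg h hP hPc (D' := ∅) (by simp)
  rw [Finset.union_empty] at h1
  rw [h1, ← hl.log_hh h hd hP hPc]
  exact EM_congr fun z _ => by rw [gg_empty]

theorem OLaw.mm_eq (h : Rev A μ c) (hl : OLaw H side A μ c σ K Q U D ρ L F)
    (hd : ∀ P : Finset V, (∀ x ∈ P, side x = σ) → Books.dd side A μ c P = d P.card)
    {P : Finset V} (hP : P ⊆ U) (hPn : P.Nonempty) (hPc : Cq K P) :
    MM side A μ c ρ P = d P.card := by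
  rw [← hl.log_hh h hd hP hPc]
  unfold MM
  exact EM_congr fun z _ => by rw [hh_of P hPn]

theorem OLaw.fan (h : Rev A μ c) (hl : OLaw H side A μ c σ K Q U D ρ L F)
    (hd : ∀ P : Finset V, (∀ x ∈ P, side x = σ) → Books.dd side A μ c P = d P.card)
    {T R : Finset V} (hT : T ⊆ U) (hTc : Cq K T) (hR : ∀ u ∈ R, u ∈ D ∧ Q u ⊆ T) :
    DD side μ c ρ (T ∪ R) = DD side μ c ρ T +
      ∑ u ∈ R, (∑ j ∈ Q u, ee side A μ c ρ j u - MM side A μ c ρ (Q u)) := by
  rw [hl.DD_gg h hT hTc hR, EM_log_gg h (fun u hu => ⟨(hR u hu).2, (hl.qs u (hR u hu).1).2.1⟩)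
    fun z hz h0 => hl.ne h hT hTc hR hz h0, hl.log_hh h hd hT hTc, hl.dd h hd hT hTc]

/-- the empty law -/
theorem OLaw.empty (h : Rev A μ c) (hs : ∀ u v, H.Adj u v → side u ≠ side v) :
    OLaw H side A μ c σ K Q (∅ : Finset V) ∅ (fun _ => 1) (fun _ => 1) 0 where
  sU := by simp
  sD := by simp
  qs := by simp
  law := by
    rw [Finset.union_empty]
    exact (ChLaw.empty (side := side) h K).lawG hs (by simp)
  marg := by
    intro X hX _ f _
    rw [Finset.subset_empty.1 hX]
    simp only [Finset.filter_empty, gg_empty, hh_empty]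

/-- STEP 1: a new vertex over a clique -/
theorem OLaw.twin (h : Rev A μ c) (hs : ∀ u v, H.Adj u v → side u ≠ side v)
    (hd : ∀ P : Finset V, (∀ x ∈ P, side x = σ) → Books.dd side A μ c P = d P.card)
    (hl : OLaw H side A μ c σ K Q U D ρ L F) {v : V} (hv : side v ≠ σ) (hvD : v ∉ D)
    (hq : Q v ⊆ U ∧ (Q v).Nonempty ∧ Cq K (Q v))
    (hN : ∀ x ∈ U ∪ D, H.Adj v x ↔ x ∈ Q v) :
    ∃ ρ' L' : (V → S) → ℝ, OLaw H side A μ c σ K Q U (insert v D) ρ' L'
      (F + d (Q v).card) := by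
  obtain ⟨hqU, hqn, hqc⟩ := id hq
  have hvU : v ∉ U := fun hm => hv (hl.sU v hm)
  have hvUD : v ∉ U ∪ D := by
    rw [mem_union, not_or]
    exact ⟨hvU, hvD⟩
  have hp : ∀ z : V → S, (∏ v, mm side μ c v (z v)) ≠ 0 → ρ z ≠ 0 → 0 < hQ A μ (Q v) z :=
    fun z hz h0 => hl.pos h hqU hqn hqc hz h0
  have hqUD : Q v ⊆ U ∪ D := hqU.trans Finset.subset_union_left
  obtain ⟨i, hi⟩ := id hqn
  have hsd : side i ≠ side v := by
    rw [hl.sU i (hqU hi)]
    exact hv.symm
  refine ⟨fun z => ρ z * rr A μ (Q v) v z, fun z => L z * hQ A μ (Q v) z, hl.sU, ?_, ?_, ?_, ?_⟩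
  · intro u hu
    rcases mem_insert.1 hu with rfl | hu
    · exact hv
    · exact hl.sD u hu
  · intro u hu
    rcases mem_insert.1 hu with rfl | hu
    · exact hq
    · exact hl.qs u hu
  · rw [Finset.union_insert]
    exact hl.law.attach h hs hvUD hqn hqUD hN hp (hl.mm_eq h hd hqU hqn hqc).ge
  · intro X hX hXc f hf
    let D₀ : Finset V := D.filter fun u => Q u ⊆ X
    have hD₀ : ∀ u ∈ D₀, u ∈ D ∧ Q u ⊆ X := fun u hu => mem_filter.1 hu
    have hvX : v ∉ X := fun hm => hvU (hX hm)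
    have hvD₀ : v ∉ D₀ := fun hm => hvD (hD₀ v hm).1
    have hvXD : v ∉ X ∪ D₀ := by
      rw [mem_union, not_or]
      exact ⟨hvX, hvD₀⟩
    by_cases hQX : Q v ⊆ X
    · have eD : (insert v D).filter (fun u => Q u ⊆ X) = insert v D₀ := by
        rw [Finset.filter_insert, if_pos hQX]
      rw [eD] at hf ⊢
      rw [Finset.union_insert] at hf
      let r : (V → S) → ℝ := fun z => rr A μ (Q v) v z * f z
      have hr : DepOn (insert v (X ∪ D₀)) r :=
        (depOn_rr (hQX.trans Finset.subset_union_left)).mul hf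
      let g : (V → S) → ℝ := fun z => ∑ x, mm side μ c v x * r (Function.update z v x)
      have hg : DepOn (X ∪ D₀) g := by
        intro z z' hz
        refine Finset.sum_congr rfl fun x _ => ?_
        congr 1
        refine hr _ _ fun u hu => ?_
        by_cases huv : u = v
        · rw [huv, Function.update_self, Function.update_self]
        · rw [Function.update_of_ne huv, Function.update_of_ne huv]
          exact hz u ((mem_insert.1 hu).resolve_left huv)
      have e1 : EM side μ c (fun z => ρ z * rr A μ (Q v) v z * f z) =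
          EM side μ c (fun z => ρ z * r z) := EM_congr fun z _ => mul_assoc _ _ _
      have e2 : EM side μ c (fun z => ρ z * r z) = EM side μ c (fun z => ρ z * g z) :=
        EM_push h hvUD hl.law.dep r
      have e3 : EM side μ c (fun z => gg A μ Q X D₀ z * r z) =
          EM side μ c (fun z => gg A μ Q X D₀ z * g z) :=
        EM_push h hvXD (depOn_gg fun u hu => (hD₀ u hu).2) r
      rw [e1, e2, hl.lawX h hX hXc hD₀ hg, ← e3]
      refine EM_congr fun z _ => ?_
      show gg A μ Q X D₀ z * (rr A μ (Q v) v z * f z) = _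
      unfold gg
      rw [Finset.prod_insert hvD₀]
      ring
    · have eD : (insert v D).filter (fun u => Q u ⊆ X) = D₀ := by
        rw [Finset.filter_insert, if_neg hQX]
      rw [eD] at hf ⊢
      have hfU : DepOn (U ∪ D) f := hf.mono (Finset.union_subset_union hX
        fun u hu => (hD₀ u hu).1)
      rw [persist h hl.law.dep hvUD hqUD hi hsd hp hfU]
      exact hl.lawX h hX hXc hD₀ hf

/-- STEP 2: a new leaf over a clique -/
theorem OLaw.leaf (h : Rev A μ c) (hs : ∀ u v, H.Adj u v → side u ≠ side v)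
    (hd : ∀ P : Finset V, (∀ x ∈ P, side x = σ) → Books.dd side A μ c P = d P.card)
    (hl : OLaw H side A μ c σ K Q U D ρ L F) {a : V} {R : Finset V} (ha : side a = σ)
    (haU : a ∉ U) (hR : ∀ u ∈ U, K.Adj a u ↔ u ∈ R) (hRU : R ⊆ U) (hRc : Cq K R)
    (hN : ∀ u ∈ D, ¬ H.Adj a u) :
    ∃ ρ' L' : (V → S) → ℝ, OLaw H side A μ c σ K Q (insert a U) D ρ' L'
      (F + (d R.card - d (R.card + 1))) := by
  have haD : a ∉ D := fun hm => hl.sD a hm ha
  have haUD : a ∉ U ∪ D := by
    rw [mem_union, not_or]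
    exact ⟨haU, haD⟩
  have haR : a ∉ R := fun hm => haU (hRU hm)
  let D₀ : Finset V := D.filter fun u => Q u ⊆ R
  have hD₀ : ∀ u ∈ D₀, u ∈ D ∧ Q u ⊆ R := fun u hu => mem_filter.1 hu
  have hE : R ∪ D₀ ⊆ U ∪ D := Finset.union_subset_union hRU fun u hu => (hD₀ u hu).1
  have hRa : Cq K (insert a R) := by
    intro u hu v hv huv
    rcases mem_insert.1 hu with hu1 | hu1
    · rcases mem_insert.1 hv with hv1 | hv1
      · exact absurd (hu1.trans hv1.symm) huv
      · rw [hu1]
        exact (hR v (hRU hv1)).2 hv1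
    · rcases mem_insert.1 hv with hv1 | hv1
      · rw [hv1]
        exact ((hR u (hRU hu1)).2 hu1).symm
      · exact hRc u hu1 v hv1 huv
  have hsaR : ∀ x ∈ insert a R, side x = σ := by
    intro x hx
    rcases mem_insert.1 hx with rfl | hx
    · exact ha
    · exact hl.sU x (hRU hx)
  have hsD₀ : ∀ u ∈ D₀, side u ≠ σ := fun u hu => hl.sD u (hD₀ u hu).1
  have hqD₀ : ∀ u ∈ D₀, Q u ⊆ insert a R ∧ (Q u).Nonempty := fun u hu =>
    ⟨(hD₀ u hu).2.trans (Finset.subset_insert _ _), (hl.qs u (hD₀ u hu).1).2.1⟩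
  have hGd : DepOn (insert a (R ∪ D₀)) (gg A μ Q (insert a R) D₀ : (V → S) → ℝ) := by
    rw [← Finset.insert_union]
    exact depOn_gg fun u hu => (hqD₀ u hu).1
  obtain ⟨ρ', L', hl', hper, hnew, hsup⟩ := hl.law.place h hs haUD hE
    (J := ∅) (Finset.empty_subset _) (fun x hx => by
      rcases mem_union.1 hx with hx | hx
      · refine ⟨fun hax => absurd ((hl.sU x hx).trans ha.symm).symm (hs _ _ hax),
          fun hm => absurd hm (Finset.notMem_empty _)⟩
      · exact ⟨fun hax => absurd hax (hN x hx), fun hm => absurd hm (Finset.notMem_empty _)⟩)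
    (G := gg A μ Q (insert a R) D₀) hGd (gg_nonneg h _ _ _) (fun f hf => by
      rw [hl.lawX h hRU hRc hD₀ hf]
      exact (gg_dropX h hsaR hsD₀ (fun u hu => (hD₀ u hu).2) (Finset.subset_insert _ _)
        hf).symm) (fun z _ u hu => absurd hu (Finset.notMem_empty _))
  have hlawG : ∀ f : (V → S) → ℝ, DepOn (insert a R) f →
      EM side μ c (fun z => ρ' z * f z) = EM side μ c (fun z => hh A μ (insert a R) z * f z) := by
    intro f hf
    rw [hnew f (hf.mono (Finset.insert_subset_insert a Finset.subset_union_left)),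
      gg_dropD h hsaR hsD₀ hqD₀ (Finset.empty_subset _)
      (by rw [Finset.union_empty]; exact hf)]
    exact EM_congr fun z _ => by rw [gg_empty]
  have hne' : ∀ z : V → S, (∏ v, mm side μ c v (z v)) ≠ 0 → ρ' z ≠ 0 →
      gg A μ Q (insert a R) D₀ z ≠ 0 := fun z hz h0 =>
    ne_of_law h hl'.nonneg hGd hnew hz h0
  have hgain : DD side μ c ρ (R ∪ D₀) - EM side μ c (fun z => gg A μ Q (insert a R) D₀ z *
      Real.log (gg A μ Q (insert a R) D₀ z)) + ∑ u ∈ (∅ : Finset V), EM side μ c (fun z =>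
        gg A μ Q (insert a R) D₀ z * Real.log (kk A μ (z u) (z a))) =
      d R.card - d (R.card + 1) := by
    rw [Finset.sum_empty, add_zero, hl.fan h hd hRU hRc hD₀, hl.dd h hd hRU hRc,
      ← hnew (fun z => Real.log (gg A μ Q (insert a R) D₀ z)) (by
        intro z z' hz
        show Real.log (gg A μ Q (insert a R) D₀ z) = Real.log (gg A μ Q (insert a R) D₀ z')
        rw [hGd z z' hz]), EM_log_gg h hqD₀ hne',
      hlawG (fun z => Real.log (hh A μ (insert a R) z)) (by
        intro z z' hz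
        show Real.log (hh A μ (insert a R) z) = Real.log (hh A μ (insert a R) z')
        rw [depOn_hh _ z z' hz])]
    have e1 : ∑ u ∈ D₀, (∑ j ∈ Q u, ee side A μ c ρ' j u - MM side A μ c ρ' (Q u)) =
        ∑ u ∈ D₀, (∑ j ∈ Q u, ee side A μ c ρ j u - MM side A μ c ρ (Q u)) := by
      refine Finset.sum_congr rfl fun u hu => ?_
      have hqU : Q u ⊆ U := (hl.qs u (hD₀ u hu).1).1
      congr 1
      · refine Finset.sum_congr rfl fun j hj => ?_
        unfold ee
        refine hper (fun z => Real.log (kk A μ (z j) (z u))) fun z z' hz => ?_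
        show Real.log (kk A μ (z j) (z u)) = Real.log (kk A μ (z' j) (z' u))
        rw [hz j (mem_union_left _ (hqU hj)), hz u (mem_union_right _ (hD₀ u hu).1)]
      · unfold MM
        refine hper (fun z => Real.log (hQ A μ (Q u) z)) fun z z' hz => ?_
        show Real.log (hQ A μ (Q u) z) = Real.log (hQ A μ (Q u) z')
        rw [depOn_hQ (Q u) z z' fun j hj => hz j (mem_union_left _ (hqU hj))]
    have e2 : EM side μ c (fun z => hh A μ (insert a R) z *
        Real.log (hh A μ (insert a R) z)) = d (R.card + 1) := by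
      rw [← Finset.card_insert_of_notMem haR, ← hd _ hsaR]
      rfl
    rw [e1, e2]
    ring
  rw [hgain] at hl'
  refine ⟨ρ', L', ⟨?_, hl.sD, fun u hu => ?_, ?_, ?_⟩⟩
  · intro x hx
    rcases mem_insert.1 hx with rfl | hx
    · exact ha
    · exact hl.sU x hx
  · obtain ⟨h1, h2, h3⟩ := hl.qs u hu
    exact ⟨h1.trans (Finset.subset_insert _ _), h2, h3⟩
  · rw [Finset.insert_union]
    exact hl'
  · intro X hX hXc f hf
    by_cases haX : a ∈ X
    · have hXR : X ⊆ insert a R := by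
        intro u hu
        rcases mem_insert.1 (hX hu) with rfl | hu'
        · exact mem_insert_self _ _
        · refine mem_insert_of_mem ((hR u hu').1 (hXc a haX u hu ?_))
          rintro rfl
          exact haU hu'
      have hDX : ∀ u ∈ D.filter (fun u => Q u ⊆ X), u ∈ D₀ := by
        intro u hu
        obtain ⟨hu1, hu2⟩ := mem_filter.1 hu
        refine mem_filter.2 ⟨hu1, fun j hj => ?_⟩
        rcases mem_insert.1 (hXR (hu2 hj)) with rfl | hj'
        · exact absurd ((hl.qs u hu1).1 hj) haU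
        · exact hj'
      have hf1 : DepOn (insert a R ∪ D.filter fun u => Q u ⊆ X) f :=
        hf.mono (Finset.union_subset_union_left hXR)
      rw [hnew f (hf1.mono (by
        rw [Finset.insert_union]
        exact Finset.insert_subset_insert a (Finset.union_subset_union_right hDX))),
        gg_dropD h hsaR hsD₀ hqD₀ hDX hf1]
      exact gg_dropX h hsaR (fun u hu => hl.sD u (mem_filter.1 hu).1)
        (fun u hu => (mem_filter.1 hu).2) hXR hf
    · have hXU : X ⊆ U := by
        intro u hu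
        rcases mem_insert.1 (hX hu) with rfl | hu'
        · exact absurd hu haX
        · exact hu'
      rw [hper f (hf.mono (Finset.union_subset_union hXU (Finset.filter_subset _ _)))]
      exact hl.marg X hXU hXc f hf

end facts

end HubE2

end Vale.Agent.P050.Books
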