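import Vale.Agent.P050.R2.H545.HubE2

/-!
# P050: ordered constructions, the conditional copy
-/

set_option linter.unusedSectionVars false

namespace Vale.Agent.P050.Books

open Finset Vale.Agent.P050.Lev Vale.Agent.P050.Ears

section HubE2b

variable {V S : Type} [Fintype V] [DecidableEq V] [Fintype S]
  {side : V → Bool} {A : Matrix S S ℝ} {μ : S → ℝ} {c : S → Bool}

omit [Fintype V] [Fintype S] in
theorem swap_ne {i a v : V} (h1 : v ≠ i) (h2 : v ≠ a) : Equiv.swap i a v = v :=
  Equiv.swap_apply_of_ne_of_ne h1 h2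

/-- exchange of two vertices -/
theorem hh_swap {i a : V} {P : Finset V} (hi : i ∉ P) (ha : a ∉ P) (z : V → S) :
    hh A μ (insert i P) (z ∘ Equiv.swap i a) = hh A μ (insert a P) z := by
  rw [hh_of _ (Finset.insert_nonempty i P), hh_of _ (Finset.insert_nonempty a P)]
  unfold hQ
  refine Finset.sum_congr rfl fun x _ => ?_
  rw [Finset.prod_insert hi, Finset.prod_insert ha]
  have e1 : (z ∘ Equiv.swap i a) i = z a := by
    show z (Equiv.swap i a i) = z a
    rw [Equiv.swap_apply_left]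
  rw [e1]
  congr 2
  refine Finset.prod_congr rfl fun j hj => ?_
  have e2 : (z ∘ Equiv.swap i a) j = z j := by
    show z (Equiv.swap i a j) = z j
    rw [swap_ne (v := j) (ne_of_mem_of_not_mem hj hi) (ne_of_mem_of_not_mem hj ha)]
  rw [e2]

theorem rr_swap {i a u : V} {P : Finset V} (hi : i ∉ P) (ha : a ∉ P) (hui : u ≠ i)
    (hua : u ≠ a) (z : V → S) :
    rr A μ P u (z ∘ Equiv.swap i a) = rr A μ P u z := by
  have e2 : ∀ j ∈ P, (z ∘ Equiv.swap i a) j = z j := fun j hj => by
    show z (Equiv.swap i a j) = z j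
    rw [swap_ne (v := j) (ne_of_mem_of_not_mem hj hi) (ne_of_mem_of_not_mem hj ha)]
  have e3 : (z ∘ Equiv.swap i a) u = z u := by
    show z (Equiv.swap i a u) = z u
    rw [swap_ne hui hua]
  unfold rr
  rw [depOn_hQ P _ _ e2, e3]
  congr 1
  exact Finset.prod_congr rfl fun j hj => by rw [e2 j hj]

section facts

variable {H : SimpleGraph V} {σ : Bool} {K : SimpleGraph V} {Q : V → Finset V}
  {U D : Finset V} {ρ L : (V → S) → ℝ} {F : ℝ} {d : ℕ → ℝ}

/-- the entropy bound for the twins over sets without `i` -/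
theorem OLaw.low (h : Rev A μ c) (hl : OLaw H side A μ c σ K Q U D ρ L F) {T J : Finset V}
    {i : V} (hT : T ⊆ U) (hTc : Cq K T) (hJ : ∀ u ∈ J, u ∈ D ∧ Q u ⊆ T)
    (hd : ∀ P : Finset V, (∀ x ∈ P, side x = σ) → Books.dd side A μ c P = d P.card)
    (hd0 : d 0 = 0) :
    DD side μ c ρ (T.erase i) + ∑ u ∈ J, (∑ j ∈ (Q u).erase i, ee side A μ c ρ j u -
      d ((Q u).erase i).card) ≤ DD side μ c ρ (T.erase i ∪ J) := by
  have hρ := hl.law.nonneg
  have hone := hl.law.one
  have key : ∀ R' : Finset V, R' ⊆ J → DD side μ c ρ (T.erase i) +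
      ∑ u ∈ R', (∑ j ∈ (Q u).erase i, ee side A μ c ρ j u - d ((Q u).erase i).card) ≤
        DD side μ c ρ (T.erase i ∪ R') := by
    intro R'
    induction R' using Finset.induction_on with
    | empty =>
      intro _
      rw [Finset.sum_empty, add_zero, Finset.union_empty]
    | insert u R' hu ih =>
      intro hsub
      have huJ : u ∈ J := hsub (mem_insert_self _ _)
      obtain ⟨huD, huT⟩ := hJ u huJ
      have h3 := ih ((Finset.subset_insert _ _).trans hsub)
      have hQP : (Q u).erase i ⊆ T.erase i := Finset.erase_subset_erase _ huT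
      have huU : u ∉ U := fun hm => hl.sD u huD (hl.sU u hm)
      have huW : u ∉ T.erase i ∪ R' := by
        rw [mem_union, not_or]
        exact ⟨fun hm => huU (hT (Finset.mem_of_mem_erase hm)), hu⟩
      rw [Finset.sum_insert hu, Finset.union_insert]
      rcases Finset.eq_empty_or_nonempty ((Q u).erase i) with h4 | h4
      · rw [h4, Finset.sum_empty, Finset.card_empty, hd0]
        have h5 := DD_mono (side := side) h hρ hone (Finset.subset_insert u (T.erase i ∪ R'))
        linarith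
      · have h5 := DD_kl (side := side) h hρ hone huW (R := (Q u).erase i)
          (hQP.trans Finset.subset_union_left) h4
          (fun j hj => by
            rw [hl.sU j (hT (Finset.mem_of_mem_erase (hQP hj)))]
            exact (hl.sD u huD).symm)
          (fun z hz h0 j hj => hl.kp h hz h0 huD (Finset.mem_of_mem_erase hj))
        rw [hl.mm_eq h hd ((hQP.trans (Finset.erase_subset _ _)).trans hT) h4
          (hTc.mono (hQP.trans (Finset.erase_subset _ _)))] at h5
        linarith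
  exact key J (Finset.Subset.refl _)

/-- STEP 3: a conditional copy of `i` -/
theorem OLaw.copy (h : Rev A μ c) (hs : ∀ u v, H.Adj u v → side u ≠ side v)
    (hd : ∀ P : Finset V, (∀ x ∈ P, side x = σ) → Books.dd side A μ c P = d P.card)
    (hd0 : d 0 = 0)
    (hl : OLaw H side A μ c σ K Q U D ρ L F) {a i : V} {R J : Finset V} (ha : side a = σ)
    (haU : a ∉ U) (hR : ∀ u ∈ U, K.Adj a u ↔ u ∈ R) (hRU : R ⊆ U)
    (hi : i ∈ U) (hiR : i ∉ R) (hiRc : Cq K (insert i R))
    (hJ : ∀ u, u ∈ J ↔ u ∈ D ∧ H.Adj a u) (hJQ : ∀ u ∈ J, i ∈ Q u ∧ Q u ⊆ insert i R) :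
    ∃ ρ' L' : (V → S) → ℝ, OLaw H side A μ c σ K Q (insert a U) D ρ' L'
      (F + (∑ u ∈ J, (d (Q u).card - d ((Q u).card - 1)) +
        (d R.card - d (R.card + 1)))) := by
  have hai : i ≠ a := fun e => haU (e ▸ hi)
  have haD : a ∉ D := fun hm => hl.sD a hm ha
  have hiD : i ∉ D := fun hm => hl.sD i hm (hl.sU i hi)
  have haUD : a ∉ U ∪ D := by
    rw [mem_union, not_or]
    exact ⟨haU, haD⟩
  have haR : a ∉ R := fun hm => haU (hRU hm)
  have hRc : Cq K R := hiRc.mono (Finset.subset_insert _ _)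
  have hTU : insert i R ⊆ U := Finset.insert_subset hi hRU
  let D₀ : Finset V := D.filter fun u => Q u ⊆ R
  have hD₀ : ∀ u ∈ D₀, u ∈ D ∧ Q u ⊆ R := fun u hu => mem_filter.1 hu
  let J₁ : Finset V := J ∪ D₀
  have hJ₁ : ∀ u ∈ J₁, u ∈ D ∧ Q u ⊆ insert i R := by
    intro u hu
    rcases mem_union.1 hu with hu | hu
    · exact ⟨((hJ u).1 hu).1, (hJQ u hu).2⟩
    · exact ⟨(hD₀ u hu).1, (hD₀ u hu).2.trans (Finset.subset_insert _ _)⟩
  have hdis : ∀ u ∈ D₀, i ∉ Q u := fun u hu hm => hiR ((hD₀ u hu).2 hm)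
  have hJD : Disjoint J D₀ := by
    rw [Finset.disjoint_left]
    exact fun u hu hu' => hdis u hu' (hJQ u hu).1
  have hE : R ∪ J₁ ⊆ U ∪ D := Finset.union_subset_union hRU fun u hu => (hJ₁ u hu).1
  have hJE : J ⊆ R ∪ J₁ := Finset.subset_union_left.trans Finset.subset_union_right
  have hiE : i ∉ R ∪ J₁ := by
    rw [mem_union, not_or]
    exact ⟨hiR, fun hm => hiD (hJ₁ i hm).1⟩
  have haE : a ∉ R ∪ J₁ := fun hm => haUD (hE hm)
  have hqJ₁ : ∀ u ∈ J₁, Q u ⊆ insert i R ∧ (Q u).Nonempty := fun u hu =>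
    ⟨(hJ₁ u hu).2, (hl.qs u (hJ₁ u hu).1).2.1⟩
  have hsJ₁ : ∀ u ∈ J₁, side u ≠ σ := fun u hu => hl.sD u (hJ₁ u hu).1
  have hsT : ∀ x ∈ insert i R, side x = σ := fun x hx => hl.sU x (hTU hx)
  -- the exchange of `i` and `a`
  let τ : Equiv.Perm V := Equiv.swap i a
  have hτs : ∀ v, side (τ v) = side v := by
    intro v
    by_cases h1 : v = i
    · rw [h1, show τ i = a from Equiv.swap_apply_left i a, ha, hl.sU i hi]
    · by_cases h2 : v = a
      · rw [h2, show τ a = i from Equiv.swap_apply_right i a, ha, hl.sU i hi]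
      · rw [show τ v = v from swap_ne h1 h2]
  have hττ : ∀ z : V → S, (z ∘ τ) ∘ τ = z := by
    intro z
    funext v
    show z (τ (τ v)) = z v
    rw [show τ (τ v) = v from Equiv.swap_apply_self i a v]
  have hτfix : ∀ (z : V → S) {v : V}, v ≠ i → v ≠ a → (z ∘ τ) v = z v := by
    intro z v h1 h2
    show z (τ v) = z v
    rw [show τ v = v from swap_ne h1 h2]
  have hτi : ∀ z : V → S, (z ∘ τ) i = z a := fun z => by
    show z (τ i) = z a
    rw [show τ i = a from Equiv.swap_apply_left i a]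
  have hτa : ∀ z : V → S, (z ∘ τ) a = z i := fun z => by
    show z (τ a) = z i
    rw [show τ a = i from Equiv.swap_apply_right i a]
  -- functions without `i` and `a`
  have hinv : ∀ {E : Finset V} {f : (V → S) → ℝ}, DepOn E f → i ∉ E → a ∉ E → ∀ z,
      f (z ∘ τ) = f z := by
    intro E f hf h1 h2 z
    exact hf _ _ fun u hu => hτfix z (fun e => h1 (e ▸ hu)) (fun e => h2 (e ▸ hu))
  let G₀ : (V → S) → ℝ := gg A μ Q (insert i R) J₁
  let G : (V → S) → ℝ := fun z => G₀ (z ∘ τ)
  have hG₀d : DepOn (insert i (R ∪ J₁)) G₀ := by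
    rw [← Finset.insert_union]
    exact depOn_gg fun u hu => (hqJ₁ u hu).1
  have hcomp : ∀ {E : Finset V} {f : (V → S) → ℝ}, i ∉ E → a ∉ E → DepOn (insert i E) f →
      DepOn (insert a E) (fun z => f (z ∘ τ)) := by
    intro E f h1 h2 hf z z' hz
    refine hf _ _ fun u hu => ?_
    rcases mem_insert.1 hu with rfl | hu
    · rw [hτi, hτi]
      exact hz a (mem_insert_self _ _)
    · rw [hτfix z (fun e => h1 (e ▸ hu)) (fun e => h2 (e ▸ hu)),
        hτfix z' (fun e => h1 (e ▸ hu)) (fun e => h2 (e ▸ hu))]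
      exact hz u (mem_insert_of_mem hu)
  have hcomp' : ∀ {E : Finset V} {f : (V → S) → ℝ}, i ∉ E → a ∉ E → DepOn (insert a E) f →
      DepOn (insert i E) (fun z => f (z ∘ τ)) := by
    intro E f h1 h2 hf z z' hz
    refine hf _ _ fun u hu => ?_
    rcases mem_insert.1 hu with rfl | hu
    · rw [hτa, hτa]
      exact hz i (mem_insert_self _ _)
    · rw [hτfix z (fun e => h1 (e ▸ hu)) (fun e => h2 (e ▸ hu)),
        hτfix z' (fun e => h1 (e ▸ hu)) (fun e => h2 (e ▸ hu))]
      exact hz u (mem_insert_of_mem hu)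
  have hGd : DepOn (insert a (R ∪ J₁)) G := hcomp hiE haE hG₀d
  have hGE : ∀ F : (V → S) → ℝ, EM side μ c (fun z => G z * F z) =
      EM side μ c (fun z => G₀ z * F (z ∘ τ)) := by
    intro F
    rw [← EM_perm τ hτs (fun z => G₀ z * F (z ∘ τ))]
    refine EM_congr fun z _ => ?_
    show G₀ (z ∘ τ) * F z = G₀ (z ∘ τ) * F ((z ∘ τ) ∘ τ)
    rw [hττ]
  obtain ⟨ρ', L', hl', hper, hnew, hsup⟩ := hl.law.place h hs haUD hE
    (J := J) hJE (fun x hx => by
      rcases mem_union.1 hx with hx | hx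
      · refine ⟨fun hax => absurd ((hl.sU x hx).trans ha.symm).symm (hs _ _ hax), fun hm => ?_⟩
        exact absurd (hl.sU x hx) (hl.sD x ((hJ x).1 hm).1)
      · exact ⟨fun hax => (hJ x).2 ⟨hx, hax⟩, fun hm => ((hJ x).1 hm).2⟩)
    (G := G) hGd (fun z => gg_nonneg h _ _ _ _) (fun f hf => by
      rw [hl.lawX h hTU hiRc hJ₁ (hf.mono (by
        rw [Finset.insert_union]
        exact Finset.subset_insert _ _)), hGE]
      exact EM_congr fun z _ => by rw [hinv hf hiE haE]) (fun z hz u hu => by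
      have hui : u ≠ i := fun e => hiE (e ▸ hJE hu)
      have hua : u ≠ a := fun e => haE (e ▸ hJE hu)
      have h1 := ((gg_pos h hqJ₁ hz).2 u (mem_union_left _ hu)).2.1 i (hJQ u hu).1
      rw [hτi, hτfix z hui hua, kk_symm h] at h1
      exact h1.ne')
  -- the gain
  have hee : ∀ u ∈ J, EM side μ c (fun z => G z * Real.log (kk A μ (z u) (z a))) =
      ee side A μ c ρ i u := by
    intro u hu
    have hui : u ≠ i := fun e => hiE (e ▸ hJE hu)
    have hua : u ≠ a := fun e => haE (e ▸ hJE hu)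
    rw [hGE]
    have e1 : EM side μ c (fun z => G₀ z * Real.log (kk A μ ((z ∘ τ) u) ((z ∘ τ) a))) =
        EM side μ c (fun z => G₀ z * Real.log (kk A μ (z i) (z u))) :=
      EM_congr fun z _ => by rw [hτa, hτfix z hui hua, kk_symm h]
    rw [e1]
    unfold ee
    refine (hl.lawX h hTU hiRc hJ₁ (f := fun z => Real.log (kk A μ (z i) (z u))) ?_).symm
    intro z z' hz
    show Real.log (kk A μ (z i) (z u)) = Real.log (kk A μ (z' i) (z' u))
    rw [hz i (mem_union_left _ (mem_insert_self _ _)),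
      hz u (mem_union_right _ (mem_union_left _ hu))]
  have hGlog : EM side μ c (fun z => G z * Real.log (G z)) =
      DD side μ c ρ (insert i R ∪ J₁) := by
    rw [hl.DD_gg h hTU hiRc hJ₁, hl.lawX h hTU hiRc hJ₁
      (f := fun z => Real.log (gg A μ Q (insert i R) J₁ z)) (by
        intro z z' hz
        show Real.log (gg A μ Q (insert i R) J₁ z) = Real.log (gg A μ Q (insert i R) J₁ z')
        rw [depOn_gg (fun u hu => (hqJ₁ u hu).1) z z' hz])]
    exact EM_perm τ hτs (fun z => G₀ z * Real.log (G₀ z))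
  have hgain : ∑ u ∈ J, (d (Q u).card - d ((Q u).card - 1)) + (d R.card - d (R.card + 1)) ≤
      DD side μ c ρ (R ∪ J₁) - EM side μ c (fun z => G z * Real.log (G z)) +
        ∑ u ∈ J, EM side μ c (fun z => G z * Real.log (kk A μ (z u) (z a))) := by
    have h1 := hl.low h (i := i) hTU hiRc hJ₁ hd hd0
    rw [Finset.erase_insert hiR, hl.dd h hd hRU hRc] at h1
    have h2 := hl.fan h hd hTU hiRc hJ₁
    rw [hl.dd h hd hTU hiRc, Finset.card_insert_of_notMem hiR] at h2
    rw [hGlog, h2, Finset.sum_congr rfl hee]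
    have h3 : ∀ u ∈ J₁, ∑ j ∈ Q u, ee side A μ c ρ j u - MM side A μ c ρ (Q u) =
        ∑ j ∈ Q u, ee side A μ c ρ j u - d (Q u).card := fun u hu => by
      obtain ⟨h4, h5, h6⟩ := hl.qs u (hJ₁ u hu).1
      rw [hl.mm_eq h hd h4 h5 h6]
    rw [Finset.sum_congr rfl h3, Finset.sum_union hJD]
    rw [Finset.sum_union hJD] at h1
    have h4 : ∑ u ∈ D₀, (∑ j ∈ (Q u).erase i, ee side A μ c ρ j u -
        d ((Q u).erase i).card) = ∑ u ∈ D₀, (∑ j ∈ Q u, ee side A μ c ρ j u -
          d (Q u).card) := by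
      refine Finset.sum_congr rfl fun u hu => ?_
      rw [Finset.erase_eq_of_notMem (hdis u hu)]
    have h5 : ∑ u ∈ J, (∑ j ∈ Q u, ee side A μ c ρ j u - d (Q u).card) =
        ∑ u ∈ J, (∑ j ∈ (Q u).erase i, ee side A μ c ρ j u - d ((Q u).erase i).card) +
          ∑ u ∈ J, ee side A μ c ρ i u - ∑ u ∈ J, (d (Q u).card - d ((Q u).card - 1)) := by
      rw [← Finset.sum_add_distrib, ← Finset.sum_sub_distrib]
      refine Finset.sum_congr rfl fun u hu => ?_
      rw [← Finset.add_sum_erase _ _ (hJQ u hu).1, Finset.card_erase_of_mem (hJQ u hu).1]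
      ring
    rw [h4] at h1
    rw [h5]
    linarith
  refine ⟨ρ', L', ⟨?_, hl.sD, fun u hu => ?_, ?_, ?_⟩⟩
  · intro x hx
    rcases mem_insert.1 hx with rfl | hx
    · exact ha
    · exact hl.sU x hx
  · obtain ⟨h1, h2, h3⟩ := hl.qs u hu
    exact ⟨h1.trans (Finset.subset_insert _ _), h2, h3⟩
  · rw [Finset.insert_union]
    exact ⟨hl'.dep, hl'.depL, hl'.nonneg, hl'.mul, hl'.pos, hl'.one,
      le_trans (by linarith) hl'.log⟩
  · intro X hX hXc f hf
    by_cases haX : a ∈ X
    · let P : Finset V := X.erase a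
      have hXP : X = insert a P := (Finset.insert_erase haX).symm
      have haP : a ∉ P := Finset.notMem_erase _ _
      have hPR : P ⊆ R := by
        intro u hu
        have hu' := Finset.mem_of_mem_erase hu
        rcases mem_insert.1 (hX hu') with hua | hu''
        · exact absurd hua (Finset.ne_of_mem_erase hu)
        · exact (hR u hu'').1 (hXc a haX u hu' (Finset.ne_of_mem_erase hu).symm)
      have hiP : i ∉ P := fun hm => hiR (hPR hm)
      let D' : Finset V := D.filter fun u => Q u ⊆ X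
      have hD'P : ∀ u ∈ D', u ∈ D ∧ Q u ⊆ P := by
        intro u hu
        obtain ⟨hu1, hu2⟩ := mem_filter.1 hu
        refine ⟨hu1, fun j hj => Finset.mem_erase.2 ⟨?_, hu2 hj⟩⟩
        rintro rfl
        exact haU ((hl.qs u hu1).1 hj)
      have hD'J : D' ⊆ J₁ := fun u hu =>
        mem_union_right _ (mem_filter.2 ⟨(hD'P u hu).1, (hD'P u hu).2.trans hPR⟩)
      have hiPD : i ∉ P ∪ D' := by
        rw [mem_union, not_or]
        exact ⟨hiP, fun hm => hiD (hD'P i hm).1⟩
      have haPD : a ∉ P ∪ D' := by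
        rw [mem_union, not_or]
        exact ⟨haP, fun hm => haD (hD'P a hm).1⟩
      have hf' : DepOn (insert a (P ∪ D')) f := by
        rw [← Finset.insert_union, ← hXP]
        exact hf
      have hfE : DepOn (insert a (R ∪ J₁)) f := hf'.mono
        (Finset.insert_subset_insert a (Finset.union_subset_union hPR hD'J))
      have hfτ : DepOn (insert i (P ∪ D')) (fun z => f (z ∘ τ)) := hcomp' hiPD haPD hf'
      rw [hnew f hfE, hGE]
      have hsX' : ∀ x ∈ insert i P, side x = σ := fun x hx =>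
        hsT x (Finset.insert_subset_insert i hPR hx)
      have e1 : EM side μ c (fun z => G₀ z * f (z ∘ τ)) =
          EM side μ c (fun z => gg A μ Q (insert i R) D' z * f (z ∘ τ)) :=
        gg_dropD h hsT hsJ₁ hqJ₁ hD'J (hfτ.mono (by
          rw [Finset.insert_union]
          exact Finset.insert_subset_insert i (Finset.union_subset_union_left hPR)))
      have e2 : EM side μ c (fun z => gg A μ Q (insert i R) D' z * f (z ∘ τ)) =
          EM side μ c (fun z => gg A μ Q (insert i P) D' z * f (z ∘ τ)) :=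
        gg_dropX h hsT (fun u hu => hsJ₁ u (hD'J hu))
          (fun u hu => (hD'P u hu).2.trans (Finset.subset_insert _ _))
          (Finset.insert_subset_insert i hPR) (by
            rw [Finset.insert_union]
            exact hfτ)
      rw [e1, e2, ← EM_perm τ hτs (fun z => gg A μ Q (insert i P) D' z * f (z ∘ τ))]
      refine EM_congr fun z _ => ?_
      show gg A μ Q (insert i P) D' (z ∘ τ) * f ((z ∘ τ) ∘ τ) = gg A μ Q X D' z * f z
      rw [hττ]
      congr 1
      unfold gg
      rw [hXP]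
      congr 1
      · exact hh_swap hiP haP z
      · refine Finset.prod_congr rfl fun u hu => ?_
        exact rr_swap (fun hm => hiP ((hD'P u hu).2 hm)) (fun hm => haP ((hD'P u hu).2 hm))
          (fun e => hiD (e ▸ (hD'P u hu).1)) (fun e => haD (e ▸ (hD'P u hu).1)) z
    · have hXU : X ⊆ U := by
        intro u hu
        rcases mem_insert.1 (hX hu) with rfl | hu'
        · exact absurd hu haX
        · exact hu'
      rw [hper f (hf.mono (Finset.union_subset_union hXU (Finset.filter_subset _ _)))]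
      exact hl.marg X hXU hXc f hf

end facts

/-- On the cliques of `K` the law is a star law with twins. -/
structure FanC (side : V → Bool) (A : Matrix S S ℝ) (μ : S → ℝ) (c : S → Bool)
    (K : SimpleGraph V) (U : Finset V) (ρ : (V → S) → ℝ) (A₀ Z : Finset V)
    (Q : V → Finset V) : Prop where
  sub : A₀ ∪ Z ⊆ U
  qs : ∀ u ∈ Z, Q u ⊆ A₀
  qn : ∀ u ∈ Z, (Q u).Nonempty
  qc : ∀ u ∈ Z, Cq K (Q u)
  sd : ∀ u ∈ Z, ∀ i ∈ A₀, side i ≠ side u
  kp : ∀ z, (∏ v, mm side μ c v (z v)) ≠ 0 → ρ z ≠ 0 → ∀ u ∈ Z, ∀ i ∈ Q u,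
    0 < kk A μ (z i) (z u)
  star : ∀ P ⊆ A₀, P.Nonempty → Cq K P → MM side A μ c ρ P = DD side μ c ρ P
  fan : ∀ T ⊆ A₀, Cq K T → ∀ R ⊆ Z, (∀ u ∈ R, Q u ⊆ T) → DD side μ c ρ (T ∪ R) =
    DD side μ c ρ T + ∑ u ∈ R, (∑ i ∈ Q u, ee side A μ c ρ i u - MM side A μ c ρ (Q u))

theorem FanC.keep (h : Rev A μ c) {K : SimpleGraph V} {U R : Finset V} {v i : V}
    {ρ : (V → S) → ℝ} (hdep : DepOn U ρ) (hv : v ∉ U) (hR : R ⊆ U) (hi : i ∈ R)
    (hsd : side i ≠ side v)
    (hp : ∀ z : V → S, (∏ v, mm side μ c v (z v)) ≠ 0 → ρ z ≠ 0 → 0 < hQ A μ R z)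
    {A₀ Z : Finset V} {Q : V → Finset V} (hf : FanC side A μ c K U ρ A₀ Z Q) :
    FanC side A μ c K (insert v U) (fun z => ρ z * rr A μ R v z) A₀ Z Q where
  sub := hf.sub.trans (Finset.subset_insert _ _)
  qs := hf.qs
  qn := hf.qn
  qc := hf.qc
  sd := hf.sd
  kp := fun z hz h0 => hf.kp z hz (left_ne_zero_of_mul h0)
  star := by
    intro P hP hPn hPc
    have hPU : P ⊆ U := hP.trans (Finset.subset_union_left.trans hf.sub)
    rw [MM_keep h hdep hv hR hi hsd hp hPU, DD_keep h hdep hv hR hi hsd hp hPU]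
    exact hf.star P hP hPn hPc
  fan := by
    intro T hT hTc R' hR' hQT
    have hTU : T ⊆ U := hT.trans (Finset.subset_union_left.trans hf.sub)
    have hRU : R' ⊆ U := hR'.trans (Finset.subset_union_right.trans hf.sub)
    rw [DD_keep h hdep hv hR hi hsd hp (Finset.union_subset hTU hRU),
      DD_keep h hdep hv hR hi hsd hp hTU, hf.fan T hT hTc R' hR' hQT]
    congr 1
    refine Finset.sum_congr rfl fun u hu => ?_
    have hQU : Q u ⊆ U := (hQT u hu).trans hTU
    rw [MM_keep h hdep hv hR hi hsd hp hQU]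
    congr 1
    exact Finset.sum_congr rfl fun j hj =>
      (ee_keep h hdep hv hR hi hsd hp (hQU hj) (hRU hu)).symm

/-- THE LOWER BOUND: the mean logarithm of the codegree of twins of the hub which have the set
`C` of common trace vertices -/
theorem FanC.low (h : Rev A μ c) {U : Finset V} {ρ : (V → S) → ℝ} (hρ : ∀ z, 0 ≤ ρ z)
    (hone : EM side μ c ρ = 1) {A₀ Z : Finset V} {Q : V → Finset V}
    {K : SimpleGraph V} (hf : FanC side A μ c K U ρ A₀ Z Q) {R T C : Finset V} (hR : R ⊆ Z)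
    (hRn : R.Nonempty) (hC : ∀ u ∈ R, C ⊆ Q u) (hTA : T ⊆ A₀) (hTc : Cq K T) (ht : ∀ u ∈ R, Q u ⊆ T) :
    ∑ u ∈ R, (DD side μ c ρ (Q u) - DD side μ c ρ (Q u \ C)) -
      (DD side μ c ρ T - DD side μ c ρ (T \ C)) ≤ C.card * MM side A μ c ρ R := by
  obtain ⟨r, hr⟩ := id hRn
  have hCT : C ⊆ T := (hC r hr).trans (ht r hr)
  let P := T \ C
  have hPA : P ⊆ A₀ := Finset.sdiff_subset.trans hTA
  have haZ : ∀ a ∈ T, a ∉ Z := fun a ha hm => hf.sd a hm a (hTA ha) rfl
  have haR : ∀ a ∈ T, a ∉ R := fun a ha hm => haZ a ha (hR hm)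
  -- (i)
  have h1 : ∀ C' : Finset V, C' ⊆ C → DD side μ c ρ (P ∪ R) +
      (∑ u ∈ R, ∑ a ∈ C', ee side A μ c ρ a u - C'.card * MM side A μ c ρ R) ≤
        DD side μ c ρ (C' ∪ (P ∪ R)) := by
    intro C'
    induction C' using Finset.induction_on with
    | empty =>
      intro _
      simp
    | insert a C' ha ih =>
      intro hsub
      have haC : a ∈ C := hsub (mem_insert_self _ _)
      have h3 := ih ((Finset.subset_insert _ _).trans hsub)
      have haPR : a ∉ C' ∪ (P ∪ R) := by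
        rw [mem_union, mem_union, not_or, not_or]
        exact ⟨ha, fun hm => (mem_sdiff.1 hm).2 haC, haR a (hCT haC)⟩
      have h4 := DD_kl (side := side) h hρ hone haPR (R := R)
        (Finset.subset_union_right.trans Finset.subset_union_right) ⟨r, hr⟩
        (fun u hu => (hf.sd u (hR hu) a (hTA (hCT haC))).symm) (fun z hz h0 u hu => by
          rw [kk_symm h]
          exact hf.kp z hz h0 u (hR hu) a (hC u hu haC))
      have e1 : ∑ u ∈ R, ∑ x ∈ insert a C', ee side A μ c ρ x u =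
          ∑ u ∈ R, ee side A μ c ρ u a + ∑ u ∈ R, ∑ x ∈ C', ee side A μ c ρ x u := by
        rw [← Finset.sum_add_distrib]
        refine Finset.sum_congr rfl fun u _ => ?_
        rw [Finset.sum_insert ha, ee_symm h ρ a u]
      rw [e1, Finset.card_insert_of_notMem ha, Finset.insert_union]
      push_cast
      linarith
  have h1C := h1 C (Finset.Subset.refl _)
  have e1 : C ∪ (P ∪ R) = T ∪ R := by
    rw [← Finset.union_assoc, Finset.union_sdiff_of_subset hCT]
  rw [e1] at h1C
  -- (ii)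
  have h2 : ∀ R' : Finset V, R' ⊆ R → DD side μ c ρ P + ∑ u ∈ R',
      (∑ i ∈ Q u \ C, ee side A μ c ρ i u - DD side μ c ρ (Q u \ C)) ≤
        DD side μ c ρ (P ∪ R') := by
    intro R'
    induction R' using Finset.induction_on with
    | empty =>
      intro _
      rw [Finset.sum_empty, add_zero, Finset.union_empty]
    | insert u R' hu ih =>
      intro hsub
      have huR : u ∈ R := hsub (mem_insert_self _ _)
      have h3 := ih ((Finset.subset_insert _ _).trans hsub)
      have hQP : Q u \ C ⊆ P := Finset.sdiff_subset_sdiff (ht u huR) (Finset.Subset.refl _)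
      have huA : u ∉ A₀ := fun hm => hf.sd u (hR huR) u hm rfl
      have huW : u ∉ P ∪ R' := by
        rw [mem_union, not_or]
        exact ⟨fun hm => huA (hPA hm), hu⟩
      rw [Finset.sum_insert hu, Finset.union_insert]
      rcases Finset.eq_empty_or_nonempty (Q u \ C) with h4 | h4
      · rw [h4, Finset.sum_empty, DD_empty (side := side) h hone]
        have h5 := DD_mono (side := side) h hρ hone (Finset.subset_insert u (P ∪ R'))
        linarith
      · have h5 := DD_kl (side := side) h hρ hone huW (R := Q u \ C)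
          (hQP.trans Finset.subset_union_left) h4
          (fun i hi => hf.sd u (hR huR) i (hPA (hQP hi)))
          (fun z hz h0 i hi => hf.kp z hz h0 u (hR huR) i (mem_sdiff.1 hi).1)
        rw [hf.star _ (hQP.trans hPA) h4 ((hf.qc u (hR huR)).mono Finset.sdiff_subset)] at h5
        linarith
  have h3 := h2 R (Finset.Subset.refl _)
  -- (iii)
  have h4 := hf.fan T hTA hTc R hR ht
  have h5 : ∀ u ∈ R, ∑ i ∈ Q u, ee side A μ c ρ i u - MM side A μ c ρ (Q u) =
      (∑ i ∈ C, ee side A μ c ρ i u + ∑ i ∈ Q u \ C, ee side A μ c ρ i u) -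
        DD side μ c ρ (Q u) := by
    intro u hu
    rw [hf.star (Q u) (hf.qs u (hR hu)) (hf.qn u (hR hu)) (hf.qc u (hR hu)),
      ← Finset.sum_sdiff (hC u hu), add_comm]
  rw [Finset.sum_congr rfl h5, Finset.sum_sub_distrib, Finset.sum_add_distrib] at h4
  rw [Finset.sum_sub_distrib] at h3
  rw [Finset.sum_sub_distrib]
  show _ - (DD side μ c ρ T - DD side μ c ρ P) ≤ _
  linarith

theorem OLaw.fanC (h : Rev A μ c) {H : SimpleGraph V} {σ : Bool} {K : SimpleGraph V}
    {Q : V → Finset V} {U D : Finset V} {ρ L : (V → S) → ℝ} {F : ℝ} {d : ℕ → ℝ}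
    (hd : ∀ P : Finset V, (∀ x ∈ P, side x = σ) → Books.dd side A μ c P = d P.card)
    (hl : OLaw H side A μ c σ K Q U D ρ L F) : FanC side A μ c K (U ∪ D) ρ U D Q where
  sub := Finset.Subset.refl _
  qs := fun u hu => (hl.qs u hu).1
  qn := fun u hu => (hl.qs u hu).2.1
  qc := fun u hu => (hl.qs u hu).2.2
  sd := fun u hu i hi => by
    rw [hl.sU i hi]
    exact (hl.sD u hu).symm
  kp := fun z hz h0 u hu i hi => hl.kp h hz h0 hu hi
  star := fun P hP hPn hPc => by rw [hl.mm_eq h hd hP hPn hPc, hl.dd h hd hP hPc]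
  fan := fun T hT hTc R hR hQT => hl.fan h hd hT hTc fun u hu => ⟨hR hu, hQT u hu⟩

end HubE2b

end Vale.Agent.P050.Books
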