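import Vale.Agent.P050.R4.H22.PlanDef
import Vale.Agent.P050.R4.H987.Ord2
import Vale.Agent.P050.R5.H557.Ord2

/-!
# P050: the law of a plan
-/

set_option linter.unusedSectionVars false

namespace Vale.Agent.P050.Books

open Finset Vale.Agent.P050.Lev Vale.Agent.P050.Ears

open scoped Classical in
/-- the value of a plan as a function of the costs `d` -/
noncomputable def Plan.cost {V : Type} [Fintype V] {H : SimpleGraph V} {side : V → Bool}
    {σ : Bool} (P : Plan H side σ) (d : ℕ → ℝ) : ℝ :=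
  ∑ a ∈ P.A, (d (P.R a).card - d ((P.R a).card + 1)) +
    ∑ z with side z ≠ σ, d (P.Q z).card +
    ∑ a ∈ P.A, ∑ z with H.Adj a z ∧ a ∉ P.Q z, (d (P.Q z).card - d ((P.Q z).card - 1)) +
    ∑ w with side w = σ ∧ w ∉ P.A,
      ((∑ z with H.Adj w z, (d (P.Q z).card - d ((P.Q z).card - P.c w))) -
        (d (P.T w).card - d ((P.T w).card - P.c w))) / P.c w

section HubE4

variable {V S : Type} [Fintype V] [DecidableEq V] [Fintype S]
  {side : V → Bool} {A : Matrix S S ℝ} {μ : S → ℝ} {c : S → Bool}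

/-- every plan gives a law on the whole graph -/
theorem plan_law (h : Rev A μ c) {H : SimpleGraph V}
    (hs : ∀ u v, H.Adj u v → side u ≠ side v) (hi : ∀ v, ∃ u, H.Adj v u) {σ : Bool}
    (P : Plan H side σ) {d : ℕ → ℝ} (d0 : d 0 = 0)
    (hd : ∀ X : Finset V, (∀ x ∈ X, side x = σ) → Books.dd side A μ c X = d X.card) :
    ∃ ρ L : (V → S) → ℝ, LawG H side A μ c univ ρ L (P.cost d) := by
  classical
  let Z : Finset V := univ.filter fun z => side z ≠ σ
  let W : Finset V := univ.filter fun w => side w = σ ∧ w ∉ P.A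
  let N : V → Finset V := fun w => univ.filter fun z => H.Adj w z
  let J : V → Finset V := fun a => univ.filter fun z => H.Adj a z ∧ a ∉ P.Q z
  have hZ : ∀ z, z ∈ Z ↔ side z ≠ σ := fun z => by simp [Z]
  have hW : ∀ w, w ∈ W ↔ side w = σ ∧ w ∉ P.A := fun w => by simp [W]
  have hN : ∀ w u, u ∈ N w ↔ H.Adj w u := fun w u => by simp [N]
  have hJ : ∀ a u, u ∈ J a ↔ H.Adj a u ∧ a ∉ P.Q u := fun a u => by simp [J]
  have hadjZ : ∀ a u, side a = σ → H.Adj a u → u ∈ Z := fun a u ha hau => by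
    rw [hZ, ← ha]
    exact (hs _ _ hau).symm
  -- the ordered law
  obtain ⟨ρ₀, L₀, hl₀⟩ := ordered_law (A := A) (μ := μ) (c := c) h (H := H) (K := P.K) (σ := σ)
    hs (r := P.r) (A₁ := P.A) (Z := Z) (Q := P.Q) (J := J) (R := P.R) (d := d) hd d0 P.sA
    (fun z hz => (hZ z).1 hz) P.inj
    (fun z hz => by
      obtain ⟨h1, h2, h3⟩ := P.hQ z ((hZ z).1 hz)
      exact ⟨fun a ha => (h2 a ha).1, h1, fun u hu v hv huv => h3 u hu v hv huv⟩)
    (fun z hz a ha => by
      obtain ⟨h1, h2, h3⟩ := P.hQ z ((hZ z).1 hz)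
      exact (h2 a ha).2)
    (fun z hz a ha hza haQ b hb => by
      obtain ⟨i, hiA, hia, hiR, hiK, hiQ⟩ := P.copy a ha ⟨z, hza.symm, haQ⟩
      rcases (hiQ z hza.symm haQ).2 b hb with rfl | hbR
      · exact hia
      · exact ((P.hR a ha b).1 hbR).2.2)
    P.hR (fun a ha u hu v hv huv => P.cR a ha u hu v hv huv)
    (fun a ha u => by
      rw [hJ]
      exact ⟨fun h1 => ⟨hadjZ a u (P.sA a ha) h1.1, h1⟩, fun h1 => h1.2⟩)
    (fun a ha hJa => by
      obtain ⟨z, hz⟩ := hJa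
      obtain ⟨i, hiA, hia, hiR, hiK, hiQ⟩ := P.copy a ha ⟨z, (hJ a z).1 hz⟩
      refine ⟨i, hiA, hia, hiR, ?_, fun u hu => ?_⟩
      · intro u hu v hv huv
        rcases mem_insert.1 hu with hu' | hu'
        · rcases mem_insert.1 hv with hv' | hv'
          · exact absurd (hu'.trans hv'.symm) huv
          · exact hu' ▸ hiK v hv'
        · rcases mem_insert.1 hv with hv' | hv'
          · exact hv' ▸ (hiK u hu').symm
          · exact P.cR a ha u hu' v hv' huv
      · obtain ⟨h1, h2⟩ := (hJ a u).1 hu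
        obtain ⟨h3, h4⟩ := hiQ u h1 h2
        exact ⟨h3, fun x hx => mem_insert.2 (h4 x hx)⟩)
  -- the sets `C w`
  have hCex : ∀ w, ∃ C : Finset V, w ∈ W → C.card = P.c w ∧
      ∀ a ∈ C, ∀ z, H.Adj w z → a ∈ P.Q z := by
    intro w
    by_cases hwW : w ∈ W
    · let C₀ : Finset V := univ.filter fun a => ∀ z, H.Adj w z → a ∈ P.Q z
      have hC₀ : ∀ a, a ∈ C₀ ↔ ∀ z, H.Adj w z → a ∈ P.Q z := fun a => by simp [C₀]
      obtain ⟨hws, hwA⟩ := (hW w).1 hwW
      have h1 := (P.top w hws hwA).2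
      rw [natCard_mem C₀ _ hC₀] at h1
      obtain ⟨C, hC, hCc⟩ := Finset.exists_subset_card_eq h1
      exact ⟨C, fun _ => ⟨hCc, fun a ha => (hC₀ a).1 (hC ha)⟩⟩
    · exact ⟨∅, fun h => absurd h hwW⟩
  choose C hC using hCex
  obtain ⟨ρ, L, hl⟩ := hl₀.stageW h hs hd N C P.T W (fun w hw => (hW w).1 hw)
    (fun w hw => by
      obtain ⟨hws, hwA⟩ := (hW w).1 hw
      obtain ⟨u, hu⟩ := hi w
      exact ⟨fun z hz => hadjZ w z hws ((hN w z).1 hz), ⟨u, (hN w u).2 hu⟩, hN w⟩)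
    (fun w hw => by
      obtain ⟨hws, hwA⟩ := (hW w).1 hw
      refine ⟨?_, fun u hu a ha => (hC w hw).2 a ha u ((hN w u).1 hu)⟩
      rw [← Finset.card_pos, (hC w hw).1]
      exact (P.top w hws hwA).1)
    (fun w hw => by
      obtain ⟨hws, hwA⟩ := (hW w).1 hw
      obtain ⟨h1, h2⟩ := P.hT w hws hwA
      refine ⟨fun x hx => ?_, fun u hu v hv huv => h2 u hu v hv huv, fun z hz x hx => ?_⟩
      · obtain ⟨z, hwz, hxz⟩ := (h1 x).1 hx
        exact ((P.hQ z ((hZ z).1 (hadjZ w z hws hwz))).2.1 x hxz).1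
      · exact (h1 x).2 ⟨z, (hN w z).1 hz, hx⟩)
  have hU : P.A ∪ Z ∪ W = univ := by
    ext x
    simp only [mem_union, hZ, hW, mem_univ, iff_true]
    by_cases h1 : side x = σ
    · by_cases h2 : x ∈ P.A
      · exact Or.inl (Or.inl h2)
      · exact Or.inr ⟨h1, h2⟩
    · exact Or.inl (Or.inr h1)
  rw [hU] at hl
  refine ⟨ρ, L, ?_⟩
  convert hl using 1
  unfold Plan.cost
  rw [Finset.sum_add_distrib]
  have e1 : ∑ w ∈ W, (∑ z ∈ N w, (d (P.Q z).card - d ((P.Q z).card - (C w).card)) -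
        (d (P.T w).card - d ((P.T w).card - (C w).card))) / (C w).card =
      ∑ w ∈ W, (∑ z ∈ N w, (d (P.Q z).card - d ((P.Q z).card - P.c w)) -
        (d (P.T w).card - d ((P.T w).card - P.c w))) / P.c w :=
    Finset.sum_congr rfl fun w hw => by rw [(hC w hw).1]
  rw [e1]
  have e2 : ∀ a b c' e : ℝ, a + b + c' + e = c' + a + b + e := fun a b c' e => by ring
  rw [e2]
  refine congrArg₂ (· + ·) (congrArg₂ (· + ·) (congrArg₂ (· + ·)
    (Finset.sum_congr rfl fun a _ => Finset.sum_congr ?_ fun _ _ => rfl) rfl) rfl)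
    (Finset.sum_congr ?_ fun w _ => congrArg₂ (· / ·) (congrArg₂ (· - ·)
      (Finset.sum_congr ?_ fun _ _ => rfl) rfl) rfl)
  · ext z
    simp [J]
  · ext z
    simp [W]
  · ext z
    simp [N]

end HubE4

end Vale.Agent.P050.Books
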