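import Vale.Agent.P050.R2.H545.HubE4
import Vale.Agent.P050.R4.H508.BalO

/-!
# P050: the balance of plans and the laws of a family of plans
-/

set_option linter.unusedSectionVars false

namespace Vale.Agent.P050.Books

open Finset Vale.Agent.P050.Lev Vale.Agent.P050.Ears

/-- the value of a plan is a combination of its gains -/
theorem Plan.cost_eq {V : Type} [Fintype V] {H : SimpleGraph V} {side : V → Bool}
    {σ : Bool} (hs : ∀ u v, H.Adj u v → side u ≠ side v) (hi : ∀ v, ∃ u, H.Adj v u)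
    (P : Plan H side σ) (d : ℕ → ℝ) (d0 : d 0 = 0) (d1 : d 1 = 0) (M : ℕ)
    (hM : (univ.filter fun x => side x = σ).card ≤ M + 1) :
    P.cost d = ∑ j ∈ range M, (d (j + 2) - 2 * d (j + 1) + d j) * P.gain (j + 2) := by
  classical
  have hAM : P.A.card ≤ M + 1 := (Finset.card_le_card fun a ha =>
    mem_filter.2 ⟨mem_univ _, P.sA a ha⟩).trans hM
  have hQA : ∀ z, side z ≠ σ → P.Q z ⊆ P.A := fun z hz a ha => ((P.hQ z hz).2.1 a ha).1
  have hQM : ∀ z, side z ≠ σ → (P.Q z).card ≤ M + 1 := fun z hz =>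
    (Finset.card_le_card (hQA z hz)).trans hAM
  have hadj : ∀ a u, side a = σ → H.Adj a u → side u ≠ σ := fun a u ha hau => by
    rw [← ha]
    exact (hs _ _ hau).symm
  have hRM : ∀ a ∈ P.A, (P.R a).card ≤ M := fun a ha => by
    have h1 : insert a (P.R a) ⊆ P.A := Finset.insert_subset ha fun u hu =>
      ((P.hR a ha u).1 hu).1
    have h2 := (Finset.card_le_card h1).trans hAM
    rw [Finset.card_insert_of_notMem fun hm => lt_irrefl _ ((P.hR a ha a).1 hm).2.2] at h2
    exact Nat.le_of_succ_le_succ h2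
  -- the four sums
  have h0 : ∑ a ∈ P.A, (d (P.R a).card - d ((P.R a).card + 1)) =
      ∑ j ∈ range M, (d (j + 2) - 2 * d (j + 1) + d j) *
        (-((P.A.filter fun a => j + 2 ≤ (P.R a).card + 1).card : ℝ)) := by
    have e1 : ∀ a ∈ P.A, d (P.R a).card - d ((P.R a).card + 1) = ∑ j ∈ range M,
        (d (j + 2) - 2 * d (j + 1) + d j) *
          (-((if j + 2 ≤ (P.R a).card + 1 then 1 else 0 : ℕ) : ℝ)) := by
      intro a ha
      rw [← neg_sub, seq_inc d d0 d1 M (P.R a).card (hRM a ha), ← Finset.sum_neg_distrib]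
      exact Finset.sum_congr rfl fun j _ => by ring
    rw [Finset.sum_congr rfl e1, Finset.sum_comm]
    refine Finset.sum_congr rfl fun j _ => ?_
    rw [← Finset.mul_sum, Finset.sum_neg_distrib, Finset.card_filter, Nat.cast_sum]
  have h1 : ∑ z with side z ≠ σ, d (P.Q z).card =
      ∑ j ∈ range M, (d (j + 2) - 2 * d (j + 1) + d j) *
        ∑ z with side z ≠ σ, (((P.Q z).card + 1 - (j + 2) : ℕ) : ℝ) := by
    rw [Finset.sum_congr rfl fun z hz => seq_val d d0 d1 M (P.Q z).card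
      (hQM z (mem_filter.1 hz).2), Finset.sum_comm]
    exact Finset.sum_congr rfl fun j _ => (Finset.mul_sum _ _ _).symm
  have h3 : ∑ a ∈ P.A, ∑ z with H.Adj a z ∧ a ∉ P.Q z,
        (d (P.Q z).card - d ((P.Q z).card - 1)) =
      ∑ j ∈ range M, (d (j + 2) - 2 * d (j + 1) + d j) * ∑ a ∈ P.A,
        ((univ.filter fun z => H.Adj a z ∧ a ∉ P.Q z ∧ j + 2 ≤ (P.Q z).card).card : ℝ) := by
    have e1 : ∀ a ∈ P.A, ∑ z with H.Adj a z ∧ a ∉ P.Q z,
        (d (P.Q z).card - d ((P.Q z).card - 1)) =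
        ∑ j ∈ range M, (d (j + 2) - 2 * d (j + 1) + d j) *
          ((univ.filter fun z => H.Adj a z ∧ a ∉ P.Q z ∧ j + 2 ≤ (P.Q z).card).card : ℝ) := by
      intro a ha
      have e2 : ∀ z ∈ univ.filter (fun z => H.Adj a z ∧ a ∉ P.Q z),
          d (P.Q z).card - d ((P.Q z).card - 1) = ∑ j ∈ range M,
            (d (j + 2) - 2 * d (j + 1) + d j) *
              ((if j + 2 ≤ (P.Q z).card then 1 else 0 : ℕ) : ℝ) := by
        intro z hz
        obtain ⟨h4, -⟩ := (mem_filter.1 hz).2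
        have hzs := hadj a z (P.sA a ha) h4
        rw [seq_dif d d0 d1 M (P.Q z).card 1 (hQM z hzs) (Finset.card_pos.2 (P.hQ z hzs).1)]
        refine Finset.sum_congr rfl fun j _ => ?_
        have e3 : min 1 ((P.Q z).card + 1 - (j + 2)) = if j + 2 ≤ (P.Q z).card then 1 else 0 := by
          split_ifs <;> omega
        rw [e3]
      rw [Finset.sum_congr rfl e2, Finset.sum_comm]
      refine Finset.sum_congr rfl fun j _ => ?_
      rw [← Finset.mul_sum, ← Nat.cast_sum, ← Finset.card_filter, Finset.filter_filter]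
      congr 3
      ext z
      simp only [mem_filter, mem_univ, true_and, and_assoc]
    rw [Finset.sum_congr rfl e1, Finset.sum_comm]
    exact Finset.sum_congr rfl fun j _ => (Finset.mul_sum _ _ _).symm
  have h2 : ∑ w with side w = σ ∧ w ∉ P.A,
        ((∑ z with H.Adj w z, (d (P.Q z).card - d ((P.Q z).card - P.c w))) -
          (d (P.T w).card - d ((P.T w).card - P.c w))) / P.c w =
      ∑ j ∈ range M, (d (j + 2) - 2 * d (j + 1) + d j) *
        ∑ w with side w = σ ∧ w ∉ P.A,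
          ((∑ z with H.Adj w z, ((min (P.c w) ((P.Q z).card + 1 - (j + 2)) : ℕ) : ℝ)) -
            ((min (P.c w) ((P.T w).card + 1 - (j + 2)) : ℕ) : ℝ)) / P.c w := by
    have e1 : ∀ w ∈ univ.filter (fun w => side w = σ ∧ w ∉ P.A),
        ((∑ z with H.Adj w z, (d (P.Q z).card - d ((P.Q z).card - P.c w))) -
          (d (P.T w).card - d ((P.T w).card - P.c w))) / P.c w =
        ∑ j ∈ range M, (d (j + 2) - 2 * d (j + 1) + d j) *
          (((∑ z with H.Adj w z, ((min (P.c w) ((P.Q z).card + 1 - (j + 2)) : ℕ) : ℝ)) -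
            ((min (P.c w) ((P.T w).card + 1 - (j + 2)) : ℕ) : ℝ)) / P.c w) := by
      intro w hw
      obtain ⟨hws, hwA⟩ := (mem_filter.1 hw).2
      obtain ⟨hT, -⟩ := P.hT w hws hwA
      let C₀ : Finset V := univ.filter fun a => ∀ z, H.Adj w z → a ∈ P.Q z
      have hC₀ : ∀ a, a ∈ C₀ ↔ ∀ z, H.Adj w z → a ∈ P.Q z := fun a => by simp [C₀]
      have h4 := (P.top w hws hwA).2
      rw [natCard_mem C₀ _ hC₀] at h4
      have h5 : ∀ z, H.Adj w z → P.c w ≤ (P.Q z).card := fun z hz =>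
        h4.trans (Finset.card_le_card fun a ha => (hC₀ a).1 ha z hz)
      obtain ⟨u, hu⟩ := hi w
      have h6 : P.c w ≤ (P.T w).card := (h5 u hu).trans (Finset.card_le_card fun a ha =>
        (hT a).2 ⟨u, hu, ha⟩)
      have h7 : (P.T w).card ≤ M + 1 := (Finset.card_le_card fun a ha => by
        obtain ⟨z, hz, haz⟩ := (hT a).1 ha
        exact hQA z (hadj w z hws hz) haz).trans hAM
      rw [Finset.sum_congr rfl fun z hz => seq_dif d d0 d1 M (P.Q z).card (P.c w)
        (hQM z (hadj w z hws (mem_filter.1 hz).2)) (h5 z (mem_filter.1 hz).2),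
        Finset.sum_comm, seq_dif d d0 d1 M (P.T w).card (P.c w) h7 h6,
        ← Finset.sum_sub_distrib, Finset.sum_div]
      refine Finset.sum_congr rfl fun j _ => ?_
      rw [← Finset.mul_sum, ← mul_sub, mul_div_assoc]
    rw [Finset.sum_congr rfl e1, Finset.sum_comm]
    exact Finset.sum_congr rfl fun j _ => (Finset.mul_sum _ _ _).symm
  unfold Plan.cost Plan.gain
  rw [h0, h1, h2, h3, ← Finset.sum_add_distrib, ← Finset.sum_add_distrib,
    ← Finset.sum_add_distrib]
  refine Finset.sum_congr rfl fun j _ => ?_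
  ring

/-- the best of several plans, possibly for different sides -/
theorem plans_cost_ge {V : Type} [Fintype V] {H : SimpleGraph V} {side : V → Bool}
    (hs : ∀ u v, H.Adj u v → side u ≠ side v) (hi : ∀ v, ∃ u, H.Adj v u) {ι : Type} [Fintype ι]
    [Nonempty ι] {s : ι → Bool} (P : (i : ι) → Plan H side (s i)) {k : ℝ}
    (hk : ∀ m, 2 ≤ m → -(k * Fintype.card ι) ≤ ∑ i, (P i).gain m) {d : ℕ → ℝ} (d0 : d 0 = 0)
    (d1 : d 1 = 0) {M : ℕ} (hM : ∀ i, (univ.filter fun x => side x = s i).card ≤ M + 1)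
    (hd : ∀ j ∈ range M, 0 ≤ d (j + 2) - 2 * d (j + 1) + d j) :
    ∃ i, -(k * (d (M + 1) - d M)) ≤ (P i).cost d := by
  have h5 : ∀ M, ∑ j ∈ range M, (d (j + 2) - 2 * d (j + 1) + d j) = d (M + 1) - d M := by
    intro M
    induction M with
    | zero => simp [d0, d1]
    | succ M ih =>
      rw [Finset.sum_range_succ, ih]
      ring
  have h1 : ∑ _i : ι, -(k * (d (M + 1) - d M)) ≤ ∑ i, (P i).cost d := by
    have e1 : ∑ i, (P i).cost d = ∑ j ∈ range M, (d (j + 2) - 2 * d (j + 1) + d j) *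
        ∑ i, (P i).gain (j + 2) := by
      rw [Finset.sum_congr rfl fun i _ => (P i).cost_eq hs hi d d0 d1 M (hM i),
        Finset.sum_comm]
      exact Finset.sum_congr rfl fun j _ => (Finset.mul_sum _ _ _).symm
    have e2 : ∑ _i : ι, -(k * (d (M + 1) - d M)) = ∑ j ∈ range M,
        (d (j + 2) - 2 * d (j + 1) + d j) * -(k * Fintype.card ι) := by
      rw [← Finset.sum_mul, h5, Finset.sum_const, Finset.card_univ, nsmul_eq_mul]
      ring
    rw [e1, e2]
    exact Finset.sum_le_sum fun j hj =>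
      mul_le_mul_of_nonneg_left (hk (j + 2) (by omega)) (hd j hj)
  obtain ⟨i, -, hi'⟩ := Finset.exists_le_of_sum_le Finset.univ_nonempty h1
  exact ⟨i, hi'⟩

section HubE5

variable {V S : Type} [Fintype V] [DecidableEq V] [Fintype S]
  {side : V → Bool} {A : Matrix S S ℝ} {μ : S → ℝ} {c : S → Bool}

/-- A family of plans, possibly for different sides, gives a law, if the costs `d` are the same
for all these sides. -/
theorem plans_law (h : Rev A μ c) {H : SimpleGraph V}
    (hs : ∀ u v, H.Adj u v → side u ≠ side v) (hi : ∀ v, ∃ u, H.Adj v u) {ι : Type} [Fintype ι]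
    [Nonempty ι] {s : ι → Bool} (P : (i : ι) → Plan H side (s i)) {k : ℝ}
    (hk : ∀ m, 2 ≤ m → -(k * Fintype.card ι) ≤ ∑ i, (P i).gain m) {d : ℕ → ℝ} (d0 : d 0 = 0)
    (d1 : d 1 = 0) {M : ℕ} (hM : ∀ i, (univ.filter fun x => side x = s i).card ≤ M + 1)
    (hd : ∀ j ∈ range M, 0 ≤ d (j + 2) - 2 * d (j + 1) + d j)
    (hdd : ∀ i, ∀ X : Finset V, (∀ x ∈ X, side x = s i) → Books.dd side A μ c X = d X.card) :
    ∃ (ρ L : (V → S) → ℝ) (F : ℝ), LawG H side A μ c univ ρ L F ∧
      -(k * (d (M + 1) - d M)) ≤ F := by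
  obtain ⟨i, hi'⟩ := plans_cost_ge hs hi P hk d0 d1 hM hd
  obtain ⟨ρ, L, hl⟩ := plan_law h hs hi (P i) d0 (hdd i)
  exact ⟨ρ, L, _, hl, hi'⟩

/-- A family of plans for one side gives a law. -/
theorem plans_law_one (h : Rev A μ c) {H : SimpleGraph V}
    (hs : ∀ u v, H.Adj u v → side u ≠ side v) (hi : ∀ v, ∃ u, H.Adj v u) {σ : Bool} {ι : Type}
    [Fintype ι] [Nonempty ι] (P : ι → Plan H side σ) {k : ℝ}
    (hk : ∀ m, 2 ≤ m → -(k * Fintype.card ι) ≤ ∑ i, (P i).gain m) :
    ∃ (d : ℕ → ℝ) (M : ℕ) (ρ L : (V → S) → ℝ) (F : ℝ),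
      (∀ X : Finset V, (∀ x ∈ X, side x = σ) → Books.dd side A μ c X = d X.card) ∧
      d 0 = 0 ∧ d 1 = 0 ∧ (M = 0 ∨ M + 1 ≤ (univ.filter fun x => side x = σ).card) ∧
      LawG H side A μ c univ ρ L F ∧ -(k * (d (M + 1) - d M)) ≤ F := by
  have hsA : ∀ i ∈ univ.filter (fun x => side x = σ), ∀ j ∈ univ.filter (fun x => side x = σ),
      side i = side j := fun i hi j hj => (mem_filter.1 hi).2.trans (mem_filter.1 hj).2.symm
  obtain ⟨d, hd, d0, d1, dc⟩ := exists_d (A := A) (μ := μ) (c := c) h hsA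
  have hdd : ∀ X : Finset V, (∀ x ∈ X, side x = σ) → Books.dd side A μ c X = d X.card :=
    fun X hX => hd X fun x hx => mem_filter.2 ⟨mem_univ _, hX x hx⟩
  obtain ⟨ρ, L, F, hl, hF⟩ := plans_law h hs hi P hk d0 d1
    (M := (univ.filter fun x => side x = σ).card - 1) (fun _ => by omega)
    (fun j hj => by
      have h1 := mem_range.1 hj
      have h2 := dc j (by omega)
      linarith) (fun _ => hdd)
  exact ⟨d, _, ρ, L, F, hdd, d0, d1, by omega, hl, hF⟩

end HubE5

/-- COUNTING THEOREM for plans: the sum of the gains of several plans for one side -/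
theorem gsid_of_plans {V : Type} [Fintype V] [DecidableEq V] {H : SimpleGraph V}
    {side : V → Bool} (hs : ∀ u v, H.Adj u v → side u ≠ side v) (hi : ∀ v, ∃ u, H.Adj v u)
    {σ : Bool} {ι : Type} [Fintype ι] [Nonempty ι] (P : ι → Plan H side σ)
    (hk : ∀ m, 2 ≤ m → 0 ≤ ∑ i, (P i).gain m) : GSid H side := by
  refine gsid_of_rev H side hs hi ?_
  intro S _ _ _ A μ c h
  obtain ⟨d, M, ρ, L, F, -, -, -, -, hl, hF⟩ := plans_law_one (A := A) (μ := μ) (c := c) h hs hi P
    (k := 0) (by simpa using hk)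
  exact hl.sum_wt_ge h (by simpa using hF)

end Vale.Agent.P050.Books
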