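import Vale.Agent.P050.R2.H545.HubE5

/-!
# P050: plans for both sides, with both orientations of the chain
-/

set_option linter.unusedSectionVars false

namespace Vale.Agent.P050.Books

open Finset Vale.Agent.P050.Lev Vale.Agent.P050.Ears

section HubE6

variable {V S : Type} [Fintype V] [DecidableEq V] [Fintype S]
  {side : V → Bool} {A : Matrix S S ℝ} {μ : S → ℝ} {c : S → Bool}

/-- the average of a function which does not depend on the state of `a` does not depend on the
side of `a` -/
theorem EM_side_update (h : Rev A μ c) (a : V) (b : Bool) {f : (V → S) → ℝ}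
    (hf : ∀ z x, f (Function.update z a x) = f z) :
    EM (Function.update side a b) μ c f = EM side μ c f := by
  classical
  unfold EM
  let e : (V → S) × S → (V → S) × S := fun p => (Function.update p.1 a p.2, p.1 a)
  have he : Function.Involutive e := by
    rintro ⟨z, x⟩
    simp only [e, Function.update_idem, Function.update_self]
    rw [Function.update_eq_self]
  let E : Equiv.Perm ((V → S) × S) := he.toPerm
  have h1 : ∑ z : V → S, (∏ w, mm side μ c w (z w)) * f z =
      ∑ p : (V → S) × S, (∏ w, mm side μ c w (p.1 w)) * f p.1 *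
        mm (Function.update side a b) μ c a p.2 := by
    rw [Fintype.sum_prod_type]
    refine Finset.sum_congr rfl fun z _ => ?_
    show (∏ w, mm side μ c w (z w)) * f z =
      ∑ x, (∏ w, mm side μ c w (z w)) * f z * mm (Function.update side a b) μ c a x
    rw [← Finset.mul_sum, mm_sum h, mul_one]
  have h2 : ∑ z : V → S, (∏ w, mm (Function.update side a b) μ c w (z w)) * f z =
      ∑ p : (V → S) × S, (∏ w, mm (Function.update side a b) μ c w (p.1 w)) * f p.1 *
        mm side μ c a p.2 := by
    rw [Fintype.sum_prod_type]
    refine Finset.sum_congr rfl fun z _ => ?_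
    show (∏ w, mm (Function.update side a b) μ c w (z w)) * f z =
      ∑ x, (∏ w, mm (Function.update side a b) μ c w (z w)) * f z * mm side μ c a x
    rw [← Finset.mul_sum, mm_sum h, mul_one]
  rw [h1, h2, ← Equiv.sum_comp E]
  refine Finset.sum_congr rfl fun p _ => ?_
  obtain ⟨z, x⟩ := p
  have e1 : E (z, x) = (Function.update z a x, z a) := rfl
  rw [e1]
  show (∏ w, mm (Function.update side a b) μ c w (Function.update z a x w)) *
      f (Function.update z a x) * mm side μ c a (z a) =
    (∏ w, mm side μ c w (z w)) * f z * mm (Function.update side a b) μ c a x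
  rw [hf]
  have e2 : (∏ w, mm (Function.update side a b) μ c w (Function.update z a x w)) *
      mm side μ c a (z a) =
      (∏ w, mm side μ c w (z w)) * mm (Function.update side a b) μ c a x := by
    rw [← Finset.mul_prod_erase univ _ (mem_univ a), ← Finset.mul_prod_erase univ
      (fun w => mm side μ c w (z w)) (mem_univ a)]
    have : ∏ w ∈ univ.erase a, mm (Function.update side a b) μ c w (Function.update z a x w) =
        ∏ w ∈ univ.erase a, mm side μ c w (z w) := by
      refine Finset.prod_congr rfl fun w hw => ?_
      unfold mm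
      rw [Function.update_of_ne (ne_of_mem_erase hw), Function.update_of_ne (ne_of_mem_erase hw)]
    rw [this, Function.update_self]
    ring
  calc (∏ w, mm (Function.update side a b) μ c w (Function.update z a x w)) * f z *
        mm side μ c a (z a)
      = (∏ w, mm (Function.update side a b) μ c w (Function.update z a x w)) *
        mm side μ c a (z a) * f z := by ring
    _ = (∏ w, mm side μ c w (z w)) * mm (Function.update side a b) μ c a x * f z := by rw [e2]
    _ = _ := by ring

/-- the average of a function of the states of `X` depends on the sides of `X` only -/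
theorem EM_side_congr (h : Rev A μ c) {side' : V → Bool} {X : Finset V} {f : (V → S) → ℝ}
    (hf : DepOn X f) (hX : ∀ x ∈ X, side' x = side x) : EM side' μ c f = EM side μ c f := by
  have key : ∀ D : Finset V, Disjoint X D →
      EM (fun v => if v ∈ D then side' v else side v) μ c f = EM side μ c f := by
    intro D
    induction D using Finset.induction_on with
    | empty =>
      intro _
      simp
    | insert a D ha ih =>
      intro hdis
      rw [Finset.disjoint_insert_right] at hdis
      rw [← ih hdis.2]
      have e1 : (fun v => if v ∈ insert a D then side' v else side v) =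
          Function.update (fun v => if v ∈ D then side' v else side v) a (side' a) := by
        ext v
        by_cases hv : v = a
        · subst hv
          simp
        · simp [mem_insert, hv]
      rw [e1]
      exact EM_side_update h a _ fun z x => hf.update hdis.1 z x
  have h1 := key Xᶜ disjoint_compl_right
  have e2 : (fun v => if v ∈ Xᶜ then side' v else side v) = side' := by
    ext v
    by_cases hv : v ∈ X
    · simp [hv, hX v hv]
    · simp [hv]
  rwa [e2] at h1

theorem dd_side_congr (h : Rev A μ c) {side' : V → Bool} {X : Finset V}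
    (hX : ∀ x ∈ X, side' x = side x) : Books.dd side' A μ c X = Books.dd side A μ c X :=
  EM_side_congr h (fun z z' hz => by
    show hh A μ X z * Real.log (hh A μ X z) = hh A μ X z' * Real.log (hh A μ X z')
    rw [depOn_hh X z z' hz]) hX

/-- the costs of a chain for each colour -/
theorem exists_dcol (V : Type) [Fintype V] [DecidableEq V] (h : Rev A μ c) :
    ∃ d : Bool → ℕ → ℝ, (∀ b, d b 0 = 0) ∧ (∀ b, d b 1 = 0) ∧
      (∀ b k, k + 2 ≤ Fintype.card V → 2 * d b (k + 1) ≤ d b k + d b (k + 2)) ∧
      ∀ (side : V → Bool) (b : Bool) (X : Finset V), (∀ x ∈ X, side x = b) →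
        Books.dd side A μ c X = d b X.card := by
  have h1 : ∀ b : Bool, ∃ d : ℕ → ℝ, (∀ P ⊆ (univ : Finset V),
      Books.dd (fun _ => b) A μ c P = d P.card) ∧ d 0 = 0 ∧ d 1 = 0 ∧
      ∀ k, k + 2 ≤ (univ : Finset V).card → 2 * d (k + 1) ≤ d k + d (k + 2) := fun b =>
    exists_d (side := fun _ : V => b) h fun _ _ _ _ => rfl
  choose d hd d0 d1 dc using h1
  refine ⟨d, d0, d1, fun b k hk => dc b k (by rwa [Finset.card_univ]), ?_⟩
  intro side b X hX
  rw [← hd b X (Finset.subset_univ X)]
  exact dd_side_congr h hX

end HubE6

/-- the same plan after the names of the sides are exchanged -/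
def Plan.flip {V : Type} {H : SimpleGraph V} {side : V → Bool} {σ : Bool} (P : Plan H side σ) :
    Plan H (fun v => !side v) (!σ) where
  A := P.A
  K := P.K
  r := P.r
  R := P.R
  Q := P.Q
  T := P.T
  c := P.c
  sA := fun a ha => by rw [P.sA a ha]
  inj := P.inj
  hR := P.hR
  cR := P.cR
  hQ := fun z hz => P.hQ z fun h => hz (by rw [h])
  copy := P.copy
  hT := fun w hw => P.hT w (by
    cases h1 : side w <;> cases h2 : σ <;> simp_all)
  top := fun w hw => P.top w (by
    cases h1 : side w <;> cases h2 : σ <;> simp_all)

theorem Plan.cost_flip {V : Type} [Fintype V] {H : SimpleGraph V} {side : V → Bool} {σ : Bool}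
    (P : Plan H side σ) (d : ℕ → ℝ) : P.flip.cost d = P.cost d := by
  classical
  unfold Plan.cost
  have e1 : (univ.filter fun z => (!side z) ≠ !σ) = univ.filter fun z => side z ≠ σ := by
    ext z
    simp
  have e2 : (univ.filter fun w => (!side w) = (!σ) ∧ w ∉ P.A) =
      univ.filter fun w => side w = σ ∧ w ∉ P.A := by
    ext w
    simp
  have e3 : P.flip.A = P.A := rfl
  have e4 : P.flip.R = P.R := rfl
  have e5 : P.flip.Q = P.Q := rfl
  have e6 : P.flip.T = P.T := rfl
  have e7 : P.flip.c = P.c := rfl
  rw [e3, e4, e5, e6, e7]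
  refine congrArg₂ (· + ·) (congrArg₂ (· + ·) (congrArg₂ (· + ·) rfl
    (Finset.sum_congr ?_ fun _ _ => rfl)) rfl) (Finset.sum_congr ?_ fun _ _ => rfl)
  · ext z
    simp
  · ext w
    simp

theorem Plan.cost_add {V : Type} [Fintype V] {H : SimpleGraph V} {side : V → Bool} {σ : Bool}
    (P : Plan H side σ) (d d' : ℕ → ℝ) : P.cost (fun n => d n + d' n) = P.cost d + P.cost d' := by
  classical
  unfold Plan.cost
  have e1 : ∀ a b c' e a' b' c'' e' : ℝ, a + b + c' + e + (a' + b' + c'' + e') =
      (a + a') + (b + b') + (c' + c'') + (e + e') := fun _ _ _ _ _ _ _ _ => by ring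
  rw [e1, ← Finset.sum_add_distrib, ← Finset.sum_add_distrib, ← Finset.sum_add_distrib,
    ← Finset.sum_add_distrib]
  refine congrArg₂ (· + ·) (congrArg₂ (· + ·) (congrArg₂ (· + ·)
    (Finset.sum_congr rfl fun _ _ => by ring) rfl)
    (Finset.sum_congr rfl fun _ _ => ?_)) (Finset.sum_congr rfl fun _ _ => ?_)
  · rw [← Finset.sum_add_distrib]
    exact Finset.sum_congr rfl fun _ _ => by ring
  · rw [← add_div]
    congr 1
    rw [Finset.sum_sub_distrib, Finset.sum_sub_distrib, Finset.sum_sub_distrib,
      Finset.sum_add_distrib, Finset.sum_add_distrib]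
    ring

section HubE6b

variable {V S : Type} [Fintype V] [DecidableEq V] [Fintype S]
  {side : V → Bool} {A : Matrix S S ℝ} {μ : S → ℝ} {c : S → Bool}

/-- A family of plans, possibly for different sides, gives two laws, one for each orientation of
the chain. -/
theorem plans_law_two (h : Rev A μ c) {H : SimpleGraph V}
    (hs : ∀ u v, H.Adj u v → side u ≠ side v) (hi : ∀ v, ∃ u, H.Adj v u) {ι : Type} [Fintype ι]
    [Nonempty ι] {s : ι → Bool} (P : (i : ι) → Plan H side (s i)) {k : ℝ}
    (hk : ∀ m, 2 ≤ m → -(k * Fintype.card ι) ≤ ∑ i, (P i).gain m) :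
    ∃ (d : Bool → ℕ → ℝ) (M : ℕ) (ρ L ρ' L' : (V → S) → ℝ) (F F' : ℝ),
      (∀ (side' : V → Bool) (b : Bool) (X : Finset V), (∀ x ∈ X, side' x = b) →
        Books.dd side' A μ c X = d b X.card) ∧
      (∀ b, d b 0 = 0) ∧ (∀ b, d b 1 = 0) ∧ (M = 0 ∨ M + 1 = Fintype.card V) ∧
      LawG H side A μ c univ ρ L F ∧ LawG H (fun v => !side v) A μ c univ ρ' L' F' ∧
      -(k * (d true (M + 1) - d true M + (d false (M + 1) - d false M))) ≤ F + F' := by
  obtain ⟨d, d0, d1, dc, hdd⟩ := exists_dcol V h
  obtain ⟨i, hi'⟩ := plans_cost_ge hs hi P hk (d := fun n => d true n + d false n)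
    (by simp only [d0, add_zero]) (by simp only [d1, add_zero]) (M := Fintype.card V - 1)
    (fun i => (Finset.card_le_univ _).trans (by omega))
    (fun j hj => by
      have h1 := mem_range.1 hj
      have h2 := dc true j (by omega)
      have h3 := dc false j (by omega)
      linarith)
  obtain ⟨ρ, L, hl⟩ := plan_law h hs hi (P i) (d0 (s i)) fun X hX => hdd side (s i) X hX
  obtain ⟨ρ', L', hl'⟩ := plan_law h (H := H) (side := fun v => !side v)
    (fun u v huv => by
      have := hs u v huv
      cases h1 : side u <;> cases h2 : side v <;> simp_all) hi (P i).flip (d0 (!(s i)))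
    fun X hX => hdd _ (!(s i)) X hX
  rw [Plan.cost_flip] at hl'
  refine ⟨d, Fintype.card V - 1, ρ, L, ρ', L', _, _, hdd, d0, d1, ?_, hl, hl', ?_⟩
  · omega
  · rw [Plan.cost_add] at hi'
    have e1 : (P i).cost (d (s i)) + (P i).cost (d (!(s i))) =
        (P i).cost (d true) + (P i).cost (d false) := by
      have e0 : ∀ (f : Bool → ℝ) (b : Bool), f b + f (!b) = f true + f false := by
        intro f b
        cases b
        · exact add_comm _ _
        · rfl
      exact e0 (fun b => (P i).cost (d b)) (s i)
    rw [e1]
    refine le_trans (le_of_eq ?_) hi'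
    ring

end HubE6b

end Vale.Agent.P050.Books
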