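import Vale.Agent.P050.R2.H545.HubE6
import Vale.Agent.P050.R5.H557.Near2

/-!
# P050: the near form of the theorem on plans, for one side
-/

namespace Vale.Agent.P050.Books

open Finset Vale.Agent.P050.Lev Vale.Agent.P050.Ears

/-- NEAR FORM for plans of one side -/
theorem near_of_plans_one {V : Type} [Fintype V] [DecidableEq V] {H : SimpleGraph V}
    {side : V → Bool} (hs : ∀ u v, H.Adj u v → side u ≠ side v) (hi : ∀ v, ∃ u, H.Adj v u)
    {σ : Bool} {ι : Type} [Fintype ι] [Nonempty ι] (P : ι → Plan H side σ) {k : ℝ} (hk0 : 0 ≤ k)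
    (hk : ∀ m, 2 ≤ m → -(k * Fintype.card ι) ≤ ∑ i, (P i).gain m) (H₀ : SimpleGraph V)
    (hH₀ : H₀ ≤ H) (U : Type) [Finite U] [Nonempty U] (G : SimpleGraph U) :
    edgeDensity G ^ ((Nat.card H.edgeSet : ℝ) + k) ≤ homDensity H₀ G := by
  refine near_of_rev H side hs hi k hk0 ?_ H₀ hH₀ U G
  intro S _ _ _ A μ c h δ hδ hδ1 hA
  obtain ⟨d, M, ρ, L, F, hdd, d0, d1, hM, hl, hF⟩ := plans_law_one (A := A) (μ := μ) (c := c)
    h hs hi P hk
  refine LawG.near h hl hk0 hF ?_ hδ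
  rcases hM with rfl | hM
  · rw [d0, zero_add, d1, sub_zero]
    exact neg_nonneg.2 (Real.log_nonpos hδ.le hδ1)
  · exact d_succ_le h hdd hM hδ hδ1 hA

end Vale.Agent.P050.Books
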