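import Vale.Agent.P050.R2.H545.HubE7
import Vale.Agent.P050.R5.H557.Near3

/-!
# P050: the near form of the theorem on plans, both sides pooled
-/

namespace Vale.Agent.P050.Books

open Finset Vale.Agent.P050.Lev Vale.Agent.P050.Ears

/-- NEAR FORM for plans of both sides -/
theorem near_of_plans {V : Type} [Fintype V] [DecidableEq V] {H : SimpleGraph V}
    {side : V → Bool} (hs : ∀ u v, H.Adj u v → side u ≠ side v) (hi : ∀ v, ∃ u, H.Adj v u)
    {ι : Type} [Fintype ι] [Nonempty ι] {s : ι → Bool} (P : (i : ι) → Plan H side (s i)) {k : ℝ}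
    (hk0 : 0 ≤ k) (hk : ∀ m, 2 ≤ m → -(k * Fintype.card ι) ≤ ∑ i, (P i).gain m)
    (H₀ : SimpleGraph V) (hH₀ : H₀ ≤ H) (U : Type) [Finite U] [Nonempty U] (G : SimpleGraph U) :
    edgeDensity G ^ ((Nat.card H.edgeSet : ℝ) + k) ≤ homDensity H₀ G := by
  refine near_of_rev2 H side hs hi k hk0 ?_ H₀ hH₀ U G
  intro S _ _ _ A μ c h δ hδ hδ1 hA
  obtain ⟨d, M, ρ, L, ρ', L', F, F', hdd, d0, d1, hM, hl, hl', hF⟩ := plans_law_two (A := A)
    (μ := μ) (c := c) h hs hi P hk
  have hlog : 0 ≤ -Real.log δ := neg_nonneg.2 (Real.log_nonpos hδ.le hδ1)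
  have hb : ∀ b, d b (M + 1) - d b M ≤ -Real.log δ := by
    intro b
    rcases hM with rfl | hM
    · rw [d0, zero_add, d1, sub_zero]
      exact hlog
    · refine d_succ_le (V := V) (side := fun _ => b) (σ := b) h (fun X hX => hdd _ b X hX) ?_
        hδ hδ1 hA
      rw [hM]
      simp
  have h1 := hl.exp_le h
  have h2 := hl'.exp_le h
  have h3 : δ ^ (2 * k) ≤ Real.exp (F + F') := by
    rw [Real.rpow_def_of_pos hδ]
    refine Real.exp_le_exp.2 (le_trans ?_ hF)
    have h4 := mul_le_mul_of_nonneg_left (add_le_add (hb true) (hb false)) hk0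
    linarith
  rw [Real.exp_add] at h3
  exact h3.trans (mul_le_mul h1 h2 (Real.exp_pos _).le ((Real.exp_pos _).le.trans h1))

end Vale.Agent.P050.Books
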