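import Vale.Agent.P050.R2.H545.Girth3
import Vale.Agent.P050.R2.H901.Robust

/-!
Costs and gains in the language of graphs.
-/

set_option linter.unusedSectionVars false

namespace Vale.Agent.P050.R2.H545

open Finset Vale.Agent.P050.Lev Vale.Agent.P050.H148 Vale.Agent.P050.R2.H901

variable {V : Type} [Fintype V] [DecidableEq V] {H : SimpleGraph V} {s : V → Bool} {b0 : V}

theorem KK_eq_KG (hs : ∀ u v, H.Adj u v → s u ≠ s v) (b1 : BT s) {F : Finset V} (D : ℕ)
    (hF : ∀ a ∈ F, s a = false) :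
    KK (NN H s) b1 (F.subtype (fun v => s v = false)) D = KG H b1.1 F D := by
  classical
  unfold KK KG
  rw [← Finset.sum_subtype_of_mem (p := fun v => s v = false)
    (fun a => dG H a * (1 + qG H b1.1 a + D * (dG H a - 1))) hF]
  refine Finset.sum_congr rfl fun a _ => ?_
  rw [rr_eq hs, qq_eq hs]
  rfl

theorem gam_empty (hs : ∀ u v, H.Adj u v → s u ≠ s v) (b1 : BT s) (D : ℕ) :
    ∑ b ∈ univ.erase b1, ((NN H s b).card + 1 - D) = gG H s b1.1 ∅ D := by
  classical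
  rw [← gam_eq hs b1 (F := ∅) (F' := ∅) D (by simp) (by simp)]
  unfold gam
  refine Finset.sum_congr ?_ fun b _ => ?_
  · ext b
    simp
  · simp [Blk]

/-- the gains pay for the costs -/
theorem robust_le (hs : ∀ u v, H.Adj u v → s u ≠ s v) (hb0 : ¬ s b0 = false) {F : Finset V}
    {D : ℕ} (hD : 2 ≤ D) (hoff : ∀ a ∈ F, s a = false ∧ ¬ H.Adj b0 a)
    (hdeg : ∀ a ∈ F, ∀ b, H.Adj a b → dG H b ≤ D) (hdF : ∀ a ∈ F, dH H b0 a ≤ D)
    (hdV : ∀ a ∈ F, ∀ b v, H.Adj a b → H.Adj b v → dH H b0 v ≤ D)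
    (hm : D ^ 4 * F.card ≤ gG H s b0 ∅ D) : KG H b0 F D ≤ gG H s b0 F D := by
  classical
  set b1 : BT s := ⟨b0, hb0⟩ with hb1
  have hF := fun a ha => (hoff a ha).1
  have hmem : ∀ a : AT s, a ∈ F.subtype (fun v => s v = false) ↔ a.1 ∈ F := fun a => by
    rw [Finset.mem_subtype]
  have hcard : (F.subtype (fun v => s v = false)).card = F.card := by
    rw [Finset.card_subtype, Finset.filter_true_of_mem hF]
  have hcnt : ∀ v : AT s, (univ.filter fun b : BT s => b ≠ b1 ∧ v ∈ NN H s b).card =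
      dH H b0 v.1 := by
    intro v
    unfold dH
    refine card_sub _ (fun b => b ≠ b0 ∧ H.Adj v.1 b) _ (fun b => ?_) fun b hb =>
      other_true hs hb.2 v.2
    rw [mem_NN, hb1, ne_eq, Subtype.ext_iff, SimpleGraph.adj_comm]
  have h := KK_le_gam (N := NN H s) (b0 := b1) (F := F.subtype (fun v => s v = false)) (D := D) hD
    (fun a ha h1 => (hoff a.1 ((hmem a).1 ha)).2 (mem_NN.1 h1))
    (fun a ha b h1 => by
      rw [card_NN hs]
      exact hdeg a.1 ((hmem a).1 ha) b.1 (mem_NN.1 h1).symm)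
    (fun a ha => by
      rw [hcnt]
      exact hdF a.1 ((hmem a).1 ha))
    (fun v hv => by
      rw [hcnt]
      obtain ⟨b, hb, hvb⟩ := Finset.mem_biUnion.1 hv
      obtain ⟨_, a, ha, hab⟩ := Finset.mem_filter.1 hb
      exact hdV a.1 ((hmem a).1 ha) b.1 v.1 (mem_NN.1 hab).symm (mem_NN.1 hvb))
    (by rw [hcard, gam_empty hs]; exact hm)
  rwa [KK_eq_KG hs b1 D hF, gam_eq hs b1 D hF hmem] at h

end Vale.Agent.P050.R2.H545
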