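import Vale.Agent.P050.H148.NearGraph
import Vale.Agent.P050.R2.H901.Defs

/-!
Graphs with a 2-colouring in the language of neighbourhoods.
-/

set_option linter.unusedSectionVars false

namespace Vale.Agent.P050.R2.H545

open Finset Vale.Agent.P050.Lev Vale.Agent.P050.H148 Vale.Agent.P050.R2.H901

/-- cardinality of a subset of a subtype -/
theorem card_sub {V : Type} [Fintype V] (p : V → Prop) [DecidablePred p] (P : V → Prop)
    (Q : {v // p v} → Prop) [DecidablePred Q] (hQ : ∀ v, Q v ↔ P v.1) (h : ∀ v, P v → p v) :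
    (univ.filter Q).card = Nat.card {v : V // P v} := by
  classical
  rw [Nat.card_eq_fintype_card, Fintype.card_subtype,
    ← Finset.card_map (Function.Embedding.subtype p)]
  congr 1
  ext v
  simp only [Finset.mem_map, Finset.mem_filter, Finset.mem_univ, true_and,
    Function.Embedding.subtype_apply, Subtype.exists, exists_and_right, exists_eq_right]
  constructor
  · rintro ⟨h1, h2⟩
    exact (hQ _).1 h2
  · intro h1
    exact ⟨h v h1, (hQ _).2 h1⟩

variable {V : Type} [Fintype V] [DecidableEq V] {H : SimpleGraph V} {s : V → Bool}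

/-- the part `false` -/
abbrev AT (s : V → Bool) : Type := {v : V // s v = false}

/-- the part `true` -/
abbrev BT (s : V → Bool) : Type := {v : V // ¬ s v = false}

open Classical in
/-- the neighbourhoods of the vertices of the part `true` -/
noncomputable def NN (H : SimpleGraph V) (s : V → Bool) (b : BT s) : Finset (AT s) :=
  univ.filter fun a => H.Adj b.1 a.1

theorem mem_NN {b : BT s} {a : AT s} : a ∈ NN H s b ↔ H.Adj b.1 a.1 := by
  simp [NN]

theorem other_true (hs : ∀ u v, H.Adj u v → s u ≠ s v) {u v : V} (h : H.Adj u v)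
    (hu : s u = false) : ¬ s v = false := fun h2 => hs u v h (hu.trans h2.symm)

theorem other_false (hs : ∀ u v, H.Adj u v → s u ≠ s v) {u v : V} (h : H.Adj u v)
    (hu : ¬ s u = false) : s v = false := by
  have h1 := hs u v h
  cases hv : s v
  · rfl
  · cases hu' : s u
    · exact absurd hu' hu
    · exact absurd (hu'.trans hv.symm) h1

theorem card_NN (hs : ∀ u v, H.Adj u v → s u ≠ s v) (b : BT s) :
    (NN H s b).card = Nat.card {v : V // H.Adj b.1 v} := by
  classical
  exact card_sub (fun v => s v = false) (fun v => H.Adj b.1 v) (fun a : AT s => H.Adj b.1 a.1)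
    (fun _ => Iff.rfl) fun _ hv => other_false hs hv b.2

theorem rr_eq (hs : ∀ u v, H.Adj u v → s u ≠ s v) (a : AT s) :
    rr (NN H s) a = Nat.card {b : V // H.Adj a.1 b} := by
  refine card_sub _ _ _ (fun b => ?_) fun _ hv => other_true hs hv a.2
  rw [mem_NN]
  exact ⟨fun h => h.symm, fun h => h.symm⟩

theorem disj_NN {b b' : BT s} (hs : ∀ u v, H.Adj u v → s u ≠ s v) :
    Disjoint (NN H s b) (NN H s b') ↔ ∀ v, ¬ (H.Adj b.1 v ∧ H.Adj b'.1 v) := by
  rw [Finset.disjoint_left]
  constructor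
  · rintro h v ⟨h1, h2⟩
    exact h (a := ⟨v, other_false hs h1 b.2⟩) (mem_NN.2 h1) (mem_NN.2 h2)
  · intro h a h1 h2
    exact h a.1 ⟨mem_NN.1 h1, mem_NN.1 h2⟩

theorem qq_eq (hs : ∀ u v, H.Adj u v → s u ≠ s v) (b0 : BT s) (a : AT s) :
    qq (NN H s) b0 a = Nat.card {b : V // b ≠ b0.1 ∧ ¬ H.Adj a.1 b ∧
      ∃ v b', H.Adj a.1 b' ∧ H.Adj b' v ∧ H.Adj b v} := by
  refine card_sub _ _ _ (fun b => ?_) ?_
  · rw [mem_NN, ne_eq, Subtype.ext_iff, SimpleGraph.adj_comm H b.1 a.1]
    refine and_congr Iff.rfl (and_congr Iff.rfl ?_)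
    constructor
    · rintro ⟨b', h1, h2⟩
      rw [disj_NN hs] at h2
      push Not at h2
      obtain ⟨v, h3, h4⟩ := h2
      exact ⟨v, b'.1, (mem_NN.1 h1).symm, h4, h3⟩
    · rintro ⟨v, b', h1, h2, h3⟩
      refine ⟨⟨b', other_true hs h1 a.2⟩, mem_NN.2 h1.symm, ?_⟩
      rw [disj_NN hs]
      push Not
      exact ⟨v, h3, h2⟩
  · rintro b ⟨-, -, v, b', h1, h2, h3⟩
    have h4 := other_true hs h1 a.2
    have h5 := other_false hs h2 h4
    exact other_true hs h3.symm h5

theorem nf_eq (hs : ∀ u v, H.Adj u v → s u ≠ s v) (b0 : BT s) (F : Finset (AT s)) (D : ℕ) :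
    nf (NN H s) b0 F D = Nat.card {b : V // ¬ s b = false ∧ b ≠ b0.1 ∧
      D ≤ Nat.card {v : V // H.Adj b v} ∧ ∀ a ∈ F, ∀ b' v, H.Adj a.1 b' →
        ¬ (H.Adj b v ∧ H.Adj b' v)} := by
  refine card_sub _ _ _ (fun b => ?_) fun _ hv => hv.1
  rw [ne_eq, Subtype.ext_iff, card_NN hs]
  constructor
  · rintro ⟨h1, h2, h3⟩
    refine ⟨b.2, h1, h2, fun a ha b' v h4 h5 => ?_⟩
    have h6 := h3 a ha ⟨b', other_true hs h4 a.2⟩ (mem_NN.2 h4.symm)
    rw [disj_NN hs] at h6
    exact h6 v h5
  · rintro ⟨-, h1, h2, h3⟩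
    refine ⟨h1, h2, fun a ha b' h4 => ?_⟩
    rw [disj_NN hs]
    exact fun v => h3 a ha b'.1 v (mem_NN.1 h4).symm

theorem sum_card_NN (hs : ∀ u v, H.Adj u v → s u ≠ s v) :
    ∑ b, (NN H s b).card = Nat.card H.edgeSet := by
  classical
  rw [← card_sideEdges H s hs, ← Finset.card_sigma]
  refine Finset.card_bij (fun e _ => (e.2.1, e.1.1)) ?_ ?_ ?_
  · rintro ⟨b, a⟩ he
    have h1 : H.Adj b.1 a.1 := mem_NN.1 (Finset.mem_sigma.1 he).2
    have h2 : s b.1 = true := by
      have := b.2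
      cases h : s b.1
      · exact absurd h this
      · rfl
    simp [sideEdges, h1.symm, a.2, h2]
  · rintro ⟨b, a⟩ _ ⟨b', a'⟩ _ h
    simp only [Prod.mk.injEq] at h
    obtain ⟨h1, h2⟩ := h
    have h3 := Subtype.ext h1
    have h4 := Subtype.ext h2
    subst h3 h4
    rfl
  · rintro ⟨u, v⟩ he
    simp only [sideEdges, Finset.mem_filter, Finset.mem_univ, true_and] at he
    refine ⟨⟨⟨v, by simp [he.2.2]⟩, ⟨u, he.2.1⟩⟩, ?_, rfl⟩
    rw [Finset.mem_sigma]
    exact ⟨Finset.mem_univ _, mem_NN.2 he.1.symm⟩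

theorem pp_eq {U : Type} [Fintype U] (m : Bool → U → ℝ) (W : U → U → ℝ) :
    pp (m false) (m true) W = kernelMean m W := rfl

theorem tt_eq {U : Type} [Fintype U] (m : Bool → U → ℝ)
    (W : U → U → ℝ) : tt (m false) (m true) W (NN H s) = kernelDensity H s m W := by
  classical
  unfold tt kernelDensity
  rw [← Equiv.sum_comp (Equiv.piEquivPiSubtypeProd (fun v => s v = false) (fun _ => U)).symm,
    Fintype.sum_prod_type]
  refine Finset.sum_congr rfl fun x _ => ?_
  rw [Finset.prod_univ_sum, Fintype.piFinset_univ, Finset.mul_sum]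
  refine Finset.sum_congr rfl fun y _ => ?_
  set z : V → U := (Equiv.piEquivPiSubtypeProd (fun v => s v = false) (fun _ => U)).symm (x, y)
    with hz
  have hzx : ∀ a : AT s, z a.1 = x a := by
    intro a
    rw [hz]
    simp [Equiv.piEquivPiSubtypeProd, a.2]
  have hzy : ∀ b : BT s, z b.1 = y b := by
    intro b
    rw [hz]
    simp [Equiv.piEquivPiSubtypeProd, b.2]
  rw [Finset.prod_mul_distrib, ← mul_assoc]
  congr 1
  · rw [← Fintype.prod_subtype_mul_prod_subtype (fun v => s v = false)]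
    congr 1
    · refine Finset.prod_congr rfl fun a _ => ?_
      rw [hzx, a.2]
    · refine Finset.prod_congr rfl fun b _ => ?_
      have h2 : s b.1 = true := by
        have := b.2
        cases h : s b.1
        · exact absurd h this
        · rfl
      rw [hzy, h2]
  · rw [Finset.prod_sigma']
    refine Finset.prod_bij (fun e _ => (e.2.1, e.1.1)) ?_ ?_ ?_ ?_
    · rintro ⟨b, a⟩ he
      have h1 : H.Adj b.1 a.1 := mem_NN.1 (Finset.mem_sigma.1 he).2
      have h2 : s b.1 = true := by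
        have := b.2
        cases h : s b.1
        · exact absurd h this
        · rfl
      simp [sideEdges, h1.symm, a.2, h2]
    · rintro ⟨b, a⟩ _ ⟨b', a'⟩ _ h
      simp only [Prod.mk.injEq] at h
      obtain ⟨h1, h2⟩ := h
      have h3 := Subtype.ext h1
      have h4 := Subtype.ext h2
      subst h3 h4
      rfl
    · rintro ⟨u, v⟩ he
      simp only [sideEdges, Finset.mem_filter, Finset.mem_univ, true_and] at he
      refine ⟨⟨⟨v, by simp [he.2.2]⟩, ⟨u, he.2.1⟩⟩, ?_, rfl⟩
      rw [Finset.mem_sigma]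
      exact ⟨Finset.mem_univ _, mem_NN.2 he.1.symm⟩
    · rintro ⟨b, a⟩ _
      rw [hzx, hzy]

end Vale.Agent.P050.R2.H545
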