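import Vale.Agent.P050.R2.H545.Core
import Vale.Agent.P050.R2.H901.Defs3

/-!
Graphs with a 2-colouring in the language of neighbourhoods: acyclic arms, gains with multiplicity.
-/

set_option linter.unusedSectionVars false

namespace Vale.Agent.P050.R2.H545

open Finset Vale.Agent.P050.Lev Vale.Agent.P050.H148 Vale.Agent.P050.R2.H901

variable {V : Type} [Fintype V] [DecidableEq V] {H : SimpleGraph V} {s : V → Bool}

/-- the neighbours of `a` can be ordered by `f` with running intersections -/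
def AcycG (H : SimpleGraph V) (a : V) : Prop :=
  ∃ f : V → ℕ, (∀ b b', H.Adj a b → H.Adj a b' → f b = f b' → b = b') ∧
    ∀ b, H.Adj a b → (∃ b₁, H.Adj a b₁ ∧ f b₁ < f b) → ∃ b', H.Adj a b' ∧ f b' < f b ∧
      ∀ b'', H.Adj a b'' → f b'' < f b → ∀ v, H.Adj b v → H.Adj b'' v → H.Adj b' v

open Classical in
/-- the gains -/
noncomputable def gG (H : SimpleGraph V) (s : V → Bool) (b0 : V) (F : Finset V) (D : ℕ) : ℕ :=
  ∑ b ∈ univ.filter (fun b => ¬ s b = false ∧ b ≠ b0 ∧ ∀ a ∈ F, ¬ H.Adj a b),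
    (Nat.card {v : V // H.Adj b v ∧ ∀ a ∈ F, ∀ b', H.Adj a b' → ¬ H.Adj b' v} + 1 - D)

/-- conditions on the set of centres of blocks -/
structure GBlocks2 (H : SimpleGraph V) (s : V → Bool) (b0 : V) (F : Finset V) (D : ℕ) : Prop where
  off : ∀ a ∈ F, s a = false ∧ ¬ H.Adj b0 a
  deg : ∀ a ∈ F, ∀ b, H.Adj a b → dG H b ≤ D
  arms : ∀ a ∈ F, AcycG H a
  apart : ∀ a ∈ F, ∀ a' ∈ F, a ≠ a' → ∀ b b' v, H.Adj a b → H.Adj a' b' →
    ¬ (H.Adj b v ∧ H.Adj b' v)

theorem AcycG.acyc (hs : ∀ u v, H.Adj u v → s u ≠ s v) {a : AT s} (h : AcycG H a.1) :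
    Acyc (NN H s) a := by
  obtain ⟨f, h1, h2⟩ := h
  refine ⟨fun b => f b.1, ?_, ?_⟩
  · intro b b' hb hb' e
    exact Subtype.ext (h1 b.1 b'.1 (mem_NN.1 hb).symm (mem_NN.1 hb').symm e)
  · rintro b hb ⟨b₁, hb₁, hlt⟩
    obtain ⟨b', h3, h4, h5⟩ := h2 b.1 (mem_NN.1 hb).symm ⟨b₁.1, (mem_NN.1 hb₁).symm, hlt⟩
    refine ⟨⟨b', other_true hs h3 a.2⟩, mem_NN.2 h3.symm, h4, ?_⟩
    intro b'' hb'' hlt' v hv
    rw [Finset.mem_inter] at hv
    exact mem_NN.2 (h5 b''.1 (mem_NN.1 hb'').symm hlt' v.1 (mem_NN.1 hv.1) (mem_NN.1 hv.2))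

theorem gam_eq (hs : ∀ u v, H.Adj u v → s u ≠ s v) (b1 : BT s) {F : Finset V} (D : ℕ)
    (hF : ∀ a ∈ F, s a = false) {F' : Finset (AT s)} (hF' : ∀ a : AT s, a ∈ F' ↔ a.1 ∈ F) :
    gam (NN H s) b1 F' D = gG H s b1.1 F D := by
  classical
  have key : ∀ b : BT s, (NN H s b \ Blk (NN H s) F').card =
      Nat.card {v : V // H.Adj b.1 v ∧ ∀ a ∈ F, ∀ b', H.Adj a b' → ¬ H.Adj b' v} := by
    intro b
    have e : NN H s b \ Blk (NN H s) F' = univ.filter fun v : AT s =>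
        H.Adj b.1 v.1 ∧ ∀ a ∈ F, ∀ b', H.Adj a b' → ¬ H.Adj b' v.1 := by
      ext v
      simp only [Finset.mem_sdiff, mem_NN, Blk, Finset.mem_biUnion, Finset.mem_filter,
        Finset.mem_univ, true_and, not_exists, not_and]
      refine and_congr Iff.rfl ?_
      constructor
      · intro h a ha b' hb'
        exact h ⟨b', other_true hs hb' (hF a ha)⟩ ⟨⟨a, hF a ha⟩, (hF' _).2 ha, hb'.symm⟩
      · rintro h b' ⟨a, ha, hb'⟩
        exact h a.1 ((hF' a).1 ha) b'.1 (SimpleGraph.Adj.symm hb')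
    rw [e]
    exact card_sub (fun v => s v = false)
      (fun v => H.Adj b.1 v ∧ ∀ a ∈ F, ∀ b', H.Adj a b' → ¬ H.Adj b' v) _ (fun _ => Iff.rfl)
      fun v hv => other_false hs hv.1 b.2
  unfold gam gG
  refine Finset.sum_bij (fun b _ => b.1) ?_ ?_ ?_ ?_
  · intro b hb
    simp only [Finset.mem_filter, Finset.mem_univ, true_and, ne_eq, Subtype.ext_iff] at hb ⊢
    refine ⟨b.2, hb.1, fun a ha h => ?_⟩
    exact hb.2 ⟨a, hF a ha⟩ ((hF' _).2 ha) (mem_NN.2 h.symm)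
  · intro b _ b' _ h
    exact Subtype.ext h
  · intro b hb
    simp only [Finset.mem_filter, Finset.mem_univ, true_and] at hb
    refine ⟨⟨b, hb.1⟩, ?_, rfl⟩
    simp only [Finset.mem_filter, Finset.mem_univ, true_and, ne_eq, Subtype.ext_iff]
    exact ⟨hb.2.1, fun a ha h => hb.2.2 a.1 ((hF' a).1 ha) (mem_NN.1 h).symm⟩
  · intro b _
    rw [key]

theorem est2 (hcore : CoreStmt2) (hs : ∀ u v, H.Adj u v → s u ≠ s v) {b0 : V}
    (hb0 : ¬ s b0 = false) (hne : ∃ v, H.Adj b0 v) {F : Finset V} {D : ℕ} (hD : 1 ≤ D)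
    (hB : GBlocks2 H s b0 F D) {U : Type} [Fintype U] {m : Bool → U → ℝ} {W : U → U → ℝ}
    (m0 : ∀ b x, 0 ≤ m b x) (m1 : ∀ b, ∑ x, m b x = 1) (hW : ∀ x y, 0 ≤ W x y)
    (hp : 0 < kernelMean m W)
    (hW1 : ∀ v, s v = false → v ∉ F → ¬ H.Adj b0 v → ∀ x y, W x y ≤ 1) :
    0 < kernelDensity H s m W ∧
    ((Nat.card H.edgeSet : ℝ) + wG H s b0 - F.card) * Real.log (kernelMean m W) +
      ((gG H s b0 F D : ℝ) - KG H b0 F D) * gg (m false) (m true) W (D - 1) ≤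
      Real.log (kernelDensity H s m W) := by
  classical
  set b1 : BT s := ⟨b0, hb0⟩ with hb1
  set F' : Finset (AT s) := F.subtype (fun v => s v = false) with hF'
  have hmem : ∀ a : AT s, a ∈ F' ↔ a.1 ∈ F := fun a => by rw [hF', Finset.mem_subtype]
  have hcard : F'.card = F.card := by
    rw [hF', Finset.card_subtype, Finset.filter_true_of_mem fun a ha => (hB.off a ha).1]
  have hbl : Blocks2 (NN H s) b1 F' D := by
    refine ⟨?_, ?_, ?_, ?_, ?_⟩
    · obtain ⟨v, hv⟩ := hne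
      exact ⟨⟨v, other_false hs hv hb0⟩, mem_NN.2 hv⟩
    · intro a ha h
      exact (hB.off a.1 ((hmem a).1 ha)).2 (mem_NN.1 h)
    · intro a ha b h
      rw [card_NN hs]
      exact hB.deg a.1 ((hmem a).1 ha) b.1 (mem_NN.1 h).symm
    · intro a ha
      exact (hB.arms a.1 ((hmem a).1 ha)).acyc hs
    · intro a ha a' ha' h1 b b' h2 h3
      rw [disj_NN hs]
      intro v
      exact hB.apart a.1 ((hmem a).1 ha) a'.1 ((hmem a').1 ha') (fun h => h1 (Subtype.ext h))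
        b.1 b'.1 v (mem_NN.1 h2).symm (mem_NN.1 h3).symm
  have key := hcore (AT s) (BT s) U U (m false) (m true) W (NN H s) b1 F' D (m0 false) (m1 false)
    (m0 true) (m1 true) hW (by rw [pp_eq]; exact hp) hD hbl (fun v h1 h2 => hW1 v.1 v.2
      (fun h => h1 ((hmem v).2 h)) (fun h => h2 (mem_NN.2 h)))
  rw [tt_eq, pp_eq] at key
  have e1 : (∑ b, ((NN H s b).card : ℝ)) = (Nat.card H.edgeSet : ℝ) := by
    rw [← sum_card_NN hs]
    push_cast
    rfl
  have e2 : (Fintype.card (AT s) : ℝ) = wG H s b0 + (NN H s b1).card := by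
    rw [← wG_eq (H := H) b1]
    push_cast
    rfl
  have e3 : gam (NN H s) b1 F' D = gG H s b0 F D :=
    gam_eq hs b1 D (fun a ha => (hB.off a ha).1) hmem
  have e4 : KK (NN H s) b1 F' D = KG H b0 F D := by
    unfold KK KG
    rw [← Finset.sum_subtype_of_mem (p := fun v => s v = false)
      (fun a => dG H a * (1 + qG H b0 a + D * (dG H a - 1))) (fun a ha => (hB.off a ha).1)]
    refine Finset.sum_congr rfl fun a _ => ?_
    rw [rr_eq hs, qq_eq hs]
    rfl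
  rw [e1, e2, e3, e4, hcard] at key
  refine ⟨key.1, le_trans (le_of_eq ?_) key.2⟩
  ring

theorem empty_blocks2 (b0 : V) (D : ℕ) : GBlocks2 H s b0 ∅ D :=
  ⟨by simp, by simp, by simp, by simp⟩

theorem card_le_wG2 {b0 : V} {F : Finset V} {D : ℕ} (hB : GBlocks2 H s b0 F D) :
    F.card ≤ wG H s b0 := by
  classical
  unfold wG
  rw [Nat.card_eq_fintype_card, Fintype.card_subtype]
  exact Finset.card_le_card fun a ha => by simp [(hB.off a ha).1, (hB.off a ha).2]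

/-- the estimates together; `k` is at least the cost minus the gains -/
theorem mix2 (hcore : CoreStmt2) (hg : GNonneg) (hs : ∀ u v, H.Adj u v → s u ≠ s v) {b0 : V}
    (hb0 : ¬ s b0 = false) (hne : ∃ v, H.Adj b0 v) {F : Finset V} {D : ℕ} (hD : 1 ≤ D)
    (hB : GBlocks2 H s b0 F D) {U : Type} [Fintype U] {m : Bool → U → ℝ} {W : U → U → ℝ}
    (m0 : ∀ b x, 0 ≤ m b x) (m1 : ∀ b, ∑ x, m b x = 1) (hW : ∀ x y, 0 ≤ W x y)
    (hp : 0 < kernelMean m W) (hW1 : ∀ x y, W x y ≤ 1) {k : ℕ}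
    (hk : KG H b0 F D ≤ gG H s b0 F D + k) :
    0 < kernelDensity H s m W ∧
    ((Nat.card H.edgeSet : ℝ) + wG H s b0) * Real.log (kernelMean m W) ≤
      Real.log (kernelDensity H s m W) ∧
    (((gG H s b0 ∅ D : ℝ) + k) * ((Nat.card H.edgeSet : ℝ) + wG H s b0) -
      gG H s b0 ∅ D * F.card) * Real.log (kernelMean m W) ≤
      ((gG H s b0 ∅ D : ℝ) + k) * Real.log (kernelDensity H s m W) ∧
    (k = 0 → ((Nat.card H.edgeSet : ℝ) + wG H s b0 - F.card) * Real.log (kernelMean m W) ≤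
      Real.log (kernelDensity H s m W)) := by
  obtain ⟨hpos, h1⟩ := est2 hcore hs hb0 hne hD hB m0 m1 hW hp fun _ _ _ _ => hW1
  obtain ⟨_, h2⟩ := est2 hcore hs hb0 hne hD (empty_blocks2 b0 D) m0 m1 hW hp fun _ _ _ _ => hW1
  rw [KG_empty] at h2
  have h3 := hg U U (m false) (m true) W (D - 1) (m0 false) (m1 false) (m0 true) (m1 true) hW
    (by rw [pp_eq]; exact hp)
  simp only [Finset.card_empty, Nat.cast_zero, sub_zero] at h2
  have hn : (0 : ℝ) ≤ gG H s b0 ∅ D := Nat.cast_nonneg _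
  have hk0 : (0 : ℝ) ≤ k := Nat.cast_nonneg _
  have hk' : (KG H b0 F D : ℝ) ≤ gG H s b0 F D + k := by exact_mod_cast hk
  have h7 : ((Nat.card H.edgeSet : ℝ) + wG H s b0 - F.card) * Real.log (kernelMean m W) -
      k * gg (m false) (m true) W (D - 1) ≤ Real.log (kernelDensity H s m W) := by
    have h8 : 0 ≤ ((gG H s b0 F D : ℝ) + k - KG H b0 F D) * gg (m false) (m true) W (D - 1) :=
      mul_nonneg (by linarith) h3
    nlinarith
  refine ⟨hpos, ?_, ?_, ?_⟩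
  · nlinarith [mul_nonneg hn h3]
  · have h4 := mul_le_mul_of_nonneg_left h7 hn
    have h5 := mul_le_mul_of_nonneg_left h2 hk0
    nlinarith
  · rintro rfl
    simpa using h7

end Vale.Agent.P050.R2.H545
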