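import Vale.Agent.P050.R2.H545.Cubic
import Vale.Agent.P050.R2.H901.Asm2
import Vale.Agent.P050.H148.Graph

/-!
The theorem in plain terms.
-/

namespace Vale.Agent.P050.R2.H545

open Vale.Agent.P050 Vale.Agent.P050.Lev Vale.Agent.P050.H148 Vale.Agent.P050.R2.H901

/-- the neighbours of `a` are ordered by `f` with running intersections -/
def Arms {V : Type} (H : SimpleGraph V) (a : V) : Prop :=
  ∃ f : V → ℕ, (∀ b b', H.Adj a b → H.Adj a b' → f b = f b' → b = b') ∧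
    ∀ b, H.Adj a b → (∃ b₁, H.Adj a b₁ ∧ f b₁ < f b) → ∃ b', H.Adj a b' ∧ f b' < f b ∧
      ∀ b'', H.Adj a b'' → f b'' < f b → ∀ v, H.Adj b v → H.Adj b'' v → H.Adj b' v

theorem wg {V : Type} [Fintype V] [DecidableEq V]
    (H : SimpleGraph V) (s : V → Bool)
    (hs : ∀ u v, H.Adj u v → s u ≠ s v) (σ : Bool) (b₀ : V) (hb₀ : s b₀ ≠ σ)
    (hne : ∃ v, H.Adj b₀ v) (e w : ℕ) (he : Nat.card H.edgeSet = e)
    (hw : Nat.card {a : V // s a = σ ∧ ¬ H.Adj b₀ a} = w) (R : Finset V)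
    (hR : ∀ b, b ∈ R ↔ s b ≠ σ ∧ b ≠ b₀) :
    (∀ (F : Finset V) (D : ℕ), (∀ a ∈ F, s a = σ ∧ ¬ H.Adj b₀ a) → (∀ a ∈ F, Arms H a) →
      (∀ a ∈ F, ∀ b, H.Adj a b → Nat.card {v : V // H.Adj b v} ≤ D) →
      (∀ a ∈ F, ∀ a' ∈ F, a ≠ a' → ∀ b b' v, H.Adj a b → H.Adj a' b' →
        ¬ (H.Adj b v ∧ H.Adj b' v)) →
      (1 ≤ D → ∀ (K g n : ℕ) (R' : Finset V), ∑ a ∈ F, Nat.card {b : V // H.Adj a b} * (1 +
          Nat.card {b : V // b ≠ b₀ ∧ ¬ H.Adj a b ∧ ∃ v b', H.Adj a b' ∧ H.Adj b' v ∧ H.Adj b v} +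
          D * (Nat.card {b : V // H.Adj a b} - 1)) = K →
        (∀ b, b ∈ R' ↔ s b ≠ σ ∧ b ≠ b₀ ∧ ∀ a ∈ F, ¬ H.Adj a b) →
        ∑ b ∈ R', (Nat.card {v : V // H.Adj b v ∧ ∀ a ∈ F, ∀ b', H.Adj a b' →
          ¬ H.Adj b' v} + 1 - D) = g →
        ∑ b ∈ R, (Nat.card {v : V // H.Adj b v} + 1 - D) = n →
        (NearSid H s ((n + (K - g)) * (e + w) - n * F.card) (n + (K - g)) ∧
          ∀ (U : Type) [Finite U] [Nonempty U] (G : SimpleGraph U),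
            edgeDensity G ^ ((n + (K - g)) * (e + w) - n * F.card) ≤
              homDensity H G ^ (n + (K - g))) ∧
        (K ≤ g → (NearSid H s (e + w - F.card) 1 ∧
          ∀ (U : Type) [Finite U] [Nonempty U] (G : SimpleGraph U),
            edgeDensity G ^ (e + w - F.card) ≤ homDensity H G) ∧
          (w ≤ F.card → GSid H s ∧ ∀ (U : Type) [Finite U] [Nonempty U] (G : SimpleGraph U),
            edgeDensity G ^ e ≤ homDensity H G))) ∧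
      (2 ≤ D → (∀ a ∈ F, Nat.card {u : V // H.Adj a u} ≤ D) →
        (∀ a ∈ F, ∀ b v, H.Adj a b → H.Adj b v → Nat.card {u : V // u ≠ b₀ ∧ H.Adj v u} ≤ D) →
        D ^ 4 * F.card ≤ ∑ b ∈ R, (Nat.card {v : V // H.Adj b v} + 1 - D) →
        (NearSid H s (e + w - F.card) 1 ∧
          ∀ (U : Type) [Finite U] [Nonempty U] (G : SimpleGraph U),
            edgeDensity G ^ (e + w - F.card) ≤ homDensity H G) ∧
        (w ≤ F.card → GSid H s ∧ ∀ (U : Type) [Finite U] [Nonempty U] (G : SimpleGraph U),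
          edgeDensity G ^ e ≤ homDensity H G))) ∧
    (∀ D : ℕ, 2 ≤ D → (∀ v, v ≠ b₀ → Nat.card {u : V // u ≠ b₀ ∧ H.Adj v u} ≤ D) →
      ∀ S : Finset V, (∀ a ∈ S, s a = σ ∧ ¬ H.Adj b₀ a ∧ Arms H a) →
      NearSid H s (2 * D ^ 5 * (e + w) - S.card) (2 * D ^ 5) ∧
      ∀ (U : Type) [Finite U] [Nonempty U] (G : SimpleGraph U),
        edgeDensity G ^ (2 * D ^ 5 * (e + w) - S.card) ≤ homDensity H G ^ (2 * D ^ 5)) ∧
    (∀ a : V, (Nat.card {b : V // H.Adj a b} ≤ 2 ∨ ∀ a' b b', a ≠ a' → b ≠ b' → H.Adj a b →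
      H.Adj a b' → H.Adj a' b → ¬ H.Adj a' b') → Arms H a) ∧
    ((∀ v, Nat.card {u : V // H.Adj v u} ≤ 3) →
      (¬ ∃ a c : Fin 4 → V, Function.Injective a ∧ Function.Injective c ∧
        ∀ i j, i ≠ j → H.Adj (a i) (c j)) →
      NearSid H s (972 * (e + w) - (w - 3)) 972 ∧
      ∀ (U : Type) [Finite U] [Nonempty U] (G : SimpleGraph U),
        edgeDensity G ^ (972 * (e + w) - (w - 3)) ≤ homDensity H G ^ 972) := by
  have hcore := core2
  have hg := gnonneg2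
  refine ⟨fun F D hF harms hdeg hapart => ⟨?_, ?_⟩, ?_, ?_, fun hd hQ => ?_⟩
  · intro hD K g n R' hK hR' hg' hn
    obtain ⟨h1, h2⟩ := near_fin2 hcore hg hs hb₀ hne F hD hF hdeg harms hapart he hw R R' hR hn
      hR' hg' hK
    refine ⟨⟨h1, fun _ _ _ X => h1.graph X⟩, fun hle => ⟨⟨(h2 hle).1, fun _ _ _ X => ?_⟩,
      fun hwF => ?_⟩⟩
    · have := (h2 hle).1.graph X
      rwa [pow_one] at this
    · have h := (h2 hle).2 hwF
      exact ⟨h, fun _ _ _ G => he ▸ sidorenko_of_gsid h G⟩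
  · intro hD hdF hdV hm
    obtain ⟨h1, h2⟩ := robust_fin3 hcore hg hs hb₀ hne F hD hF hdF hdeg hdV harms hapart he hw R
      hR hm
    refine ⟨⟨h1, fun _ _ _ X => ?_⟩, fun hwF => ?_⟩
    · have := h1.graph X
      rwa [pow_one] at this
    · have h := h2 hwF
      exact ⟨h, fun _ _ _ G => he ▸ sidorenko_of_gsid h G⟩
  · intro D hD hd S hS
    have h := acyc_fin3 hcore hg hs hb₀ hne hD hd S
      (fun a ha => ⟨⟨(hS a ha).1, (hS a ha).2.1⟩, (hS a ha).2.2⟩) he hw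
    exact ⟨h, fun _ _ _ X => h.graph X⟩
  · rintro a (h | h)
    · exact acycG_of_two h
    · exact acycG_of_c4 h
  · have h := cubic_fin hcore hg hs hb₀ hne hd hQ he hw
    exact ⟨h, fun _ _ _ X => h.graph X⟩

end Vale.Agent.P050.R2.H545
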