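import Vale.Agent.P050.R2.H545.WG
import Vale.Agent.P050.R2.H545.Five

/-!
The final form of the theorem.
-/

namespace Vale.Agent.P050.R2.H545

open Vale.Agent.P050 Vale.Agent.P050.Lev Vale.Agent.P050.H148 Vale.Agent.P050.R2.H901

theorem NearSid.one {V : Type} [Fintype V] [DecidableEq V] {H : SimpleGraph V} {s : V → Bool}
    {k : ℕ} (h : NearSid H s k 1) (U : Type) [Finite U] [Nonempty U] (G : SimpleGraph U) :
    edgeDensity G ^ k ≤ homDensity H G := by
  have := h.graph G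
  rwa [pow_one] at this

/-- Let `b₀` be a vertex of one part of the bipartite graph `H`, `w` the number of the vertices of
the other part `σ` not adjacent to `b₀`.
(1) Let `F ⊆ σ` be a set of vertices not adjacent to `b₀`, divided into classes by `cl` such that no
vertex has neighbours in two classes; for each class let the set of its vertices and of the
neighbours of their neighbours have at most `M` vertices. Let `n` be the sum of
`max 0 (deg b + 1 - M)` over the vertices `b ≠ b₀` of the part of `b₀`. Then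
`t ≥ p ^ (e + w - min |F| n)`, and `H` is Sidorenko (two-sided, all nonnegative kernels) if
`w ≤ |F| ≤ n`.
(2) Let the vertices of `F` have `Arms` and pairwise distance greater than `4`, `D ≥ 2`, all vertices
at distance `1` from `F` of degree at most `D`, all vertices at distance `0` or `2` with at most `D`
neighbours other than `b₀`, and `D ^ 4 |F|` at most the sum of `max 0 (deg b + 1 - D)` over the
`b ≠ b₀` of the part of `b₀`. Then `t ≥ p ^ (e + w - |F|)`, and `H` is Sidorenko if `w ≤ |F|`.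
(3) If all vertices other than `b₀` have at most `D ≥ 2` neighbours other than `b₀`, and `S` is a set
of vertices of `σ` which have `Arms` and are not adjacent to `b₀`, then
`t ^ (2 D ^ 5) ≥ p ^ (2 D ^ 5 (e + w) - |S|)`.
(4) If the maximum degree is at most three and `H` contains no cube `Q_3`, then
`t ^ 972 ≥ p ^ (972 (e + w) - (w - 3))`.
(5) `Arms` holds for all vertices of degree at most two and for all vertices on no 4-cycle. -/
theorem wg2 {V : Type} [Fintype V] [DecidableEq V] (H : SimpleGraph V) (s : V → Bool)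
    (hs : ∀ u v, H.Adj u v → s u ≠ s v) (σ : Bool) (b₀ : V) (hb₀ : s b₀ ≠ σ)
    (hne : ∃ v, H.Adj b₀ v) (e w : ℕ) (he : Nat.card H.edgeSet = e)
    (hw : Nat.card {a : V // s a = σ ∧ ¬ H.Adj b₀ a} = w) (R : Finset V)
    (hR : ∀ b, b ∈ R ↔ s b ≠ σ ∧ b ≠ b₀) :
    (∀ F : Finset V, (∀ a ∈ F, s a = σ ∧ ¬ H.Adj b₀ a) →
      (∀ (cl : V → ℕ) (M n : ℕ), 1 ≤ M →
        (∀ b, ∀ a ∈ F, ∀ a' ∈ F, H.Adj b a → H.Adj b a' → cl a = cl a') →
        (∀ a ∈ F, Nat.card {v : V // (v ∈ F ∧ cl v = cl a) ∨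
          ∃ b, ∃ a' ∈ F, cl a' = cl a ∧ H.Adj b a' ∧ H.Adj b v} ≤ M) →
        ∑ b ∈ R, (Nat.card {v : V // H.Adj b v} + 1 - M) = n →
        (NearSid H s (e + w - min F.card n) 1 ∧
          ∀ (U : Type) [Finite U] [Nonempty U] (G : SimpleGraph U),
            edgeDensity G ^ (e + w - min F.card n) ≤ homDensity H G) ∧
        (w ≤ F.card → F.card ≤ n → GSid H s ∧
          ∀ (U : Type) [Finite U] [Nonempty U] (G : SimpleGraph U),
            edgeDensity G ^ e ≤ homDensity H G)) ∧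
      (∀ D : ℕ, 2 ≤ D → (∀ a ∈ F, Arms H a) →
        (∀ a ∈ F, ∀ a' ∈ F, a ≠ a' → ∀ b b' v, H.Adj a b → H.Adj a' b' →
          ¬ (H.Adj b v ∧ H.Adj b' v)) →
        (∀ a ∈ F, Nat.card {u : V // H.Adj a u} ≤ D) →
        (∀ a ∈ F, ∀ b, H.Adj a b → Nat.card {v : V // H.Adj b v} ≤ D) →
        (∀ a ∈ F, ∀ b v, H.Adj a b → H.Adj b v → Nat.card {u : V // u ≠ b₀ ∧ H.Adj v u} ≤ D) →
        D ^ 4 * F.card ≤ ∑ b ∈ R, (Nat.card {v : V // H.Adj b v} + 1 - D) →
        (NearSid H s (e + w - F.card) 1 ∧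
          ∀ (U : Type) [Finite U] [Nonempty U] (G : SimpleGraph U),
            edgeDensity G ^ (e + w - F.card) ≤ homDensity H G) ∧
        (w ≤ F.card → GSid H s ∧ ∀ (U : Type) [Finite U] [Nonempty U] (G : SimpleGraph U),
          edgeDensity G ^ e ≤ homDensity H G))) ∧
    (∀ D : ℕ, 2 ≤ D → (∀ v, v ≠ b₀ → Nat.card {u : V // u ≠ b₀ ∧ H.Adj v u} ≤ D) →
      ∀ S : Finset V, (∀ a ∈ S, s a = σ ∧ ¬ H.Adj b₀ a ∧ Arms H a) →
      NearSid H s (2 * D ^ 5 * (e + w) - S.card) (2 * D ^ 5) ∧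
      ∀ (U : Type) [Finite U] [Nonempty U] (G : SimpleGraph U),
        edgeDensity G ^ (2 * D ^ 5 * (e + w) - S.card) ≤ homDensity H G ^ (2 * D ^ 5)) ∧
    ((∀ v, Nat.card {u : V // H.Adj v u} ≤ 3) →
      (¬ ∃ a c : Fin 4 → V, Function.Injective a ∧ Function.Injective c ∧
        ∀ i j, i ≠ j → H.Adj (a i) (c j)) →
      NearSid H s (972 * (e + w) - (w - 3)) 972 ∧
      ∀ (U : Type) [Finite U] [Nonempty U] (G : SimpleGraph U),
        edgeDensity G ^ (972 * (e + w) - (w - 3)) ≤ homDensity H G ^ 972) ∧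
    (∀ a : V, (Nat.card {b : V // H.Adj a b} ≤ 2 ∨ ∀ a' b b', a ≠ a' → b ≠ b' → H.Adj a b →
      H.Adj a b' → H.Adj a' b → ¬ H.Adj a' b') → Arms H a) := by
  obtain ⟨hA, hC, hD, hE⟩ := wg H s hs σ b₀ hb₀ hne e w he hw R hR
  refine ⟨fun F hF => ⟨?_, ?_⟩, hC, hE, hD⟩
  · intro cl M n hM hcls hsize hn
    obtain ⟨h1, h2⟩ := five_fin gnonneg2 hs hb₀ hne F cl hM hF hcls hsize he hw R hR
    rw [hn] at h1 h2
    refine ⟨⟨h1, fun U _ _ G => NearSid.one h1 U G⟩, fun h3 h4 => ?_⟩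
    have h5 := h2 h3 h4
    exact ⟨h5, fun _ _ _ G => he ▸ sidorenko_of_gsid h5 G⟩
  · intro D hD2 harms hapart hdF hdeg hdV hm
    exact (hA F D hF harms hdeg hapart).2 hD2 hdF hdV hm

end Vale.Agent.P050.R2.H545
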